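import Vale.Agent.TR321.Defs

/-! # P321 module Alg: algebraic identities for the difference of the two strings -/

namespace P321

open Polynomial NC Finset

/-- `J = K^e [ (x0-1) x1 - x1 (x0-1) ] K^{e-1}` up to the factor `f s` -/
theorem Jn_eq (s f : ℝ) {e : ℕ} (he : 1 ≤ e) :
    Jn s f e = (f * s) • (ι (Kp s ^ e * (X - 1)) * x1 * ι (Kp s ^ (e - 1)) -
      ι (Kp s ^ e) * x1 * ι ((X - 1) * Kp s ^ (e - 1))) := by
  obtain ⟨m, rfl⟩ : ∃ m, e = m + 1 := ⟨e - 1, by omega⟩
  have hk : Kp s = 1 + C s * (X - 1) := by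
    rw [Kp, map_sub, map_one]
    ring
  have hk' : ι (Kp s) = 1 + s • ι (X - 1) := by
    rw [hk, map_add, map_one, map_mul, ι_C, smul_mul_assoc, one_mul]
  have hc : Commute (ι (Kp s)) (ι (Kp f)) := by
    change ι (Kp s) * ι (Kp f) = ι (Kp f) * ι (Kp s)
    rw [← map_mul, ← map_mul, mul_comm]
  have hc2 : Commute (ι (Kp s)) (ι (X - 1)) := by
    change ι (Kp s) * ι (X - 1) = ι (X - 1) * ι (Kp s)
    rw [← map_mul, ← map_mul, mul_comm]
  simp only [Jn, site, Fn, Bool.toNat_true, Bool.toNat_false, Nat.add_sub_cancel, Nat.sub_zero,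
    Nat.add_zero, map_pow, map_mul]
  have h1 : ι (Kp s) ^ (m + 1 + 1) * (ι (Kp f) + f • x1) * ι (Kp s) ^ m =
      ι (Kp s) ^ (m + 1) * (ι (Kp f) * ι (Kp s)) * ι (Kp s) ^ m +
      f • (ι (Kp s) ^ (m + 1) * ι (Kp s) * x1 * ι (Kp s) ^ m) := by
    rw [← hc.eq, pow_succ (ι (Kp s)) (m + 1), mul_add, add_mul, mul_smul_comm, smul_mul_assoc]
    simp only [mul_assoc]
  have h2 : ι (Kp s) ^ (m + 1) * (ι (Kp f) + f • x1) * ι (Kp s) ^ (m + 1) =
      ι (Kp s) ^ (m + 1) * (ι (Kp f) * ι (Kp s)) * ι (Kp s) ^ m +
      f • (ι (Kp s) ^ (m + 1) * x1 * (ι (Kp s) * ι (Kp s) ^ m)) := by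
    rw [mul_add, add_mul, mul_smul_comm, smul_mul_assoc, pow_succ' (ι (Kp s)) m]
    simp only [mul_assoc]
  rw [h1, h2, add_sub_add_left_eq_sub, ← smul_sub, mul_smul]
  congr 1
  have h3 : ι (Kp s) ^ (m + 1) * ι (Kp s) * x1 * ι (Kp s) ^ m =
      ι (Kp s) ^ (m + 1) * x1 * ι (Kp s) ^ m +
      s • (ι (Kp s) ^ (m + 1) * ι (X - 1) * x1 * ι (Kp s) ^ m) := by
    conv_lhs =>
      enter [1, 1, 2]
      rw [hk']
    rw [mul_add, mul_one, add_mul, add_mul, mul_smul_comm, smul_mul_assoc, smul_mul_assoc]
  have h4 : ι (Kp s) ^ (m + 1) * x1 * (ι (Kp s) * ι (Kp s) ^ m) =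
      ι (Kp s) ^ (m + 1) * x1 * ι (Kp s) ^ m +
      s • (ι (Kp s) ^ (m + 1) * x1 * (ι (X - 1) * ι (Kp s) ^ m)) := by
    conv_lhs =>
      enter [2, 1]
      rw [hk']
    rw [add_mul, one_mul, mul_add, smul_mul_assoc, mul_smul_comm]
  rw [h3, h4, add_sub_add_left_eq_sub, ← smul_sub]

theorem An_eq (s f : ℝ) (e : ℕ) : An s f e = ι (Gp s f e) + Qn s f e := by
  have h : Gp s f e = Kp s ^ e * Kp f * Kp s ^ e := by
    rw [Gp]
    ring
  simp only [An, site, Fn, Bool.toNat_false, Nat.sub_zero, Nat.add_zero, Qn, h, map_mul]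
  rw [mul_add, add_mul, mul_smul_comm, smul_mul_assoc]

theorem sites_append (s f : ℝ) (e : ℕ) (as bs : List Bool) :
    sites s f e (as ++ bs) = sites s f e as * sites s f e bs := by
  rw [sites, List.map_append, List.prod_append]
  rfl

theorem sites_replicate (s f : ℝ) (e n : ℕ) :
    sites s f e (List.replicate n false) = An s f e ^ n := by
  rw [sites, List.map_replicate, List.prod_replicate]
  rfl

theorem sites_nil (s f : ℝ) (e : ℕ) : sites s f e [] = 1 := rfl

theorem sites_cons (s f : ℝ) (e : ℕ) (α : Bool) (as : List Bool) :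
    sites s f e (α :: as) = An s f e * sites s f e as +
      (if α then Jn s f e * sites s f e as else 0) := by
  have h : sites s f e (α :: as) = site s f e α * sites s f e as := by
    rw [sites, List.map_cons, List.prod_cons]
    rfl
  rw [h]
  cases α
  · simp [An]
  · simp only [if_true, An, Jn]
    rw [sub_mul, add_sub_cancel]

/-- first-order part of the product of sites -/
noncomputable def D1 (s f : ℝ) (e : ℕ) : List Bool → NC
  | [] => 0
  | (α :: as) => An s f e * D1 s f e as + (if α then Jn s f e * An s f e ^ as.length else 0)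

/-- remainder of order at least two -/
noncomputable def R2 (s f : ℝ) (e : ℕ) : List Bool → NC
  | [] => 0
  | (α :: as) => An s f e * R2 s f e as +
      (if α then Jn s f e * (sites s f e as - An s f e ^ as.length) else 0)

theorem sites_eq_D1_R2 (s f : ℝ) (e : ℕ) (as : List Bool) :
    sites s f e as = An s f e ^ as.length + D1 s f e as + R2 s f e as := by
  induction as with
  | nil => simp [sites_nil, D1, R2]
  | cons α as ih =>
    rw [sites_cons, D1, R2, List.length_cons, pow_succ']
    have h1 : An s f e * sites s f e as = An s f e * An s f e ^ as.length +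
        An s f e * D1 s f e as + An s f e * R2 s f e as := by
      conv_lhs => rw [ih]
      rw [mul_add, mul_add]
    cases α
    · simp only [Bool.false_eq_true, if_false, add_zero]
      exact h1
    · simp only [if_true]
      rw [h1, mul_sub]
      abel

theorem D1_append (s f : ℝ) (e : ℕ) (as bs : List Bool) :
    D1 s f e (as ++ bs) = D1 s f e as * An s f e ^ bs.length +
      An s f e ^ as.length * D1 s f e bs := by
  induction as with
  | nil => simp [D1]
  | cons α as ih =>
    rw [List.cons_append, D1, ih, D1, List.length_cons, List.length_append, pow_succ', pow_add,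
      mul_add, add_mul]
    cases α
    · simp only [Bool.false_eq_true, if_false, add_zero, zero_mul, mul_assoc]
    · simp only [if_true, mul_assoc]
      abel

theorem tm_length (r : ℕ) : (tm r).length = 2 ^ r := by
  induction r with
  | zero => rfl
  | succ r ih => rw [tm, List.length_append, List.length_map, ih, pow_succ, mul_two]

/-- the first-order difference of a Thue–Morse word and its complement is the iterated
commutator -/
theorem D1_tm (s f : ℝ) (e r : ℕ) :
    D1 s f e (tm r) - D1 s f e ((tm r).map not) = TM (An s f e) (Jn s f e) r := by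
  induction r with
  | zero => simp [tm, D1, TM]
  | succ r ih =>
    have hnn : ((tm r).map not).map not = tm r := by
      rw [List.map_map]
      have : (not ∘ not) = id := by
        funext b
        exact Bool.not_not b
      rw [this, List.map_id]
    rw [tm, List.map_append, D1_append, D1_append, hnn, TM, ← ih, List.length_map, tm_length,
      sub_mul, mul_sub]
    abel

/-- the iterated commutator as a signed sum -/
theorem TM_eq_sum (r : ℕ) : ∃ δ : ℕ → ℝ, (∀ j, |δ j| ≤ 1) ∧ ∀ A Y : NC,
    TM A Y r = ∑ j ∈ range (2 ^ r), δ j • (A ^ j * Y * A ^ (2 ^ r - 1 - j)) := by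
  induction r with
  | zero => exact ⟨fun _ => 1, by simp, fun A Y => by simp [TM]⟩
  | succ r ih =>
    obtain ⟨δ, hδ, h⟩ := ih
    refine ⟨fun j => if j < 2 ^ r then δ j else - δ (j - 2 ^ r), ?_, ?_⟩
    · intro j
      dsimp only
      split_ifs
      · exact hδ _
      · rw [abs_neg]
        exact hδ _
    · intro A Y
      rw [TM, h A Y, pow_succ 2 r, mul_two, Finset.sum_range_add, Finset.sum_mul,
        Finset.mul_sum, sub_eq_add_neg, ← Finset.sum_neg_distrib]
      congr 1
      · apply Finset.sum_congr rfl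
        intro j hj
        have hj' := Finset.mem_range.1 hj
        beta_reduce
        rw [if_pos hj', smul_mul_assoc, mul_assoc, ← pow_add]
        congr 3
        omega
      · apply Finset.sum_congr rfl
        intro j hj
        have hj' := Finset.mem_range.1 hj
        beta_reduce
        rw [if_neg (by omega), Nat.add_sub_cancel_left, neg_smul, mul_smul_comm, pow_add]
        congr 2
        rw [mul_assoc (A ^ 2 ^ r), mul_assoc (A ^ 2 ^ r)]
        congr 3
        omega

/-- `A` commutes with its powers, so they can be moved into `Y` -/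
theorem TM_conj (A Y : NC) (M r : ℕ) :
    A ^ M * TM A Y r * A ^ M = TM A (A ^ M * Y * A ^ M) r := by
  induction r with
  | zero => rfl
  | succ r ih =>
    have hc : Commute (A ^ M) (A ^ (2 ^ r)) := Commute.pow_pow_self A _ _
    rw [TM, TM, ← ih, mul_sub, sub_mul]
    congr 1
    · rw [mul_assoc, mul_assoc, ← hc.eq]
      simp only [mul_assoc]
    · rw [← mul_assoc (A ^ M) (A ^ (2 ^ r)), hc.eq]
      simp only [mul_assoc]

/-- telescoping: `A^j - G^j = ∑ G^i Q A^{j-1-i}` -/
theorem An_pow_sub (s f : ℝ) (e j : ℕ) :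
    An s f e ^ j - ι (Gp s f e) ^ j =
      ∑ i ∈ range j, ι (Gp s f e) ^ i * Qn s f e * An s f e ^ (j - 1 - i) := by
  induction j with
  | zero => simp
  | succ j ih =>
    have hQ : Qn s f e = An s f e - ι (Gp s f e) := by
      rw [An_eq, add_sub_cancel_left]
    have h1 : An s f e ^ (j + 1) - ι (Gp s f e) ^ (j + 1) =
        (An s f e ^ j - ι (Gp s f e) ^ j) * An s f e + ι (Gp s f e) ^ j * Qn s f e := by
      rw [hQ, pow_succ, pow_succ, sub_mul, mul_sub]
      abel
    rw [h1, ih, Finset.sum_range_succ, Finset.sum_mul]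
    congr 1
    · apply Finset.sum_congr rfl
      intro i hi
      have hi' := Finset.mem_range.1 hi
      rw [mul_assoc, ← pow_succ]
      congr 2
      omega
    · rw [Nat.add_sub_cancel, Nat.sub_self, pow_zero, mul_one]

/-- the difference of the iterated commutators for `A` and for its commuting part `G` -/
theorem TM_sub (s f : ℝ) (e r : ℕ) : ∃ δ : ℕ → ℝ, (∀ j, |δ j| ≤ 1) ∧ ∀ Y : NC,
    TM (An s f e) Y r - TM (ι (Gp s f e)) Y r =
      ∑ j ∈ range (2 ^ r), δ j •
        ((∑ i ∈ range j, ι (Gp s f e) ^ i * Qn s f e * An s f e ^ (j - 1 - i) * Y *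
            An s f e ^ (2 ^ r - 1 - j)) +
         (∑ i ∈ range (2 ^ r - 1 - j), ι (Gp s f e) ^ j * Y * ι (Gp s f e) ^ i * Qn s f e *
            An s f e ^ (2 ^ r - 1 - j - 1 - i))) := by
  obtain ⟨δ, hδ, h⟩ := TM_eq_sum r
  refine ⟨δ, hδ, fun Y => ?_⟩
  rw [h, h, ← Finset.sum_sub_distrib]
  apply Finset.sum_congr rfl
  intro j _
  rw [← smul_sub]
  congr 1
  set m := 2 ^ r - 1 - j with hm
  have h1 : An s f e ^ j * Y * An s f e ^ m - ι (Gp s f e) ^ j * Y * ι (Gp s f e) ^ m =
      (An s f e ^ j - ι (Gp s f e) ^ j) * Y * An s f e ^ m +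
      ι (Gp s f e) ^ j * Y * (An s f e ^ m - ι (Gp s f e) ^ m) := by
    rw [sub_mul, sub_mul, mul_sub]
    abel
  rw [h1, An_pow_sub, An_pow_sub, Finset.sum_mul, Finset.sum_mul, Finset.mul_sum]
  congr 1
  apply Finset.sum_congr rfl
  intro i _
  simp only [mul_assoc]

/-- the indicator of the shifted sites -/
noncomputable def shInd (as : List Bool) (i : ℕ) : ℝ := if as.getD i false then 1 else 0

theorem shInd_nil (i : ℕ) : shInd [] i = 0 := by simp [shInd]

theorem shInd_cons_zero (α : Bool) (as : List Bool) :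
    shInd (α :: as) 0 = if α then 1 else 0 := by simp [shInd]

theorem shInd_cons_succ (α : Bool) (as : List Bool) (i : ℕ) :
    shInd (α :: as) (i + 1) = shInd as i := by simp [shInd]

theorem abs_shInd_le (as : List Bool) (i : ℕ) : |shInd as i| ≤ 1 := by
  rw [shInd]
  split_ifs <;> simp

theorem sites_sub_pow (s f : ℝ) (e : ℕ) (as : List Bool) (N : ℕ) (hN : as.length ≤ N) :
    sites s f e as - An s f e ^ as.length = ∑ j ∈ range N, shInd as j •
      (An s f e ^ j * Jn s f e * sites s f e (as.drop (j + 1))) := by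
  induction as generalizing N with
  | nil => simp [sites_nil, shInd_nil]
  | cons α as ih =>
    rw [List.length_cons] at hN
    obtain ⟨N', rfl⟩ : ∃ N', N = N' + 1 := ⟨N - 1, by omega⟩
    rw [Finset.sum_range_succ', shInd_cons_zero, sites_cons, List.length_cons]
    have h1 : ∀ j ∈ range N', shInd (α :: as) (j + 1) •
        (An s f e ^ (j + 1) * Jn s f e * sites s f e ((α :: as).drop (j + 1 + 1))) =
        An s f e * (shInd as j • (An s f e ^ j * Jn s f e * sites s f e (as.drop (j + 1)))) := by
      intro j _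
      rw [shInd_cons_succ, List.drop_succ_cons, mul_smul_comm, pow_succ']
      simp only [mul_assoc]
    rw [Finset.sum_congr rfl h1, ← Finset.mul_sum, ← ih N' (by omega), mul_sub, ← pow_succ']
    cases α
    · simp
    · simp only [if_true, one_smul, pow_zero, one_mul, zero_add, List.drop_succ_cons,
        List.drop_zero]
      abel

theorem R2_eq_sum_aux (s f : ℝ) (e : ℕ) (as : List Bool) (M N : ℕ) (hM : as.length ≤ M)
    (hN : as.length ≤ N) :
    R2 s f e as = ∑ i ∈ range M, ∑ j ∈ range N,
        (shInd as i * shInd as (i + j + 1)) • (An s f e ^ i * Jn s f e * An s f e ^ j *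
          Jn s f e * sites s f e (as.drop (i + j + 2))) := by
  induction as generalizing M with
  | nil => simp [R2, shInd_nil]
  | cons α as ih =>
    rw [List.length_cons] at hM hN
    obtain ⟨M', rfl⟩ : ∃ M', M = M' + 1 := ⟨M - 1, by omega⟩
    rw [Finset.sum_range_succ', R2, ih M' (by omega) (by omega), Finset.mul_sum]
    congr 1
    · apply Finset.sum_congr rfl
      intro i _
      rw [Finset.mul_sum]
      apply Finset.sum_congr rfl
      intro j _
      rw [shInd_cons_succ, show i + 1 + j + 1 = (i + j + 1) + 1 from by ring, shInd_cons_succ,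
        show i + 1 + j + 2 = (i + j + 2) + 1 from by ring, List.drop_succ_cons, mul_smul_comm,
        pow_succ']
      simp only [mul_assoc]
    · rw [shInd_cons_zero]
      have h1 : ∀ j ∈ range N, ((if α then (1 : ℝ) else 0) * shInd (α :: as) (0 + j + 1)) •
          (An s f e ^ 0 * Jn s f e * An s f e ^ j * Jn s f e *
            sites s f e ((α :: as).drop (0 + j + 2))) =
          ((if α then (1 : ℝ) else 0) • Jn s f e) * (shInd as j • (An s f e ^ j * Jn s f e *
            sites s f e (as.drop (j + 1)))) := by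
        intro j _
        rw [zero_add, shInd_cons_succ, show j + 2 = (j + 1) + 1 from rfl, List.drop_succ_cons,
          mul_smul_comm, smul_mul_assoc, smul_smul, pow_zero, one_mul, mul_comm (shInd as j)]
        simp only [mul_assoc]
      rw [Finset.sum_congr rfl h1, ← Finset.mul_sum, ← sites_sub_pow s f e as N (by omega)]
      cases α
      · simp
      · simp

/-- the second order remainder as a finite sum of terms `A^i J A^j J (sites rest)` -/
theorem R2_eq_sum (s f : ℝ) (e : ℕ) (as : List Bool) :
    ∃ χ : ℕ → ℕ → ℝ, (∀ i j, |χ i j| ≤ 1) ∧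
      R2 s f e as = ∑ i ∈ range as.length, ∑ j ∈ range as.length,
        χ i j • (An s f e ^ i * Jn s f e * An s f e ^ j * Jn s f e *
          sites s f e (as.drop (i + j + 2))) := by
  refine ⟨fun i j => shInd as i * shInd as (i + j + 1), ?_,
    R2_eq_sum_aux s f e as as.length as.length le_rfl le_rfl⟩
  intro i j
  rw [abs_mul]
  exact mul_le_one₀ (abs_shInd_le _ _) (abs_nonneg _) (abs_shInd_le _ _)

end P321
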