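import Vale.Agent.TR321.Defs

/-! # P321 module Coeff: `ℓ¹`, `ℓ²`, sup bounds for `(X-1)^h ((1-s)+sX)^N Q` -/

namespace P321

open Polynomial

private theorem l1_eq_range {P : ℝ[X]} {n : ℕ} (h : P.natDegree < n) :
    l1 P = ∑ k ∈ Finset.range n, |P.coeff k| := by
  refine Finset.sum_subset ?_ ?_
  · intro k hk
    exact Finset.mem_range.mpr (lt_of_le_of_lt (le_natDegree_of_mem_supp k hk) h)
  · intro k _ hk
    rw [notMem_support_iff.mp hk, abs_zero]

private theorem l2_eq_range {P : ℝ[X]} {n : ℕ} (h : P.natDegree < n) :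
    l2 P = ∑ k ∈ Finset.range n, (P.coeff k) ^ 2 := by
  refine Finset.sum_subset ?_ ?_
  · intro k hk
    exact Finset.mem_range.mpr (lt_of_le_of_lt (le_natDegree_of_mem_supp k hk) h)
  · intro k _ hk
    rw [notMem_support_iff.mp hk]
    norm_num

theorem l1_nonneg (P : ℝ[X]) : 0 ≤ l1 P := Finset.sum_nonneg fun _ _ => abs_nonneg _

theorem l2_nonneg (P : ℝ[X]) : 0 ≤ l2 P := Finset.sum_nonneg fun _ _ => sq_nonneg _

/-- partial sums of `|coeff|` -/
theorem sum_abs_coeff_le_l1 (P : ℝ[X]) (Y : ℕ) : ∑ k ∈ Finset.range Y, |P.coeff k| ≤ l1 P := by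
  rw [l1_eq_range (n := max Y (P.natDegree + 1)) (lt_of_lt_of_le (Nat.lt_succ_self _)
    (le_max_right _ _))]
  exact Finset.sum_le_sum_of_subset_of_nonneg
    (Finset.range_subset_range.mpr (le_max_left _ _)) fun _ _ _ => abs_nonneg _

theorem sum_sq_coeff_le_l2 (P : ℝ[X]) (Y : ℕ) : ∑ k ∈ Finset.range Y, (P.coeff k) ^ 2 ≤ l2 P := by
  rw [l2_eq_range (n := max Y (P.natDegree + 1)) (lt_of_lt_of_le (Nat.lt_succ_self _)
    (le_max_right _ _))]
  exact Finset.sum_le_sum_of_subset_of_nonneg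
    (Finset.range_subset_range.mpr (le_max_left _ _)) fun _ _ _ => sq_nonneg _

theorem abs_coeff_le_l1 (P : ℝ[X]) (k : ℕ) : |P.coeff k| ≤ l1 P := by
  refine le_trans ?_ (sum_abs_coeff_le_l1 P (k + 1))
  exact Finset.single_le_sum (f := fun k => |P.coeff k|) (fun _ _ => abs_nonneg _)
    (Finset.mem_range.mpr (Nat.lt_succ_self k))

theorem l1_one : l1 (1 : ℝ[X]) = 1 := by
  rw [l1_eq_range (n := 1) (by simp)]
  simp

theorem l1_X_sub_one : l1 (X - 1 : ℝ[X]) ≤ 2 := by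
  rw [l1_eq_range (n := 2) (by
    refine lt_of_le_of_lt (natDegree_sub_le _ _) ?_
    simp)]
  simp [Finset.sum_range_succ, coeff_one, coeff_X]
  norm_num

theorem l1_add_le (P Q : ℝ[X]) : l1 (P + Q) ≤ l1 P + l1 Q := by
  set n := max P.natDegree Q.natDegree + 1 with hn
  rw [l1_eq_range (n := n) (lt_of_le_of_lt (natDegree_add_le P Q) (Nat.lt_succ_self _)),
    l1_eq_range (P := P) (n := n) (lt_of_le_of_lt (le_max_left _ _) (Nat.lt_succ_self _)),
    l1_eq_range (P := Q) (n := n) (lt_of_le_of_lt (le_max_right _ _) (Nat.lt_succ_self _)),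
    ← Finset.sum_add_distrib]
  refine Finset.sum_le_sum fun k _ => ?_
  rw [coeff_add]
  exact abs_add_le _ _

theorem l1_mul_le (P Q : ℝ[X]) : l1 (P * Q) ≤ l1 P * l1 Q := by
  classical
  set n := P.natDegree + Q.natDegree + 1 with hn
  rw [l1_eq_range (n := n) (lt_of_le_of_lt natDegree_mul_le (Nat.lt_succ_self _)),
    l1_eq_range (P := P) (n := n) (by omega),
    l1_eq_range (P := Q) (n := n) (by omega), Finset.sum_mul_sum, ← Finset.sum_product']
  have h1 : ∀ k ∈ Finset.range n, |(P * Q).coeff k| ≤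
      ∑ x ∈ (Finset.range n ×ˢ Finset.range n).filter (fun x => x.1 + x.2 = k),
        |P.coeff x.1| * |Q.coeff x.2| := by
    intro k hk
    rw [coeff_mul]
    refine le_trans (Finset.abs_sum_le_sum_abs _ _) ?_
    refine le_of_eq ?_
    refine Finset.sum_congr ?_ fun x _ => abs_mul _ _
    ext x
    simp only [Finset.HasAntidiagonal.mem_antidiagonal, Finset.mem_filter, Finset.mem_product, Finset.mem_range]
    rw [Finset.mem_range] at hk
    constructor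
    · intro h
      exact ⟨⟨by omega, by omega⟩, h⟩
    · exact fun h => h.2
  refine le_trans (Finset.sum_le_sum h1) ?_
  rw [← Finset.sum_biUnion]
  · refine Finset.sum_le_sum_of_subset_of_nonneg ?_ ?_
    · intro x hx
      obtain ⟨k, _, hk⟩ := Finset.mem_biUnion.mp hx
      exact (Finset.mem_filter.mp hk).1
    · intro x _ _
      positivity
  · intro i _ j _ hij
    rw [Function.onFun, Finset.disjoint_left]
    intro x hx hx'
    exact hij ((Finset.mem_filter.mp hx).2.symm.trans (Finset.mem_filter.mp hx').2)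

theorem l1_pow_le (P : ℝ[X]) (n : ℕ) : l1 (P ^ n) ≤ l1 P ^ n := by
  induction n with
  | zero => rw [pow_zero, pow_zero, l1_one]
  | succ n ih =>
    rw [pow_succ, pow_succ]
    refine le_trans (l1_mul_le _ _) ?_
    exact mul_le_mul_of_nonneg_right ih (l1_nonneg _)

theorem l1_Kp_le {s : ℝ} (h0 : 0 ≤ s) (h1 : s ≤ 1) : l1 (Kp s) ≤ 1 := by
  have hd : (Kp s).natDegree < 2 := by
    unfold Kp
    refine lt_of_le_of_lt (b := 1) ?_ (by norm_num)
    compute_degree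
  rw [l1_eq_range hd]
  simp only [Kp, Finset.sum_range_succ, Finset.range_zero, Finset.sum_empty, zero_add]
  simp only [coeff_add, coeff_C_mul, coeff_X_zero, coeff_X_one, coeff_C_zero, mul_zero, add_zero,
    mul_one, coeff_C_succ]
  rw [abs_of_nonneg (by linarith), zero_add, abs_of_nonneg h0]
  linarith

theorem l1_Kp_pow_le {s : ℝ} (h0 : 0 ≤ s) (h1 : s ≤ 1) (N : ℕ) : l1 (Kp s ^ N) ≤ 1 :=
  (l1_pow_le _ _).trans (pow_le_one₀ (l1_nonneg _) (l1_Kp_le h0 h1))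

/-- `|P_k| ≤ ∑_j |P_{j-1} - P_j|` -/
theorem abs_coeff_le_l1_sub_one_mul (P : ℝ[X]) (k : ℕ) : |P.coeff k| ≤ l1 ((X - 1) * P) := by
  have h : ∑ j ∈ Finset.range (k + 1), ((X - 1) * P).coeff j = - P.coeff k := by
    induction k with
    | zero => simp [sub_mul]
    | succ k ih =>
      rw [Finset.sum_range_succ, ih, sub_mul, one_mul, coeff_sub, coeff_X_mul]
      ring
  calc |P.coeff k| = |∑ j ∈ Finset.range (k + 1), ((X - 1) * P).coeff j| := by rw [h, abs_neg]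
    _ ≤ ∑ j ∈ Finset.range (k + 1), |((X - 1) * P).coeff j| := Finset.abs_sum_le_sum_abs _ _
    _ ≤ l1 ((X - 1) * P) := sum_abs_coeff_le_l1 _ _

/-- `ℓ²² ≤ sup · ℓ¹` -/
theorem l2_le (P : ℝ[X]) : l2 P ≤ l1 ((X - 1) * P) * l1 P := by
  unfold l2
  have : l1 P = ∑ k ∈ P.support, |P.coeff k| := rfl
  rw [this, Finset.mul_sum]
  refine Finset.sum_le_sum fun k _ => ?_
  rw [← sq_abs, sq]
  exact mul_le_mul_of_nonneg_right (abs_coeff_le_l1_sub_one_mul P k) (abs_nonneg _)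

private theorem coeff_Kp_pow (s : ℝ) (N k : ℕ) :
    (Kp s ^ N).coeff k = s ^ k * (1 - s) ^ (N - k) * (N.choose k : ℝ) := by
  have h : Kp s = (X + C (1 - s)).comp (C s * X) := by
    simp [Kp, add_comm]
  rw [h, ← pow_comp, comp_C_mul_X_coeff, coeff_X_add_C_pow]
  ring

private theorem natDegree_Kp_pow (s : ℝ) (N : ℕ) : (Kp s ^ N).natDegree < N + 1 := by
  refine Nat.lt_succ_of_le (natDegree_pow_le_of_le N (m := 1) ?_ |>.trans (by simp))
  unfold Kp
  compute_degree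

private theorem sum_Kp_pow (s : ℝ) (N : ℕ) :
    ∑ k ∈ Finset.range (N + 1), (Kp s ^ N).coeff k = 1 := by
  have h := eval_eq_sum_range' (natDegree_Kp_pow s N) 1
  simp only [one_pow, mul_one] at h
  rw [← h]
  simp [Kp]

private theorem var_Kp_pow (s : ℝ) (N : ℕ) :
    ∑ k ∈ Finset.range (N + 1), (Kp s ^ N).coeff k * ((k : ℝ) - N * s) ^ 2 =
      N * s * (1 - s) := by
  have h := congrArg (eval s) (bernsteinPolynomial.variance ℝ N)
  simp only [eval_finsetSum, eval_mul, eval_pow, eval_sub, eval_X, eval_one,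
    nsmul_eq_mul, eval_natCast, bernsteinPolynomial] at h
  rw [← h]
  refine Finset.sum_congr rfl fun k _ => ?_
  rw [coeff_Kp_pow]
  ring

/-- Key bound.  With `p_N(k) = C(N,k) s^k (1-s)^(N-k)` one has
`p_N(k-1) - p_N(k) = p_{N+1}(k) (k - (N+1)s) / ((N+1) s (1-s))`, and the variance of the binomial
(`bernsteinPolynomial.variance`) with Cauchy–Schwarz gives the claim. -/
theorem l1_sub_one_mul_Kp_pow {s : ℝ} (h0 : 0 < s) (h1 : s < 1) (N : ℕ) :
    l1 ((X - 1) * Kp s ^ N) ≤ 1 / √(((N : ℝ) + 1) * s * (1 - s)) := by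
  set v : ℝ := ((N : ℝ) + 1) * s * (1 - s) with hv
  have hs1 : 0 < 1 - s := by linarith
  have hvpos : 0 < v := by positivity
  have hpoly : C v * ((X - 1) * Kp s ^ N) =
      X * derivative (Kp s ^ (N + 1)) - C (((N : ℝ) + 1) * s) * Kp s ^ (N + 1) := by
    rw [derivative_pow_succ]
    have e1 : derivative (Kp s) = C s := by simp [Kp]
    have e2 : (X : ℝ[X]) - Kp s = C (1 - s) * (X - 1) := by
      simp only [Kp, C_sub, C_1]; ring
    rw [e1, pow_succ, hv, C_mul, C_mul]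
    calc C ((N : ℝ) + 1) * C s * C (1 - s) * ((X - 1) * Kp s ^ N)
        = C ((N : ℝ) + 1) * C s * Kp s ^ N * (C (1 - s) * (X - 1)) := by ring
      _ = C ((N : ℝ) + 1) * C s * Kp s ^ N * (X - Kp s) := by rw [e2]
      _ = _ := by ring
  have hcoef : ∀ k, v * ((X - 1) * Kp s ^ N).coeff k =
      (Kp s ^ (N + 1)).coeff k * ((k : ℝ) - ((N + 1 : ℕ) : ℝ) * s) := by
    intro k
    have := congrArg (fun P => coeff P k) hpoly
    simp only [coeff_C_mul, coeff_sub] at this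
    rw [this]
    have e3 : (X * derivative (Kp s ^ (N + 1))).coeff k = (Kp s ^ (N + 1)).coeff k * k := by
      cases k with
      | zero => simp
      | succ k => rw [coeff_X_mul, coeff_derivative]; push_cast; ring
    rw [e3]
    push_cast
    ring
  have hdeg : ((X - 1) * Kp s ^ N).natDegree < N + 2 := by
    refine lt_of_le_of_lt natDegree_mul_le ?_
    have h2 := natDegree_Kp_pow s N
    have h3 : (X - 1 : ℝ[X]).natDegree ≤ 1 := by compute_degree
    omega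
  have hp : ∀ k, 0 ≤ (Kp s ^ (N + 1)).coeff k := by
    intro k
    rw [coeff_Kp_pow]
    positivity
  have hl : v * l1 ((X - 1) * Kp s ^ N) = ∑ k ∈ Finset.range (N + 2),
      (Kp s ^ (N + 1)).coeff k * |(k : ℝ) - ((N + 1 : ℕ) : ℝ) * s| := by
    rw [l1_eq_range hdeg, Finset.mul_sum]
    refine Finset.sum_congr rfl fun k _ => ?_
    calc v * |((X - 1) * Kp s ^ N).coeff k| = |v * ((X - 1) * Kp s ^ N).coeff k| := by
          rw [abs_mul, abs_of_pos hvpos]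
      _ = _ := by rw [hcoef, abs_mul, abs_of_nonneg (hp k)]
  have hcs : (∑ k ∈ Finset.range (N + 2),
      (Kp s ^ (N + 1)).coeff k * |(k : ℝ) - ((N + 1 : ℕ) : ℝ) * s|) ^ 2 ≤ v := by
    have h := Finset.sum_sq_le_sum_mul_sum_of_sq_le_mul (Finset.range (N + 1 + 1))
      (r := fun k => (Kp s ^ (N + 1)).coeff k * |(k : ℝ) - ((N + 1 : ℕ) : ℝ) * s|)
      (f := fun k => (Kp s ^ (N + 1)).coeff k)
      (g := fun k => (Kp s ^ (N + 1)).coeff k * ((k : ℝ) - ((N + 1 : ℕ) : ℝ) * s) ^ 2)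
      (fun k _ => hp k) (fun k _ => mul_nonneg (hp k) (sq_nonneg _))
      (fun k _ => le_of_eq (by rw [mul_pow, sq_abs]; ring))
    rw [sum_Kp_pow, var_Kp_pow, one_mul] at h
    refine h.trans (le_of_eq ?_)
    rw [hv]; push_cast; ring
  have hle : v * l1 ((X - 1) * Kp s ^ N) ≤ √v := by
    rw [hl]
    exact Real.le_sqrt_of_sq_le hcs
  rw [le_div_iff₀ (Real.sqrt_pos.mpr hvpos)]
  have hsq : √v * √v = v := Real.mul_self_sqrt hvpos.le
  have hsp : 0 < √v := Real.sqrt_pos.mpr hvpos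
  have : √v * (l1 ((X - 1) * Kp s ^ N) * √v) ≤ √v * 1 := by
    calc √v * (l1 ((X - 1) * Kp s ^ N) * √v) = v * l1 ((X - 1) * Kp s ^ N) := by
          nth_rewrite 3 [← hsq]; ring
      _ ≤ √v * 1 := by rw [mul_one]; exact hle
  exact le_of_mul_le_mul_left this hsp

/-- split `N` into `h` parts of size `⌊N/h⌋` and a rest -/
theorem coeff_bound (h : ℕ) {c : ℝ} (hc : 0 < c) :
    ∃ C : ℝ, 0 < C ∧ ∀ s : ℝ, c ≤ s → s ≤ 1 - c → ∀ N : ℕ, 1 ≤ N →
      l1 ((X - 1) ^ h * Kp s ^ N) ≤ C / (√(N : ℝ)) ^ h := by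
  induction h with
  | zero =>
    refine ⟨1, one_pos, fun s h1 h2 N _ => ?_⟩
    simp only [pow_zero, one_mul, div_one]
    exact l1_Kp_pow_le (by linarith) (by linarith) N
  | succ h ih =>
    obtain ⟨C, hC, hb⟩ := ih
    refine ⟨C * (√2) ^ h * (√2 / c), by positivity, fun s h1 h2 N hN => ?_⟩
    have hN0 : (0 : ℝ) < N := by exact_mod_cast hN
    have hsN : 0 < √(N : ℝ) := Real.sqrt_pos.mpr hN0
    have hs2 : 0 < √(2 : ℝ) := Real.sqrt_pos.mpr two_pos
    set N₁ := N - N / 2 with hN₁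
    set N₂ := N / 2 with hN₂
    have hsum : N = N₁ + N₂ := by omega
    have hN₁' : 1 ≤ N₁ := by omega
    have e : (X - 1 : ℝ[X]) ^ (h + 1) * Kp s ^ N =
        ((X - 1) ^ h * Kp s ^ N₁) * ((X - 1) * Kp s ^ N₂) := by
      conv_lhs => rw [hsum, pow_add]
      ring
    have hb1 : √(N : ℝ) / √2 ≤ √(N₁ : ℝ) := by
      rw [← Real.sqrt_div' _ (by norm_num)]
      apply Real.sqrt_le_sqrt
      rw [div_le_iff₀ two_pos]
      have : N ≤ N₁ * 2 := by omega
      exact_mod_cast this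
    have hb2 : √(N : ℝ) / √2 * c ≤ √(((N₂ : ℝ) + 1) * s * (1 - s)) := by
      apply Real.le_sqrt_of_sq_le
      rw [mul_pow, div_pow, Real.sq_sqrt hN0.le, Real.sq_sqrt (by norm_num)]
      have h3 : (N : ℝ) ≤ ((N₂ : ℝ) + 1) * 2 := by
        have : N ≤ (N₂ + 1) * 2 := by omega
        exact_mod_cast this
      have h4 : c ^ 2 ≤ s * (1 - s) := by nlinarith
      calc (N : ℝ) / 2 * c ^ 2 ≤ ((N₂ : ℝ) + 1) * (s * (1 - s)) := by
            apply mul_le_mul _ h4 (by positivity) (by positivity)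
            linarith
        _ = _ := by ring
    have hp : 0 < √(N : ℝ) / √2 := by positivity
    have f1 : l1 ((X - 1) ^ h * Kp s ^ N₁) ≤ C / (√(N : ℝ) / √2) ^ h := by
      refine (hb s h1 h2 N₁ hN₁').trans ?_
      gcongr
    have f2 : l1 ((X - 1) * Kp s ^ N₂) ≤ 1 / (√(N : ℝ) / √2 * c) := by
      refine (l1_sub_one_mul_Kp_pow (by linarith) (by linarith) N₂).trans ?_
      gcongr
    rw [e]
    refine (l1_mul_le _ _).trans ?_
    refine (mul_le_mul f1 f2 (l1_nonneg _) (by positivity)).trans (le_of_eq ?_)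
    rw [div_pow]
    field_simp
    ring

private theorem l1_mul_Q {P Q : ℝ[X]} {B : ℝ} (hP : l1 P ≤ B) (hQ : l1 Q ≤ 1) : l1 (P * Q) ≤ B := by
  refine (l1_mul_le P Q).trans ?_
  calc l1 P * l1 Q ≤ l1 P * 1 := mul_le_mul_of_nonneg_left hQ (l1_nonneg _)
    _ ≤ B := by rw [mul_one]; exact hP

theorem l2_bound (h : ℕ) {c : ℝ} (hc : 0 < c) :
    ∃ C : ℝ, 0 < C ∧ ∀ s : ℝ, c ≤ s → s ≤ 1 - c → ∀ N : ℕ, 1 ≤ N → ∀ Q : ℝ[X], l1 Q ≤ 1 →
      l2 ((X - 1) ^ h * Kp s ^ N * Q) ≤ C / ((N : ℝ) ^ h * √(N : ℝ)) := by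
  obtain ⟨C₁, hC₁, hb₁⟩ := coeff_bound h hc
  obtain ⟨C₂, hC₂, hb₂⟩ := coeff_bound (h + 1) hc
  refine ⟨C₂ * C₁, by positivity, fun s h1 h2 N hN Q hQ => ?_⟩
  have hN0 : (0 : ℝ) < N := by exact_mod_cast hN
  have hsN : 0 < √(N : ℝ) := Real.sqrt_pos.mpr hN0
  refine (l2_le _).trans ?_
  have e : (X - 1) * ((X - 1) ^ h * Kp s ^ N * Q) = ((X - 1) ^ (h + 1) * Kp s ^ N) * Q := by ring
  rw [e]
  refine (mul_le_mul (l1_mul_Q (hb₂ s h1 h2 N hN) hQ) (l1_mul_Q (hb₁ s h1 h2 N hN) hQ)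
    (l1_nonneg _) (by positivity)).trans (le_of_eq ?_)
  have e2 : (N : ℝ) = √(N : ℝ) ^ 2 := (Real.sq_sqrt hN0.le).symm
  have e3 : (N : ℝ) ^ h = √(N : ℝ) ^ h * √(N : ℝ) ^ h := by
    nth_rewrite 1 [e2]; ring
  rw [e3]
  field_simp
  ring

theorem sup_bound (h : ℕ) {c : ℝ} (hc : 0 < c) :
    ∃ C : ℝ, 0 < C ∧ ∀ s : ℝ, c ≤ s → s ≤ 1 - c → ∀ N : ℕ, 1 ≤ N → ∀ Q : ℝ[X], l1 Q ≤ 1 →
      ∀ y : ℕ, (((X - 1) ^ h * Kp s ^ N * Q).coeff y) ^ 2 ≤ C / (N : ℝ) ^ (h + 1) := by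
  obtain ⟨C₂, hC₂, hb₂⟩ := coeff_bound (h + 1) hc
  refine ⟨C₂ ^ 2, by positivity, fun s h1 h2 N hN Q hQ y => ?_⟩
  have hN0 : (0 : ℝ) < N := by exact_mod_cast hN
  have hsN : 0 < √(N : ℝ) := Real.sqrt_pos.mpr hN0
  have e : (X - 1) * ((X - 1) ^ h * Kp s ^ N * Q) = ((X - 1) ^ (h + 1) * Kp s ^ N) * Q := by ring
  have h3 := abs_coeff_le_l1_sub_one_mul ((X - 1) ^ h * Kp s ^ N * Q) y
  rw [e] at h3
  have h4 := h3.trans (l1_mul_Q (hb₂ s h1 h2 N hN) hQ)
  rw [← sq_abs]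
  refine (pow_le_pow_left₀ (abs_nonneg _) h4 2).trans (le_of_eq ?_)
  have e2 : (N : ℝ) = √(N : ℝ) ^ 2 := (Real.sq_sqrt hN0.le).symm
  rw [div_pow, ← pow_mul, mul_comm (h + 1) 2, pow_mul, ← e2]

end P321
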