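import Vale.Agent.TR321.NCa
import Vale.Agent.TR321.Coeff

/-! # P321 module Bulk: the iterated commutator with a polynomial in `x0` is small

Write `ad Z = Z * x0 - x0 * Z = Z * (x0 - 1) - (x0 - 1) * Z`.  For a polynomial `h`,
`Z * ι h - ι h * Z = ∑_k h_k ∑_{i<k} x0^i * ad Z * x0^(k-1-i)`, and `ad` commutes with left and
right multiplication by elements `ι P`.  Hence with the seminorm `sup_y √(S w y ·)`
`‖ι P * TM (ι G) Y r * ι Q‖ ≤ (∏_{l<r} 2^l d) ‖ι P * ad^r Y * ι Q‖`, and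
`ad^r Y = ∑_i C(r,i) (-1)^i (x0-1)^i Y (x0-1)^(r-i)`. -/

namespace P321

open Polynomial NC Finset

/-- `u` bounds `√(S w y Z)` for all `y` -/
def NB (w : ℝ) (Z : NC) (B : ℝ) : Prop := ∀ y, √(S w y Z) ≤ B

theorem NB.nonneg {w : ℝ} {Z : NC} {B : ℝ} (h : NB w Z B) : 0 ≤ B :=
  (Real.sqrt_nonneg _).trans (h 0)

theorem NB.x0_mul {w : ℝ} {Z : NC} {B : ℝ} (h : NB w Z B) : NB w (x0 * Z) B := by
  intro y
  cases y with
  | zero => rw [S_x0_mul_zero, Real.sqrt_zero]; exact h.nonneg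
  | succ y => rw [S_x0_mul_succ]; exact h y

theorem NB.mul_x0 {w : ℝ} {Z : NC} {B : ℝ} (h : NB w Z B) : NB w (Z * x0) B := by
  intro y
  cases y with
  | zero => rw [S_mul_x0_zero, Real.sqrt_zero]; exact h.nonneg
  | succ y => rw [S_mul_x0_succ]; exact h y

theorem NB.x0_pow_mul {w : ℝ} {Z : NC} {B : ℝ} (h : NB w Z B) (k : ℕ) :
    NB w (x0 ^ k * Z) B := by
  induction k with
  | zero => simpa using h
  | succ k ih =>
    rw [pow_succ', mul_assoc]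
    exact ih.x0_mul

theorem NB.add {w : ℝ} (hw : 0 ≤ w) {Y Z : NC} {A B : ℝ} (hY : NB w Y A) (hZ : NB w Z B) :
    NB w (Y + Z) (A + B) := fun y =>
  (sqrt_S_add hw y Y Z).trans (add_le_add (hY y) (hZ y))

theorem NB.smul {w : ℝ} {Z : NC} {B : ℝ} (h : NB w Z B) (c : ℝ) : NB w (c • Z) (|c| * B) := by
  intro y
  rw [S_smul, Real.sqrt_mul (sq_nonneg c), Real.sqrt_sq_eq_abs]
  exact mul_le_mul_of_nonneg_left (h y) (abs_nonneg c)

theorem NB.sum {w : ℝ} (hw : 0 ≤ w) {α : Type*} (s : Finset α) (F : α → NC) (B : α → ℝ)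
    (h : ∀ i ∈ s, NB w (F i) (B i)) : NB w (∑ i ∈ s, F i) (∑ i ∈ s, B i) := fun y =>
  (sqrt_S_sum hw y s F).trans (Finset.sum_le_sum fun i hi => h i hi y)

/-- the basic commutator -/
noncomputable def ad : Module.End ℝ NC :=
  LinearMap.mulRight ℝ (x0 - 1) - LinearMap.mulLeft ℝ (x0 - 1)

theorem ad_apply (Z : NC) : ad Z = Z * x0 - x0 * Z := by
  simp only [ad, LinearMap.sub_apply, LinearMap.mulRight_apply, LinearMap.mulLeft_apply]
  rw [mul_sub, sub_mul, mul_one, one_mul]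
  abel

/-- the commutator with a polynomial -/
noncomputable def adp (h : ℝ[X]) : Module.End ℝ NC :=
  LinearMap.mulRight ℝ (ι h) - LinearMap.mulLeft ℝ (ι h)

theorem adp_apply (h : ℝ[X]) (Z : NC) : adp h Z = Z * ι h - ι h * Z := rfl

theorem NB.comm_pow {w : ℝ} (hw : 0 ≤ w) {Z : NC} {B : ℝ} (h : NB w (ad Z) B) (k : ℕ) :
    NB w (Z * x0 ^ k - x0 ^ k * Z) (k * B) := by
  induction k with
  | zero =>
    intro y
    simp [S_zero]
  | succ k ih =>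
    have e : Z * x0 ^ (k + 1) - x0 ^ (k + 1) * Z =
        (Z * x0 ^ k - x0 ^ k * Z) * x0 + x0 ^ k * ad Z := by
      rw [ad_apply, pow_succ]
      noncomm_ring
    rw [e]
    have h2 := NB.add hw ih.mul_x0 (h.x0_pow_mul k)
    have e2 : ((k + 1 : ℕ) : ℝ) * B = k * B + B := by push_cast; ring
    rw [e2]
    exact h2

theorem ι_eq_sum (h : ℝ[X]) : ι h = ∑ k ∈ h.support, h.coeff k • x0 ^ k := by
  conv_lhs => rw [h.as_sum_support]
  rw [map_sum]
  refine Finset.sum_congr rfl fun k _ => ?_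
  rw [← C_mul_X_pow_eq_monomial, map_mul, map_pow, ι_X, ι_C, smul_mul_assoc, one_mul]

theorem NB.adp {w : ℝ} (hw : 0 ≤ w) {Z : NC} {B : ℝ} (hZ : NB w (ad Z) B) {h : ℝ[X]} {D : ℕ}
    (h1 : l1 h ≤ 1) (hD : h.natDegree ≤ D) : NB w (adp h Z) (D * B) := by
  have e : P321.adp h Z = ∑ k ∈ h.support, h.coeff k • (Z * x0 ^ k - x0 ^ k * Z) := by
    rw [adp_apply, ι_eq_sum, Finset.mul_sum, Finset.sum_mul, ← Finset.sum_sub_distrib]
    refine Finset.sum_congr rfl fun k _ => ?_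
    rw [mul_smul_comm, smul_mul_assoc, smul_sub]
  have hB := hZ.nonneg
  rw [e]
  intro y
  refine (NB.sum hw h.support _ (fun k => |h.coeff k| * (k * B))
    (fun k _ => (hZ.comm_pow hw k).smul _) y).trans ?_
  calc ∑ k ∈ h.support, |h.coeff k| * (k * B) ≤ ∑ k ∈ h.support, |h.coeff k| * (D * B) := by
        refine Finset.sum_le_sum fun k hk => ?_
        have : (k : ℝ) ≤ D := by exact_mod_cast (le_natDegree_of_mem_supp k hk).trans hD
        gcongr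
    _ = l1 h * (D * B) := by rw [← Finset.sum_mul]; rfl
    _ ≤ 1 * (D * B) := by gcongr
    _ = D * B := one_mul _

theorem ι_comm (P Q : ℝ[X]) : ι P * ι Q = ι Q * ι P := by
  rw [← map_mul, ← map_mul, mul_comm]

theorem x0_comm (P : ℝ[X]) : x0 * ι P = ι P * x0 := by
  have := ι_comm X P
  rwa [ι_X] at this

theorem ad_adp (h : ℝ[X]) (Z : NC) : ad (adp h Z) = adp h (ad Z) := by
  rw [ad_apply, ad_apply, adp_apply, adp_apply]
  have e := x0_comm h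
  have e1 : Z * ι h * x0 = Z * x0 * ι h := by rw [mul_assoc, ← e, mul_assoc]
  have e2 : x0 * (ι h * Z) = ι h * (x0 * Z) := by rw [← mul_assoc, e, mul_assoc]
  rw [sub_mul, mul_sub, e1, e2, sub_mul, mul_sub, mul_assoc (ι h) Z x0, mul_assoc x0 Z (ι h)]
  abel

theorem adpow_adp (h : ℝ[X]) (j : ℕ) (Z : NC) : (ad ^ j) (adp h Z) = adp h ((ad ^ j) Z) := by
  induction j with
  | zero => rfl
  | succ j ih => rw [pow_succ', Module.End.mul_apply, ih, ad_adp, Module.End.mul_apply]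

theorem TM_succ (G : ℝ[X]) (Z : NC) (r : ℕ) :
    TM (ι G) Z (r + 1) = adp (G ^ (2 ^ r)) (TM (ι G) Z r) := by
  rw [adp_apply, map_pow]
  rfl

theorem ι_mul_adp (h P Q : ℝ[X]) (Z : NC) :
    ι P * adp h Z * ι Q = adp h (ι P * Z * ι Q) := by
  rw [adp_apply, adp_apply, mul_sub, sub_mul]
  have e1 : ι P * (Z * ι h) * ι Q = ι P * Z * ι Q * ι h := by
    rw [← mul_assoc, mul_assoc (ι P * Z) (ι h) (ι Q), ι_comm h Q, ← mul_assoc]
  have e2 : ι P * (ι h * Z) * ι Q = ι h * (ι P * Z * ι Q) := by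
    rw [← mul_assoc (ι P), ι_comm P h, mul_assoc (ι h), mul_assoc (ι h)]
  rw [e1, e2]

theorem ι_mul_TM (G P Q : ℝ[X]) (Y : NC) (r : ℕ) :
    ι P * TM (ι G) Y r * ι Q = TM (ι G) (ι P * Y * ι Q) r := by
  induction r with
  | zero => rfl
  | succ r ih => rw [TM_succ, TM_succ, ι_mul_adp, ih]

theorem TM_norm {w : ℝ} (hw : 0 ≤ w) (d : ℕ) (G : ℝ[X]) (hG : l1 G ≤ 1)
    (hd : G.natDegree ≤ d) (Z : NC) (B : ℝ) (r : ℕ) : ∀ j : ℕ, NB w ((ad ^ (j + r)) Z) B →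
      NB w ((ad ^ j) (TM (ι G) Z r)) (2 ^ (r ^ 2) * (d : ℝ) ^ r * B) := by
  induction r with
  | zero =>
    intro j h
    have e : TM (ι G) Z 0 = Z := rfl
    rw [e]
    simpa using h
  | succ r ih =>
    intro j h
    have h1 : NB w ((ad ^ (j + 1 + r)) Z) B := by
      have e : j + 1 + r = j + (r + 1) := by omega
      rwa [e]
    have h2 := ih (j + 1) h1
    rw [pow_succ', Module.End.mul_apply] at h2
    rw [TM_succ, adpow_adp]
    have hl : l1 (G ^ (2 ^ r)) ≤ 1 :=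
      (l1_pow_le G _).trans (pow_le_one₀ (l1_nonneg G) hG)
    have hn : (G ^ (2 ^ r)).natDegree ≤ 2 ^ r * d :=
      natDegree_pow_le.trans (Nat.mul_le_mul_left _ hd)
    have h3 := NB.adp hw h2 hl hn
    intro y
    refine (h3 y).trans ?_
    have hB := h.nonneg
    have e1 : ((2 ^ r * d : ℕ) : ℝ) * (2 ^ (r ^ 2) * (d : ℝ) ^ r * B) =
        2 ^ (r ^ 2 + r) * (d : ℝ) ^ (r + 1) * B := by
      push_cast
      rw [pow_add, pow_succ]
      ring
    rw [e1]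
    have e2 : (2 : ℝ) ^ (r ^ 2 + r) ≤ 2 ^ ((r + 1) ^ 2) :=
      pow_le_pow_right₀ (by norm_num) (by nlinarith)
    gcongr

theorem ad_pow_apply (r : ℕ) (Z : NC) : (ad ^ r) Z =
    ∑ i ∈ range (r + 1), ((-1 : ℝ) ^ i * (r.choose i : ℝ)) •
      ((x0 - 1) ^ i * Z * (x0 - 1) ^ (r - i)) := by
  have hc : Commute (-LinearMap.mulLeft ℝ (x0 - 1 : NC)) (LinearMap.mulRight ℝ (x0 - 1 : NC)) := by
    apply Commute.neg_left
    ext W : 1
    simp only [Module.End.mul_apply, LinearMap.mulLeft_apply, LinearMap.mulRight_apply, mul_assoc]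
  have e : ad = -LinearMap.mulLeft ℝ (x0 - 1 : NC) + LinearMap.mulRight ℝ (x0 - 1 : NC) := by
    rw [ad]; abel
  rw [e, hc.add_pow, LinearMap.sum_apply]
  refine Finset.sum_congr rfl fun i _ => ?_
  have hL : ∀ (n : ℕ) (W : NC), ((-LinearMap.mulLeft ℝ (x0 - 1 : NC)) ^ n) W =
      (-1 : ℝ) ^ n • ((x0 - 1) ^ n * W) := by
    intro n
    induction n with
    | zero => intro W; simp
    | succ n ih =>
      intro W
      rw [pow_succ', Module.End.mul_apply, ih, LinearMap.neg_apply, LinearMap.mulLeft_apply,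
        mul_smul_comm, ← mul_assoc, ← pow_succ', pow_succ (-1 : ℝ) n, mul_neg_one, neg_smul]
  have hR : ∀ (n : ℕ) (W : NC), ((LinearMap.mulRight ℝ (x0 - 1 : NC)) ^ n) W =
      W * (x0 - 1) ^ n := by
    intro n
    induction n with
    | zero => intro W; simp
    | succ n ih =>
      intro W
      rw [pow_succ', Module.End.mul_apply, ih, LinearMap.mulRight_apply, mul_assoc, ← pow_succ]
  have hN : ((r.choose i : Module.End ℝ NC)) Z = (r.choose i : ℝ) • Z := by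
    rw [Module.End.natCast_apply, Nat.cast_smul_eq_nsmul]
  rw [Module.End.mul_apply, Module.End.mul_apply, hN, hR, hL, smul_mul_assoc, mul_smul_comm,
    smul_smul, mul_assoc]

theorem TM_bulk {w : ℝ} (hw : 0 ≤ w) (r d : ℕ) (G : ℝ[X]) (hG : l1 G ≤ 1)
    (hd : G.natDegree ≤ d) (P Q : ℝ[X]) (Y : NC) (B : ℝ) (hY : ∀ y, √(S w y Y) ≤ B) (y : ℕ) :
    √(S w y (ι P * TM (ι G) Y r * ι Q)) ≤
      2 ^ (r ^ 2) * (d : ℝ) ^ r * ∑ i ∈ range (r + 1),
        (r.choose i : ℝ) * l1 ((X - 1) ^ i * P) * l1 ((X - 1) ^ (r - i) * Q) * B := by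
  rw [ι_mul_TM]
  refine TM_norm hw d G hG hd (ι P * Y * ι Q) _ r 0 ?_ y
  rw [zero_add, ad_pow_apply]
  apply NB.sum hw
  intro i _
  have e : (x0 - 1) ^ i * (ι P * Y * ι Q) * (x0 - 1) ^ (r - i) =
      ι ((X - 1) ^ i * P) * (Y * ι ((X - 1) ^ (r - i) * Q)) := by
    rw [map_mul, map_mul, map_pow, map_pow, map_sub, map_one, ι_X]
    have e1 : ι Q * (x0 - 1) ^ (r - i) = (x0 - 1) ^ (r - i) * ι Q := by
      have := ι_comm Q ((X - 1) ^ (r - i))
      rwa [map_pow, map_sub, map_one, ι_X] at this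
    rw [← e1]
    simp only [mul_assoc]
  rw [e]
  have h1 : ∀ y, √(S w y (Y * ι ((X - 1) ^ (r - i) * Q))) ≤ l1 ((X - 1) ^ (r - i) * Q) * B :=
    fun y => sqrt_S_mul_ι_le hw hY _ y
  have h2 : NB w (ι ((X - 1) ^ i * P) * (Y * ι ((X - 1) ^ (r - i) * Q)))
      (l1 ((X - 1) ^ i * P) * (l1 ((X - 1) ^ (r - i) * Q) * B)) :=
    fun y => sqrt_S_ι_mul_le hw h1 _ y
  intro y
  refine (h2.smul _ y).trans (le_of_eq ?_)
  rw [abs_mul, abs_pow, abs_neg, abs_one, one_pow, one_mul, Nat.abs_cast]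
  ring

/-- the resulting bound for the array -/
theorem bulk_bound {c : ℝ} (hc : 0 < c) (k C0 r : ℕ) {w : ℝ} (hw : 0 ≤ w) :
    ∃ C : ℝ, 0 < C ∧ ∀ L : ℕ, 1 ≤ L → ∀ s f : ℝ, Good c s f →
      ∀ a b : ℕ, L ^ (4 * k + 6) ≤ C0 * a → L ^ (4 * k + 6) ≤ C0 * b →
      ∀ (Y : NC) (B : ℝ), SB false w Y B →
      SB false w (ι (Kp s ^ a) * TM (ι (Gp s f (L ^ (2 * k + 2)))) Y r * ι (Kp s ^ b))
        (C * B / (L : ℝ) ^ (2 * r)) := by
  choose Cf hCf0 hCf using fun h : ℕ => coeff_bound h hc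
  -- the constant
  let A : ℝ := 2 ^ (r ^ 2) * 3 ^ r * ∑ i ∈ range (r + 1),
    (r.choose i : ℝ) * (Cf i * √(C0 : ℝ) ^ i) * (Cf (r - i) * √(C0 : ℝ) ^ (r - i)) + 1
  have hA0 : 0 ≤ 2 ^ (r ^ 2) * 3 ^ r * ∑ i ∈ range (r + 1),
    (r.choose i : ℝ) * (Cf i * √(C0 : ℝ) ^ i) * (Cf (r - i) * √(C0 : ℝ) ^ (r - i)) := by
    refine mul_nonneg (by positivity) (Finset.sum_nonneg fun i _ => ?_)
    have h1 := hCf0 i
    have h2 := hCf0 (r - i)
    positivity
  have hA : 0 < A := by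
    simp only [A]
    linarith
  refine ⟨A ^ 2, by positivity, ?_⟩
  intro L hL s f hgood a b ha hb Y B hY
  obtain ⟨hs1, hs2, hf1, hf2⟩ := hgood
  have hB : 0 ≤ B := SB_nonneg hw hY
  have hL0 : (0 : ℝ) < L := by exact_mod_cast hL
  have hLp : 0 < L ^ (4 * k + 6) := pow_pos (by omega) _
  have ha1 : 1 ≤ a := by
    rcases Nat.eq_zero_or_pos a with h | h
    · rw [h, mul_zero] at ha; omega
    · exact h
  have hb1 : 1 ≤ b := by
    rcases Nat.eq_zero_or_pos b with h | h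
    · rw [h, mul_zero] at hb; omega
    · exact h
  -- the coefficient bounds
  have key : ∀ (N : ℕ), 1 ≤ N → L ^ (4 * k + 6) ≤ C0 * N → ∀ i : ℕ,
      l1 ((X - 1) ^ i * Kp s ^ N) ≤ Cf i * √(C0 : ℝ) ^ i / ((L : ℝ) ^ (2 * k + 3)) ^ i := by
    intro N hN hLN i
    refine (hCf i s hs1 hs2 N hN).trans ?_
    have h1 : (L : ℝ) ^ (2 * k + 3) ≤ √(C0 : ℝ) * √(N : ℝ) := by
      rw [← Real.sqrt_mul (Nat.cast_nonneg _)]
      apply Real.le_sqrt_of_sq_le
      rw [← pow_mul]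
      have e : (2 * k + 3) * 2 = 4 * k + 6 := by ring
      rw [e]
      exact_mod_cast hLN
    have hN0 : 0 < √(N : ℝ) := Real.sqrt_pos.mpr (by exact_mod_cast hN)
    have h2 : ((L : ℝ) ^ (2 * k + 3)) ^ i ≤ √(C0 : ℝ) ^ i * √(N : ℝ) ^ i := by
      rw [← mul_pow]
      exact pow_le_pow_left₀ (by positivity) h1 i
    rw [div_le_div_iff₀ (by positivity) (by positivity), mul_assoc]
    exact mul_le_mul_of_nonneg_left h2 (hCf0 i).le
  -- the polynomial `G`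
  have hs0 : 0 ≤ s := hc.le.trans hs1
  have hs0' : s ≤ 1 := by linarith
  have hf0 : 0 ≤ f := hc.le.trans hf1
  have hf0' : f ≤ 1 := by linarith
  have hKpdeg : ∀ t : ℝ, (Kp t).natDegree ≤ 1 := by
    intro t
    unfold Kp
    refine (natDegree_add_le _ _).trans (max_le ?_ ?_)
    · rw [natDegree_C]; exact Nat.zero_le _
    · exact (natDegree_C_mul_le _ _).trans natDegree_X_le
  have hG1 : l1 (Gp s f (L ^ (2 * k + 2))) ≤ 1 := by
    refine (l1_mul_le _ _).trans ?_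
    have h1 := l1_Kp_le hf0 hf0'
    have h2 := l1_Kp_pow_le hs0 hs0' (2 * L ^ (2 * k + 2))
    calc l1 (Kp f) * l1 (Kp s ^ (2 * L ^ (2 * k + 2))) ≤ 1 * 1 :=
          mul_le_mul h1 h2 (l1_nonneg _) zero_le_one
      _ = 1 := one_mul 1
  have hGd : (Gp s f (L ^ (2 * k + 2))).natDegree ≤ 3 * L ^ (2 * k + 2) := by
    have h1 : 0 < L ^ (2 * k + 2) := pow_pos (by omega) _
    have h2 : (Kp s ^ (2 * L ^ (2 * k + 2))).natDegree ≤ 2 * L ^ (2 * k + 2) := by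
      refine natDegree_pow_le.trans ?_
      calc 2 * L ^ (2 * k + 2) * (Kp s).natDegree ≤ 2 * L ^ (2 * k + 2) * 1 :=
            Nat.mul_le_mul_left _ (hKpdeg s)
        _ = _ := mul_one _
    refine natDegree_mul_le.trans ?_
    have h3 := hKpdeg f
    omega
  have hYs : ∀ y, √(S w y Y) ≤ √B := fun y => Real.sqrt_le_sqrt (hY y)
  have hmain := TM_bulk hw r (3 * L ^ (2 * k + 2)) (Gp s f (L ^ (2 * k + 2))) hG1 hGd
    (Kp s ^ a) (Kp s ^ b) Y (√B) hYs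
  have hbound : 2 ^ (r ^ 2) * ((3 * L ^ (2 * k + 2) : ℕ) : ℝ) ^ r * ∑ i ∈ range (r + 1),
      (r.choose i : ℝ) * l1 ((X - 1) ^ i * Kp s ^ a) * l1 ((X - 1) ^ (r - i) * Kp s ^ b) * √B ≤
      A * √B / (L : ℝ) ^ r := by
    have h1 : ∑ i ∈ range (r + 1),
        (r.choose i : ℝ) * l1 ((X - 1) ^ i * Kp s ^ a) * l1 ((X - 1) ^ (r - i) * Kp s ^ b) * √B ≤
        (∑ i ∈ range (r + 1), (r.choose i : ℝ) * (Cf i * √(C0 : ℝ) ^ i) *
          (Cf (r - i) * √(C0 : ℝ) ^ (r - i))) * (√B / ((L : ℝ) ^ (2 * k + 3)) ^ r) := by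
      rw [Finset.sum_mul]
      refine Finset.sum_le_sum fun i hi => ?_
      have hir : i ≤ r := Nat.lt_succ_iff.mp (Finset.mem_range.mp hi)
      have ka := key a ha1 ha i
      have kb := key b hb1 hb (r - i)
      have e : ((L : ℝ) ^ (2 * k + 3)) ^ r =
          ((L : ℝ) ^ (2 * k + 3)) ^ i * ((L : ℝ) ^ (2 * k + 3)) ^ (r - i) := by
        rw [← pow_add, Nat.add_sub_cancel' hir]
      have hCi := hCf0 i
      calc (r.choose i : ℝ) * l1 ((X - 1) ^ i * Kp s ^ a) *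
            l1 ((X - 1) ^ (r - i) * Kp s ^ b) * √B ≤
          (r.choose i : ℝ) * (Cf i * √(C0 : ℝ) ^ i / ((L : ℝ) ^ (2 * k + 3)) ^ i) *
            (Cf (r - i) * √(C0 : ℝ) ^ (r - i) / ((L : ℝ) ^ (2 * k + 3)) ^ (r - i)) * √B := by
            have hn1 := l1_nonneg ((X - 1) ^ i * Kp s ^ a)
            have hn2 := l1_nonneg ((X - 1) ^ (r - i) * Kp s ^ b)
            gcongr
        _ = (r.choose i : ℝ) * (Cf i * √(C0 : ℝ) ^ i) * (Cf (r - i) * √(C0 : ℝ) ^ (r - i)) *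
            (√B / ((L : ℝ) ^ (2 * k + 3)) ^ r) := by
            rw [e]
            field_simp
    have h2 : (0 : ℝ) ≤ 2 ^ (r ^ 2) * ((3 * L ^ (2 * k + 2) : ℕ) : ℝ) ^ r := by positivity
    refine (mul_le_mul_of_nonneg_left h1 h2).trans ?_
    have e3 : 2 ^ (r ^ 2) * ((3 * L ^ (2 * k + 2) : ℕ) : ℝ) ^ r *
        ((∑ i ∈ range (r + 1), (r.choose i : ℝ) * (Cf i * √(C0 : ℝ) ^ i) *
          (Cf (r - i) * √(C0 : ℝ) ^ (r - i))) * (√B / ((L : ℝ) ^ (2 * k + 3)) ^ r)) =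
        (2 ^ (r ^ 2) * 3 ^ r * ∑ i ∈ range (r + 1), (r.choose i : ℝ) * (Cf i * √(C0 : ℝ) ^ i) *
          (Cf (r - i) * √(C0 : ℝ) ^ (r - i))) * √B / (L : ℝ) ^ r := by
      have e4 : ((L : ℝ) ^ (2 * k + 3)) ^ r = ((L : ℝ) ^ (2 * k + 2)) ^ r * (L : ℝ) ^ r := by
        rw [← mul_pow, ← pow_succ]
      push_cast
      rw [e4, mul_pow]
      field_simp
    rw [e3]
    apply div_le_div_of_nonneg_right _ (by positivity)
    apply mul_le_mul_of_nonneg_right _ (Real.sqrt_nonneg _)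
    simp only [A]
    linarith
  intro y
  have hfin := (hmain y).trans hbound
  have hS := S_nonneg hw y
    (ι (Kp s ^ a) * TM (ι (Gp s f (L ^ (2 * k + 2)))) Y r * ι (Kp s ^ b))
  have hsq : S w y (ι (Kp s ^ a) * TM (ι (Gp s f (L ^ (2 * k + 2)))) Y r * ι (Kp s ^ b)) ≤
      (A * √B / (L : ℝ) ^ r) ^ 2 := by
    rw [← Real.sqrt_le_left (by positivity)]
    exact hfin
  refine hsq.trans (le_of_eq ?_)
  rw [div_pow, mul_pow, Real.sq_sqrt hB, ← pow_mul, mul_comm r 2]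

end P321
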