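import Mathlib

/-! # P321 module Sums: elementary sums -/

namespace P321

open Finset

theorem sum_inv_sqrt (v : ℕ) : ∑ j ∈ range v, 1 / √((j : ℝ) + 1) ≤ 2 * √(v : ℝ) := by
  induction v with
  | zero => simp
  | succ v ih =>
    rw [sum_range_succ]
    have hv : (0 : ℝ) ≤ v := Nat.cast_nonneg v
    push_cast
    have h1 : 0 < √((v : ℝ) + 1) := Real.sqrt_pos.mpr (by positivity)
    have h2 : √(v : ℝ) ≤ √((v : ℝ) + 1) := Real.sqrt_le_sqrt (by linarith)
    have h3 : √((v : ℝ) + 1) ^ 2 = (v : ℝ) + 1 := Real.sq_sqrt (by positivity)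
    have h4 : √(v : ℝ) ^ 2 = (v : ℝ) := Real.sq_sqrt hv
    have h5 : 1 / √((v : ℝ) + 1) ≤ 2 * (√((v : ℝ) + 1) - √(v : ℝ)) := by
      rw [div_le_iff₀ h1]
      nlinarith [Real.sqrt_nonneg (v : ℝ)]
    linarith

theorem sum_inv_32 (v : ℕ) :
    ∑ j ∈ range v, 1 / (((j : ℝ) + 1) * √((j : ℝ) + 1)) ≤ 3 := by
  have key : ∀ v : ℕ, ∑ j ∈ range (v + 1), 1 / (((j : ℝ) + 1) * √((j : ℝ) + 1)) ≤
      3 - 2 / √((v : ℝ) + 1) := by
    intro v
    induction v with
    | zero => norm_num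
    | succ v ih =>
      rw [sum_range_succ]
      have hv : (0 : ℝ) ≤ v := Nat.cast_nonneg v
      push_cast
      set x := √((v : ℝ) + 1) with hx
      set y := √((v : ℝ) + 1 + 1) with hy
      have hx0 : 0 < x := Real.sqrt_pos.mpr (by positivity)
      have hy0 : 0 < y := Real.sqrt_pos.mpr (by positivity)
      have hxy : x ≤ y := Real.sqrt_le_sqrt (by linarith)
      have hx2 : x ^ 2 = (v : ℝ) + 1 := Real.sq_sqrt (by positivity)
      have hy2 : y ^ 2 = (v : ℝ) + 1 + 1 := Real.sq_sqrt (by positivity)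
      have h5 : 1 / (((v : ℝ) + 1 + 1) * y) ≤ 2 / x - 2 / y := by
        rw [← hy2, div_sub_div _ _ hx0.ne' hy0.ne', div_le_div_iff₀ (by positivity)
          (by positivity)]
        have h6 : y ^ 2 - x ^ 2 = 1 := by rw [hx2, hy2]; ring
        have h7 : (y - x) * (y + x) = 1 := by nlinarith
        have h8 : 0 ≤ y - x := by linarith
        have h9 : 1 ≤ (y - x) * (2 * y) := by nlinarith
        have h10 : x * y ≤ y ^ 2 := by nlinarith
        have h11 : 0 ≤ (y - x) * (2 * y) - 1 := by linarith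
        nlinarith [mul_nonneg h11 (sq_nonneg y)]
      linarith
  rcases v with _ | v
  · simp
  · have h := key v
    have h2 : 0 ≤ 2 / √((v : ℝ) + 1) := by positivity
    linarith

theorem sum_reflect_aux (v : ℕ) (g : ℝ → ℝ) :
    ∑ j ∈ range v, g (((v - 1 - j : ℕ) : ℝ) + 1) = ∑ j ∈ range v, g ((j : ℝ) + 1) :=
  sum_range_reflect (fun j => g ((j : ℝ) + 1)) v

theorem cast_aux {v j : ℕ} (hj : j ∈ range v) :
    (((v - 1 - j : ℕ) : ℝ) + 1) + ((j : ℝ) + 1) = (v : ℝ) + 1 := by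
  have hj' := mem_range.mp hj
  have : (v - 1 - j) + 1 + (j + 1) = v + 1 := by omega
  exact_mod_cast this

theorem inv_le_of {x s : ℝ} (hx : 0 < x) (hs : 0 < s) (h : 2 / 3 * s ≤ x) :
    1 / x ≤ 3 / 2 / s := by
  rw [div_le_div_iff₀ hx hs]; linarith

theorem sum_conv1 (v : ℕ) :
    ∑ j ∈ range v, (1 / √(((v - 1 - j : ℕ) : ℝ) + 1)) / √((j : ℝ) + 1) ≤ 8 := by
  set s := √((v : ℝ) + 1) with hs
  have hs0 : 0 < s := Real.sqrt_pos.mpr (by positivity)
  have hs2 : s ^ 2 = (v : ℝ) + 1 := Real.sq_sqrt (by positivity)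
  have hterm : ∀ j ∈ range v, (1 / √(((v - 1 - j : ℕ) : ℝ) + 1)) / √((j : ℝ) + 1) ≤
      (3 / 2 / s) * (1 / √(((v - 1 - j : ℕ) : ℝ) + 1)) + (3 / 2 / s) * (1 / √((j : ℝ) + 1)) := by
    intro j hj
    have hab := cast_aux hj
    set x := √(((v - 1 - j : ℕ) : ℝ) + 1) with hx
    set y := √((j : ℝ) + 1) with hy
    have hx0 : 0 < x := Real.sqrt_pos.mpr (by positivity)
    have hy0 : 0 < y := Real.sqrt_pos.mpr (by positivity)
    have hx2 : x ^ 2 = (((v - 1 - j : ℕ) : ℝ) + 1) := Real.sq_sqrt (by positivity)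
    have hy2 : y ^ 2 = ((j : ℝ) + 1) := Real.sq_sqrt (by positivity)
    have hsum : x ^ 2 + y ^ 2 = s ^ 2 := by rw [hx2, hy2, hs2]; exact hab
    rw [div_eq_mul_one_div (1 / x) y]
    have hix : 0 ≤ 1 / x := by positivity
    have hiy : 0 ≤ 1 / y := by positivity
    have his : 0 ≤ 3 / 2 / s := by positivity
    by_cases h : 2 / 3 * s ≤ x
    · have h1 := inv_le_of hx0 hs0 h
      have h2 := mul_le_mul_of_nonneg_right h1 hiy
      nlinarith [mul_nonneg his hix]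
    · have h' : 2 / 3 * s ≤ y := by
        rw [not_le] at h
        by_contra hc
        rw [not_le] at hc
        nlinarith
      have h1 := inv_le_of hy0 hs0 h'
      have h2 := mul_le_mul_of_nonneg_right h1 hix
      nlinarith [mul_nonneg his hiy]
  refine (sum_le_sum hterm).trans ?_
  rw [sum_add_distrib, ← mul_sum, ← mul_sum]
  have e1 : ∑ j ∈ range v, 1 / √(((v - 1 - j : ℕ) : ℝ) + 1) = ∑ j ∈ range v, 1 / √((j : ℝ) + 1) :=
    sum_reflect_aux v (fun t => 1 / √t)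
  rw [e1]
  have h1 := sum_inv_sqrt v
  have h2 : √(v : ℝ) ≤ s := Real.sqrt_le_sqrt (by linarith)
  have h3 : (3 / 2 / s) * ∑ j ∈ range v, 1 / √((j : ℝ) + 1) ≤ 3 := by
    calc (3 / 2 / s) * ∑ j ∈ range v, 1 / √((j : ℝ) + 1) ≤ (3 / 2 / s) * (2 * s) := by
          gcongr
          linarith
      _ = 3 := by field_simp
  linarith

theorem sum_conv2 (v : ℕ) :
    ∑ j ∈ range v, (1 / ((((v - 1 - j : ℕ) : ℝ) + 1) * √(((v - 1 - j : ℕ) : ℝ) + 1))) /
      √((j : ℝ) + 1) ≤ 40 / √((v : ℝ) + 1) := by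
  set s := √((v : ℝ) + 1) with hs
  have hs0 : 0 < s := Real.sqrt_pos.mpr (by positivity)
  have hs2 : s ^ 2 = (v : ℝ) + 1 := Real.sq_sqrt (by positivity)
  have hs1 : 1 ≤ s := by
    rw [hs, Real.one_le_sqrt]
    have : (0 : ℝ) ≤ v := Nat.cast_nonneg v
    linarith
  have hterm : ∀ j ∈ range v,
      (1 / ((((v - 1 - j : ℕ) : ℝ) + 1) * √(((v - 1 - j : ℕ) : ℝ) + 1))) / √((j : ℝ) + 1) ≤
      (3 / 2 / s) * (1 / ((((v - 1 - j : ℕ) : ℝ) + 1) * √(((v - 1 - j : ℕ) : ℝ) + 1))) +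
        (3 / 2 / s) ^ 3 * (1 / √((j : ℝ) + 1)) := by
    intro j hj
    have hab := cast_aux hj
    set x := √(((v - 1 - j : ℕ) : ℝ) + 1) with hx
    set y := √((j : ℝ) + 1) with hy
    have hx0 : 0 < x := Real.sqrt_pos.mpr (by positivity)
    have hy0 : 0 < y := Real.sqrt_pos.mpr (by positivity)
    have hx2 : x ^ 2 = (((v - 1 - j : ℕ) : ℝ) + 1) := Real.sq_sqrt (by positivity)
    have hy2 : y ^ 2 = ((j : ℝ) + 1) := Real.sq_sqrt (by positivity)
    have hsum : x ^ 2 + y ^ 2 = s ^ 2 := by rw [hx2, hy2, hs2]; exact hab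
    rw [← hx2]
    have e : 1 / (x ^ 2 * x) = (1 / x) ^ 3 := by field_simp
    rw [e, div_eq_mul_one_div ((1 / x) ^ 3) y]
    have hix : 0 ≤ 1 / x := by positivity
    have hiy : 0 ≤ 1 / y := by positivity
    have his : 0 ≤ 3 / 2 / s := by positivity
    by_cases h : 2 / 3 * s ≤ x
    · have h1 := inv_le_of hx0 hs0 h
      have h3 : (1 / x) ^ 3 ≤ (3 / 2 / s) ^ 3 := pow_le_pow_left₀ hix h1 3
      have h2 := mul_le_mul_of_nonneg_right h3 hiy
      nlinarith [mul_nonneg his (pow_nonneg hix 3)]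
    · have h' : 2 / 3 * s ≤ y := by
        rw [not_le] at h
        by_contra hc
        rw [not_le] at hc
        nlinarith
      have h1 := inv_le_of hy0 hs0 h'
      have h2 := mul_le_mul_of_nonneg_right h1 (pow_nonneg hix 3)
      nlinarith [mul_nonneg (pow_nonneg his 3) hiy]
  refine (sum_le_sum hterm).trans ?_
  rw [sum_add_distrib, ← mul_sum, ← mul_sum]
  have e1 : ∑ j ∈ range v, 1 / ((((v - 1 - j : ℕ) : ℝ) + 1) * √(((v - 1 - j : ℕ) : ℝ) + 1)) =
      ∑ j ∈ range v, 1 / (((j : ℝ) + 1) * √((j : ℝ) + 1)) :=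
    sum_reflect_aux v (fun t => 1 / (t * √t))
  rw [e1]
  have h1 := sum_inv_sqrt v
  have h32 := sum_inv_32 v
  have h2 : √(v : ℝ) ≤ s := Real.sqrt_le_sqrt (by linarith)
  have h3 : (3 / 2 / s) ^ 3 * ∑ j ∈ range v, 1 / √((j : ℝ) + 1) ≤ 27 / 4 / s := by
    calc (3 / 2 / s) ^ 3 * ∑ j ∈ range v, 1 / √((j : ℝ) + 1) ≤ (3 / 2 / s) ^ 3 * (2 * s) := by
          gcongr
          linarith
      _ = 27 / 4 / s ^ 2 := by field_simp; norm_num
      _ ≤ 27 / 4 / s := by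
          gcongr
          nlinarith
  have h4 : (3 / 2 / s) * ∑ j ∈ range v, 1 / (((j : ℝ) + 1) * √((j : ℝ) + 1)) ≤ 9 / 2 / s := by
    calc (3 / 2 / s) * ∑ j ∈ range v, 1 / (((j : ℝ) + 1) * √((j : ℝ) + 1))
        ≤ (3 / 2 / s) * 3 := by gcongr
      _ = 9 / 2 / s := by ring
  have h5 : 9 / 2 / s + 27 / 4 / s ≤ 40 / s := by
    rw [← add_div]
    gcongr
    norm_num
  linarith

theorem sum_conv3 (v : ℕ) :
    ∑ j ∈ range v, (1 / √(((v - 1 - j : ℕ) : ℝ) + 1)) / (((j : ℝ) + 1) * √((j : ℝ) + 1)) ≤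
      40 / √((v : ℝ) + 1) := by
  refine le_trans (le_of_eq ?_) (sum_conv2 v)
  rw [← sum_range_reflect]
  refine sum_congr rfl fun j hj => ?_
  have hj' := mem_range.mp hj
  have e : v - 1 - (v - 1 - j) = j := by omega
  rw [e, div_div, div_div]
  congr 1
  ring

end P321
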