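import Vale.Agent.TR321.Steps
import Vale.Agent.TR321.Sums

/-! # P321 module Chain: bounds for chains -/

namespace P321

open Polynomial NC Finset

/-! ### auxiliary facts -/

theorem Good.facts {c s f : ℝ} (hc : 0 < c) (h : Good c s f) :
    0 ≤ s ∧ s ≤ 1 ∧ 0 ≤ f ∧ f ≤ 1 := by
  obtain ⟨h1, h2, h3, h4⟩ := h
  exact ⟨by linarith, by linarith, by linarith, by linarith⟩

theorem Adm.drop {k L : ℕ} {cs : List ℕ} (h : Adm k L cs) (j : ℕ) : Adm k L (cs.drop j) :=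
  ⟨(List.length_drop (i := j) (l := cs)).le.trans ((Nat.sub_le _ _).trans h.1),
    fun a ha => h.2 a (List.mem_of_mem_drop ha)⟩

theorem Adm.sum_ge {k L : ℕ} {cs : List ℕ} (h : Adm k L cs) :
    cs.length * L ^ (2 * k + 2) ≤ cs.sum := by
  have := List.card_nsmul_le_sum cs (L ^ (2 * k + 2)) (fun a ha => (h.2 a ha).1)
  simpa using this

/-- `√(v + 1) ≤ 2 L^k` -/
theorem sqrt_le_of_adm {k L : ℕ} (hL : 1 ≤ L) {v : ℕ} (hv : v ≤ 3 * L ^ (2 * k)) :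
    √((v : ℝ) + 1) ≤ 2 * (L : ℝ) ^ k := by
  have hL' : (1 : ℝ) ≤ (L : ℝ) := by exact_mod_cast hL
  have h1 : (v : ℝ) ≤ 3 * (L : ℝ) ^ (2 * k) := by exact_mod_cast hv
  have h2 : (1 : ℝ) ≤ (L : ℝ) ^ (2 * k) := one_le_pow₀ hL'
  have h3 : (L : ℝ) ^ (2 * k) = ((L : ℝ) ^ k) ^ 2 := by rw [← pow_mul]; ring_nf
  rw [Real.sqrt_le_left (by positivity)]
  rw [h3] at h1 h2
  nlinarith

theorem one_le_sqrt (v : ℕ) : 1 ≤ √((v : ℝ) + 1) := by
  rw [Real.one_le_sqrt]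
  have : (0 : ℝ) ≤ v := Nat.cast_nonneg v
  linarith

theorem sqrt_sq_succ (v : ℕ) : √((v : ℝ) + 1) ^ 2 = (v : ℝ) + 1 :=
  Real.sq_sqrt (by positivity)

theorem l1_mul_le_one {P Q : ℝ[X]} (hP : l1 P ≤ 1) (hQ : l1 Q ≤ 1) : l1 (P * Q) ≤ 1 := by
  refine (l1_mul_le P Q).trans ?_
  have h1 := l1_nonneg P
  have h2 := l1_nonneg Q
  nlinarith

/-- sum bound of the pure part, `h` derivatives -/
theorem pure_l2 (h : ℕ) {c : ℝ} (hc : 0 < c) :
    ∃ C : ℝ, 0 < C ∧ ∀ s : ℝ, c ≤ s → s ≤ 1 - c → ∀ (n : ℕ) (ρ : ℝ), 0 < ρ → ρ ^ 2 ≤ n →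
      ∀ Q : ℝ[X], l1 Q ≤ 1 →
      Bd true (fun y => (((X - 1) ^ h * Kp s ^ n * Q).coeff y) ^ 2) (C / ρ ^ (2 * h + 1)) := by
  obtain ⟨C, hC, H⟩ := l2_bound h hc
  refine ⟨C, hC, fun s h1 h2 n ρ hρ hn Q hQ Y => ?_⟩
  have hn1 : 1 ≤ n := by
    rcases Nat.eq_zero_or_pos n with rfl | h
    · have : 0 < ρ ^ 2 := by positivity
      simp only [Nat.cast_zero] at hn
      linarith
    · exact h
  have h3 := H s h1 h2 n hn1 Q hQ
  refine (sum_sq_coeff_le_l2 _ Y).trans (h3.trans ?_)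
  apply div_le_div_of_nonneg_left hC.le (by positivity)
  have h4 : ρ ≤ √(n : ℝ) := Real.le_sqrt_of_sq_le hn
  calc ρ ^ (2 * h + 1) = (ρ ^ 2) ^ h * ρ := by rw [pow_succ, pow_mul]
    _ ≤ (n : ℝ) ^ h * √(n : ℝ) := by
      apply mul_le_mul (pow_le_pow_left₀ (by positivity) hn h) h4 hρ.le (by positivity)

/-- sup bound of the pure part, `h` derivatives -/
theorem pure_sup (h : ℕ) {c : ℝ} (hc : 0 < c) :
    ∃ C : ℝ, 0 < C ∧ ∀ s : ℝ, c ≤ s → s ≤ 1 - c → ∀ (n : ℕ) (ρ : ℝ), 0 < ρ → ρ ^ 2 ≤ n →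
      ∀ Q : ℝ[X], l1 Q ≤ 1 →
      Bd false (fun y => (((X - 1) ^ h * Kp s ^ n * Q).coeff y) ^ 2) (C / ρ ^ (2 * h + 2)) := by
  obtain ⟨C, hC, H⟩ := sup_bound h hc
  refine ⟨C, hC, fun s h1 h2 n ρ hρ hn Q hQ y => ?_⟩
  have hn1 : 1 ≤ n := by
    rcases Nat.eq_zero_or_pos n with rfl | h
    · have : 0 < ρ ^ 2 := by positivity
      simp only [Nat.cast_zero] at hn
      linarith
    · exact h
  refine (H s h1 h2 n hn1 Q hQ y).trans ?_
  apply div_le_div_of_nonneg_left hC.le (by positivity)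
  calc ρ ^ (2 * h + 2) = (ρ ^ 2) ^ (h + 1) := by rw [← pow_mul]; ring_nf
    _ ≤ (n : ℝ) ^ (h + 1) := pow_le_pow_left₀ (by positivity) hn _

/-- trivial bound of the pure part -/
theorem pure_triv {P : ℝ[X]} {B : ℝ} (h : l1 P ≤ B) (b : Bool) :
    Bd b (fun y => (P.coeff y) ^ 2) (B ^ 2) := by
  have h0 : 0 ≤ B := (l1_nonneg P).trans h
  have h1 : ∀ y, |P.coeff y| ≤ B := fun y => (abs_coeff_le_l1 P y).trans h
  cases b with
  | false =>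
    intro y
    change (P.coeff y) ^ 2 ≤ B ^ 2
    rw [← sq_abs (P.coeff y)]
    exact pow_le_pow_left₀ (abs_nonneg _) (h1 y) 2
  | true =>
    intro Y
    calc ∑ y ∈ range Y, (P.coeff y) ^ 2 ≤ ∑ y ∈ range Y, |P.coeff y| * B := by
          apply Finset.sum_le_sum
          intro y _
          rw [← sq_abs (P.coeff y), pow_two]
          exact mul_le_mul_of_nonneg_left (h1 y) (abs_nonneg _)
      _ = (∑ y ∈ range Y, |P.coeff y|) * B := by rw [Finset.sum_mul]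
      _ ≤ B * B := mul_le_mul_of_nonneg_right ((sum_abs_coeff_le_l1 P Y).trans h) h0
      _ = B ^ 2 := (pow_two B).symm

/-- the induction over the length of the chain -/
theorem ind_chain {c : ℝ} (hc : 0 < c) (k : ℕ) {w : ℝ} (hw : 0 ≤ w) :
    ∃ C1 : ℝ, 0 < C1 ∧ ∃ L0 : ℕ, ∀ L ≥ L0, ∀ s f : ℝ, Good c s f → ∀ (θ : ℝ[X]) (b : Bool)
      (P E : ℕ → ℝ),
      (∀ cs : List ℕ, Adm k L cs →
        Bd b (fun y => ((Kp s ^ cs.sum * Kp f ^ cs.length * θ).coeff y) ^ 2) (P cs.length)) →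
      (∀ v : ℕ, v ≤ 3 * L ^ (2 * k) → P v + w * C1 / (L : ℝ) ^ (k + 1) *
        ∑ j ∈ range v, E (v - 1 - j) / √((j : ℝ) + 1) ≤ E v) →
      ∀ cs : List ℕ, Adm k L cs → SB b w (chainK s f cs θ) (E cs.length) := by
  obtain ⟨C1, hC1, L0, H⟩ := step_inner hc k
  refine ⟨C1, hC1, L0, fun L hL s f hg θ b P E hP hE => ?_⟩
  intro cs
  induction hn : cs.length using Nat.strong_induction_on generalizing cs with
  | _ n ih =>
    intro hA
    have h1 := H L hL s f hg cs hA θ b w hw (P cs.length) (hP cs hA)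
      (fun j => E (cs.length - 1 - j)) (by
        intro j hj
        have h2 : (cs.drop (j + 1)).length = cs.length - 1 - j := by
          rw [List.length_drop]
          omega
        exact ih (cs.length - 1 - j) (by omega) (cs.drop (j + 1)) h2 (hA.drop _))
    rw [hn] at h1
    exact SB_mono h1 (hE n (hn ▸ hA.1))

/-- the induction with constant bounds -/
theorem ind_const {c : ℝ} (hc : 0 < c) (k : ℕ) {w : ℝ} (hw : 0 ≤ w) :
    ∃ L0 : ℕ, 1 ≤ L0 ∧ ∀ L ≥ L0, ∀ s f : ℝ, Good c s f → ∀ (θ : ℝ[X]) (b : Bool)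
      (q : ℝ), 0 ≤ q →
      (∀ cs : List ℕ, Adm k L cs →
        Bd b (fun y => ((Kp s ^ cs.sum * Kp f ^ cs.length * θ).coeff y) ^ 2) q) →
      ∀ cs : List ℕ, Adm k L cs → SB b w (chainK s f cs θ) (2 * q) := by
  obtain ⟨C1, hC1, L0, H⟩ := ind_chain hc k hw
  refine ⟨max (max L0 1) ⌈8 * w * C1⌉₊, by simp, fun L hL s f hg θ b q hq hP => ?_⟩
  have hL0 : L0 ≤ L := (le_max_left _ _).trans ((le_max_left _ _).trans hL)
  have hL1 : 1 ≤ L := (le_max_right _ _).trans ((le_max_left _ _).trans hL)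
  have hL2 : 8 * w * C1 ≤ (L : ℝ) := (Nat.le_ceil _).trans (by exact_mod_cast (le_max_right _ _).trans hL)
  have hLp : (0 : ℝ) < L := by exact_mod_cast hL1
  refine H L hL0 s f hg θ b (fun _ => q) (fun _ => 2 * q) hP ?_
  intro v hv
  have h1 : ∑ j ∈ range v, 2 * q / √((j : ℝ) + 1) ≤ 2 * q * (2 * (2 * (L : ℝ) ^ k)) := by
    have h2 := sum_inv_sqrt v
    have h3 : √(v : ℝ) ≤ √((v : ℝ) + 1) := Real.sqrt_le_sqrt (by linarith)
    have h4 := sqrt_le_of_adm hL1 hv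
    calc ∑ j ∈ range v, 2 * q / √((j : ℝ) + 1) = 2 * q * ∑ j ∈ range v, 1 / √((j : ℝ) + 1) := by
          rw [Finset.mul_sum]
          apply Finset.sum_congr rfl
          intro j _
          ring
      _ ≤ 2 * q * (2 * (2 * (L : ℝ) ^ k)) := by
          apply mul_le_mul_of_nonneg_left _ (by positivity)
          linarith
  have h5 : w * C1 / (L : ℝ) ^ (k + 1) * (2 * q * (2 * (2 * (L : ℝ) ^ k))) =
      (8 * w * C1) / L * q := by
    field_simp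
    ring
  have h6 : (8 * w * C1) / L ≤ 1 := (div_le_one hLp).2 hL2
  calc q + w * C1 / (L : ℝ) ^ (k + 1) * ∑ j ∈ range v, 2 * q / √((j : ℝ) + 1)
      ≤ q + w * C1 / (L : ℝ) ^ (k + 1) * (2 * q * (2 * (2 * (L : ℝ) ^ k))) := by
        apply add_le_add_right
        exact mul_le_mul_of_nonneg_left h1 (by positivity)
    _ = q + (8 * w * C1) / L * q := by rw [h5]
    _ ≤ 2 * q := by nlinarith

theorem l1_pre_mul {c s f : ℝ} (hc : 0 < c) (h : Good c s f) (a b : ℕ) {Q : ℝ[X]} {B : ℝ}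
    (hQ : l1 Q ≤ B) : l1 (Kp s ^ a * Kp f ^ b * Q) ≤ B := by
  obtain ⟨h1, h2, h3, h4⟩ := h.facts hc
  have h5 := l1_Kp_pow_le h1 h2 a
  have h6 := l1_Kp_pow_le h3 h4 b
  have h7 : l1 (Kp s ^ a * Kp f ^ b) ≤ 1 := l1_mul_le_one h5 h6
  refine (l1_mul_le _ _).trans ?_
  have h8 := l1_nonneg Q
  nlinarith

theorem l1_f_mul {c s f : ℝ} (hc : 0 < c) (h : Good c s f) (b : ℕ) {Q : ℝ[X]}
    (hQ : l1 Q ≤ 1) : l1 (Kp f ^ b * Q) ≤ 1 := by
  obtain ⟨h1, h2, h3, h4⟩ := h.facts hc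
  exact l1_mul_le_one (l1_Kp_pow_le h3 h4 b) hQ

/-- lower bound of the total exponent, outer case -/
theorem rho_outer {k C0 L N m : ℕ} (h : L ^ (4 * k + 6) ≤ C0 * N) :
    ((L : ℝ) ^ (2 * k + 3) / √((C0 : ℝ) + 1)) ^ 2 ≤ ((m + N : ℕ) : ℝ) := by
  have h1 : (L : ℝ) ^ (4 * k + 6) ≤ C0 * N := by exact_mod_cast h
  have h2 : (0 : ℝ) < (C0 : ℝ) + 1 := by positivity
  rw [div_pow, Real.sq_sqrt h2.le, ← pow_mul, div_le_iff₀ h2]
  have h3 : (2 * k + 3) * 2 = 4 * k + 6 := by ring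
  rw [h3]
  push_cast
  have h4 : (0 : ℝ) ≤ m := Nat.cast_nonneg m
  have h5 : (0 : ℝ) ≤ N := Nat.cast_nonneg N
  have h6 : (0 : ℝ) ≤ C0 := Nat.cast_nonneg C0
  nlinarith [mul_nonneg h4 h6]

/-- lower bound of the total exponent, middle case -/
theorem rho_mid {k L N : ℕ} {cs : List ℕ} (hA : Adm k L cs) (h : L ^ (2 * k + 2) ≤ N) :
    ((L : ℝ) ^ (k + 1) * √((cs.length : ℝ) + 1)) ^ 2 ≤ ((cs.sum + N : ℕ) : ℝ) := by
  rw [mul_pow, sqrt_sq_succ, ← pow_mul]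
  have h3 : (k + 1) * 2 = 2 * k + 2 := by ring
  rw [h3]
  have h4 := hA.sum_ge
  have h5 : L ^ (2 * k + 2) * (cs.length + 1) ≤ cs.sum + N := by linarith
  exact_mod_cast h5

/-- larger powers in the denominator -/
theorem div_pow_anti {L : ℝ} (hL : 1 ≤ L) {C : ℝ} (hC : 0 ≤ C) {a b : ℕ} (h : a ≤ b) :
    C / L ^ b ≤ C / L ^ a := by
  have h0 : (0 : ℝ) < L := by linarith
  exact div_le_div_of_nonneg_left hC (by positivity) (pow_le_pow_right₀ hL h)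

theorem div_rho_outer {L : ℝ} (hL : 1 ≤ L) {C : ℝ} (hC : 0 ≤ C) (k C0 m : ℕ) {a : ℕ}
    (h : a ≤ (2 * k + 3) * m) :
    C / (L ^ (2 * k + 3) / √((C0 : ℝ) + 1)) ^ m ≤ C * √((C0 : ℝ) + 1) ^ m / L ^ a := by
  have h0 : (0 : ℝ) < L := by linarith
  have h1 : 0 < √((C0 : ℝ) + 1) := Real.sqrt_pos.2 (by positivity)
  have h2 : C / (L ^ (2 * k + 3) / √((C0 : ℝ) + 1)) ^ m =
      C * √((C0 : ℝ) + 1) ^ m / L ^ ((2 * k + 3) * m) := by
    rw [div_pow, ← pow_mul, div_div_eq_mul_div]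
  rw [h2]
  exact div_pow_anti hL (by positivity) h

/-- constant bound -/
theorem chain0 {c : ℝ} (hc : 0 < c) (k : ℕ) {w : ℝ} (hw : 0 ≤ w) :
    ∃ C : ℝ, 0 < C ∧ ∃ L0 : ℕ, ∀ L ≥ L0, ∀ s f : ℝ, Good c s f → ∀ cs : List ℕ, Adm k L cs →
      ∀ θ : ℝ[X], l1 θ ≤ 2 → SB true w (chainK s f cs θ) C := by
  obtain ⟨L0, hL0, H⟩ := ind_const hc k hw
  refine ⟨2 * 2 ^ 2, by norm_num, L0, fun L hL s f hg cs hA θ hθ => ?_⟩
  exact H L hL s f hg θ true (2 ^ 2) (by norm_num)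
    (fun cs _ => pure_triv (l1_pre_mul hc hg _ _ hθ) true) cs hA

/-- right-outer chains, sup bound -/
theorem chain1 {c : ℝ} (hc : 0 < c) (k C0 : ℕ) {w : ℝ} (hw : 0 ≤ w) :
    ∃ C : ℝ, 0 < C ∧ ∃ L0 : ℕ, ∀ L ≥ L0, ∀ s f : ℝ, Good c s f → ∀ cs : List ℕ, Adm k L cs →
      ∀ N : ℕ, L ^ (4 * k + 6) ≤ C0 * N → ∀ Q : ℝ[X], l1 Q ≤ 1 →
      SB false w (chainK s f cs (Kp s ^ N * Q)) (C / (L : ℝ) ^ (4 * k + 6)) := by
  obtain ⟨L0, hL0, H⟩ := ind_const hc k hw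
  obtain ⟨C, hC, HC⟩ := pure_sup 0 hc
  refine ⟨2 * (C * (C0 + 1)), by positivity, L0, fun L hL s f hg cs hA N hN Q hQ => ?_⟩
  have hL1 : 1 ≤ L := hL0.trans hL
  have hLp : (0 : ℝ) < L := by exact_mod_cast hL1
  have h1 := H L hL s f hg (Kp s ^ N * Q) false (C * (C0 + 1) / (L : ℝ) ^ (4 * k + 6))
    (by positivity) ?_ cs hA
  · rw [mul_div_assoc]
    exact h1
  intro cs' hA'
  have h2 := HC s hg.1 hg.2.1 (cs'.sum + N) ((L : ℝ) ^ (2 * k + 3) / √((C0 : ℝ) + 1))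
    (by positivity) (rho_outer hN) (Kp f ^ cs'.length * Q) (l1_f_mul hc hg _ hQ)
  have h3 : Kp s ^ cs'.sum * Kp f ^ cs'.length * (Kp s ^ N * Q) =
      (X - 1) ^ 0 * Kp s ^ (cs'.sum + N) * (Kp f ^ cs'.length * Q) := by
    rw [pow_add]
    ring
  rw [h3]
  refine Bd_mono h2 (le_of_eq ?_)
  have h4 : (0 : ℝ) < (C0 : ℝ) + 1 := by positivity
  rw [div_pow, show 2 * 0 + 2 = 2 by norm_num, Real.sq_sqrt h4.le, ← pow_mul,
    show (2 * k + 3) * 2 = 4 * k + 6 by ring]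
  field_simp

theorem chain1' {c : ℝ} (hc : 0 < c) (k C0 : ℕ) {w : ℝ} (hw : 0 ≤ w) :
    ∃ C : ℝ, 0 < C ∧ ∃ L0 : ℕ, ∀ L ≥ L0, ∀ s f : ℝ, Good c s f → ∀ cs : List ℕ, Adm k L cs →
      ∀ N : ℕ, L ^ (4 * k + 6) ≤ C0 * N → ∀ Q : ℝ[X], l1 Q ≤ 1 →
      SB false w (ι (X - 1) * chainK s f cs (Kp s ^ N * Q)) (C / (L : ℝ) ^ (7 * k + 9)) := by
  obtain ⟨Cd, hCd, Ld, Hd⟩ := step_deriv hc k
  obtain ⟨C, hC, HC⟩ := pure_sup 1 hc
  obtain ⟨C1, hC1, L1, H1⟩ := chain1 hc k C0 hw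
  refine ⟨C * √((C0 : ℝ) + 1) ^ (2 * 1 + 2) + 3 * w * Cd * C1, by positivity,
    max (max Ld L1) 1,
    fun L hL s f hg cs hA N hN Q hQ => ?_⟩
  have hLd : Ld ≤ L := (le_max_left _ _).trans ((le_max_left _ _).trans hL)
  have hLL1 : L1 ≤ L := (le_max_right _ _).trans ((le_max_left _ _).trans hL)
  have hL1 : 1 ≤ L := (le_max_right _ _).trans hL
  have hL1' : (1 : ℝ) ≤ L := by exact_mod_cast hL1
  have hLp : (0 : ℝ) < L := by exact_mod_cast hL1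
  have h2 := HC s hg.1 hg.2.1 (cs.sum + N) ((L : ℝ) ^ (2 * k + 3) / √((C0 : ℝ) + 1))
    (by positivity) (rho_outer hN) (Kp f ^ cs.length * Q) (l1_f_mul hc hg _ hQ)
  have h3 : (X - 1) * (Kp s ^ cs.sum * Kp f ^ cs.length) * (Kp s ^ N * Q) =
      (X - 1) ^ 1 * Kp s ^ (cs.sum + N) * (Kp f ^ cs.length * Q) := by
    rw [pow_add]
    ring
  have h4 := Hd L hLd s f hg cs hA (Kp s ^ N * Q) false w hw _ (by rw [h3]; exact h2)
    (fun _ => C1 / (L : ℝ) ^ (4 * k + 6))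
    (fun j _ => H1 L hLL1 s f hg _ (hA.drop _) N hN Q hQ)
  refine SB_mono h4 ?_
  have h5 : ∑ j ∈ range cs.length, C1 / (L : ℝ) ^ (4 * k + 6) / (((j : ℝ) + 1) * √((j : ℝ) + 1))
      ≤ C1 / (L : ℝ) ^ (4 * k + 6) * 3 := by
    calc ∑ j ∈ range cs.length, C1 / (L : ℝ) ^ (4 * k + 6) / (((j : ℝ) + 1) * √((j : ℝ) + 1))
        = C1 / (L : ℝ) ^ (4 * k + 6) *
          ∑ j ∈ range cs.length, 1 / (((j : ℝ) + 1) * √((j : ℝ) + 1)) := by
          rw [Finset.mul_sum]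
          apply Finset.sum_congr rfl
          intro j _
          ring
      _ ≤ _ := mul_le_mul_of_nonneg_left (sum_inv_32 _) (by positivity)
  have h6 : w * Cd / (L : ℝ) ^ (3 * k + 3) *
      ∑ j ∈ range cs.length, C1 / (L : ℝ) ^ (4 * k + 6) / (((j : ℝ) + 1) * √((j : ℝ) + 1)) ≤
      3 * w * Cd * C1 / (L : ℝ) ^ (7 * k + 9) := by
    refine (mul_le_mul_of_nonneg_left h5 (by positivity)).trans (le_of_eq ?_)
    rw [show 7 * k + 9 = (3 * k + 3) + (4 * k + 6) by ring, pow_add]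
    field_simp
    ring
  have h7 := div_rho_outer hL1' hC.le k C0 (2 * 1 + 2) (a := 7 * k + 9) (by omega)
  rw [add_div]
  exact add_le_add h7 h6

/-- the pure part of a middle chain -/
theorem pure_mid {c : ℝ} (hc : 0 < c) (h k : ℕ) :
    ∃ C : ℝ, 0 < C ∧ ∀ L : ℕ, 1 ≤ L → ∀ s f : ℝ, Good c s f → ∀ cs : List ℕ, Adm k L cs →
      ∀ N : ℕ, L ^ (2 * k + 2) ≤ N → ∀ Q : ℝ[X], l1 Q ≤ 1 →
      Bd true (fun y => (((X - 1) ^ h * Kp s ^ (cs.sum + N) *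
        (Kp f ^ cs.length * Q)).coeff y) ^ 2)
        (C / ((L : ℝ) ^ (k + 1) * √((cs.length : ℝ) + 1)) ^ (2 * h + 1)) := by
  obtain ⟨C, hC, HC⟩ := pure_l2 h hc
  refine ⟨C, hC, fun L hL s f hg cs hA N hN Q hQ => ?_⟩
  have hLp : (0 : ℝ) < L := by exact_mod_cast hL
  have h1 := one_le_sqrt cs.length
  exact HC s hg.1 hg.2.1 (cs.sum + N) ((L : ℝ) ^ (k + 1) * √((cs.length : ℝ) + 1))
    (by positivity) (rho_mid hA hN) (Kp f ^ cs.length * Q) (l1_f_mul hc hg _ hQ)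

/-- middle chains, sum bound -/
theorem chain2 {c : ℝ} (hc : 0 < c) (k : ℕ) {w : ℝ} (hw : 0 ≤ w) :
    ∃ C : ℝ, 0 < C ∧ ∃ L0 : ℕ, ∀ L ≥ L0, ∀ s f : ℝ, Good c s f → ∀ cs : List ℕ, Adm k L cs →
      ∀ N : ℕ, L ^ (2 * k + 2) ≤ N → ∀ Q : ℝ[X], l1 Q ≤ 1 →
      SB true w (chainK s f cs (Kp s ^ N * Q))
        (C / ((L : ℝ) ^ (k + 1) * √((cs.length : ℝ) + 1))) := by
  obtain ⟨C1, hC1, L0, H⟩ := ind_chain hc k hw
  obtain ⟨C, hC, HC⟩ := pure_mid hc 0 k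
  refine ⟨2 * C, by positivity, max (max L0 1) ⌈32 * w * C1⌉₊,
    fun L hL s f hg cs hA N hN Q hQ => ?_⟩
  have hL0 : L0 ≤ L := (le_max_left _ _).trans ((le_max_left _ _).trans hL)
  have hL1 : 1 ≤ L := (le_max_right _ _).trans ((le_max_left _ _).trans hL)
  have hL2 : 32 * w * C1 ≤ (L : ℝ) :=
    (Nat.le_ceil _).trans (by exact_mod_cast (le_max_right _ _).trans hL)
  have hLp : (0 : ℝ) < L := by exact_mod_cast hL1
  refine H L hL0 s f hg (Kp s ^ N * Q) true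
    (fun v => C / ((L : ℝ) ^ (k + 1) * √((v : ℝ) + 1)))
    (fun v => 2 * C / ((L : ℝ) ^ (k + 1) * √((v : ℝ) + 1))) ?_ ?_ cs hA
  · intro cs' hA'
    have h2 := HC L hL1 s f hg cs' hA' N hN Q hQ
    have h3 : Kp s ^ cs'.sum * Kp f ^ cs'.length * (Kp s ^ N * Q) =
        (X - 1) ^ 0 * Kp s ^ (cs'.sum + N) * (Kp f ^ cs'.length * Q) := by
      rw [pow_add]
      ring
    rw [h3]
    simpa using h2
  · intro v hv
    have h1 := one_le_sqrt v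
    have h4 := sqrt_le_of_adm hL1 hv
    have h5 : ∑ j ∈ range v, 2 * C / ((L : ℝ) ^ (k + 1) * √(((v - 1 - j : ℕ) : ℝ) + 1)) /
        √((j : ℝ) + 1) ≤ 2 * C / (L : ℝ) ^ (k + 1) * 8 := by
      calc ∑ j ∈ range v, 2 * C / ((L : ℝ) ^ (k + 1) * √(((v - 1 - j : ℕ) : ℝ) + 1)) /
            √((j : ℝ) + 1)
          = 2 * C / (L : ℝ) ^ (k + 1) * ∑ j ∈ range v,
            (1 / √(((v - 1 - j : ℕ) : ℝ) + 1)) / √((j : ℝ) + 1) := by
            rw [Finset.mul_sum]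
            apply Finset.sum_congr rfl
            intro j _
            rw [← div_div]
            ring
        _ ≤ _ := mul_le_mul_of_nonneg_left (sum_conv1 _) (by positivity)
    have h6 : w * C1 / (L : ℝ) ^ (k + 1) * (2 * C / (L : ℝ) ^ (k + 1) * 8) ≤
        C / ((L : ℝ) ^ (k + 1) * √((v : ℝ) + 1)) := by
      rw [show w * C1 / (L : ℝ) ^ (k + 1) * (2 * C / (L : ℝ) ^ (k + 1) * 8) =
        C * (16 * w * C1) / ((L : ℝ) ^ (k + 1) * (L : ℝ) ^ (k + 1)) by field_simp; ring]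
      rw [div_le_div_iff₀ (by positivity) (by positivity)]
      have h7 : 16 * w * C1 * √((v : ℝ) + 1) ≤ (L : ℝ) ^ (k + 1) := by
        calc 16 * w * C1 * √((v : ℝ) + 1) ≤ 16 * w * C1 * (2 * (L : ℝ) ^ k) :=
              mul_le_mul_of_nonneg_left h4 (by positivity)
          _ = (32 * w * C1) * (L : ℝ) ^ k := by ring
          _ ≤ (L : ℝ) * (L : ℝ) ^ k := mul_le_mul_of_nonneg_right hL2 (by positivity)
          _ = (L : ℝ) ^ (k + 1) := by ring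
      calc C * (16 * w * C1) * ((L : ℝ) ^ (k + 1) * √((v : ℝ) + 1)) =
            (C * (L : ℝ) ^ (k + 1)) * (16 * w * C1 * √((v : ℝ) + 1)) := by ring
        _ ≤ (C * (L : ℝ) ^ (k + 1)) * (L : ℝ) ^ (k + 1) :=
            mul_le_mul_of_nonneg_left h7 (by positivity)
        _ = C * ((L : ℝ) ^ (k + 1) * (L : ℝ) ^ (k + 1)) := by ring
    have h8 : 2 * C / ((L : ℝ) ^ (k + 1) * √((v : ℝ) + 1)) =
        C / ((L : ℝ) ^ (k + 1) * √((v : ℝ) + 1)) + C / ((L : ℝ) ^ (k + 1) * √((v : ℝ) + 1)) := by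
      ring
    change C / ((L : ℝ) ^ (k + 1) * √((v : ℝ) + 1)) + w * C1 / (L : ℝ) ^ (k + 1) *
        ∑ j ∈ range v, 2 * C / ((L : ℝ) ^ (k + 1) * √(((v - 1 - j : ℕ) : ℝ) + 1)) /
        √((j : ℝ) + 1) ≤ 2 * C / ((L : ℝ) ^ (k + 1) * √((v : ℝ) + 1))
    rw [h8]
    exact add_le_add le_rfl ((mul_le_mul_of_nonneg_left h5 (by positivity)).trans h6)

theorem chain2' {c : ℝ} (hc : 0 < c) (k : ℕ) {w : ℝ} (hw : 0 ≤ w) :
    ∃ C : ℝ, 0 < C ∧ ∃ L0 : ℕ, ∀ L ≥ L0, ∀ s f : ℝ, Good c s f → ∀ cs : List ℕ, Adm k L cs →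
      ∀ N : ℕ, L ^ (2 * k + 2) ≤ N → ∀ Q : ℝ[X], l1 Q ≤ 1 →
      SB true w (ι (X - 1) * chainK s f cs (Kp s ^ N * Q))
        (C / ((L : ℝ) ^ (3 * k + 3) * (((cs.length : ℝ) + 1) * √((cs.length : ℝ) + 1))) +
          C / ((L : ℝ) ^ (4 * k + 4) * √((cs.length : ℝ) + 1))) := by
  obtain ⟨Cd, hCd, Ld, Hd⟩ := step_deriv hc k
  obtain ⟨C, hC, HC⟩ := pure_mid hc 1 k
  obtain ⟨C2, hC2, L2, H2⟩ := chain2 hc k hw
  refine ⟨C + 40 * w * Cd * C2, by positivity, max (max Ld L2) 1,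
    fun L hL s f hg cs hA N hN Q hQ => ?_⟩
  have hLd : Ld ≤ L := (le_max_left _ _).trans ((le_max_left _ _).trans hL)
  have hLL2 : L2 ≤ L := (le_max_right _ _).trans ((le_max_left _ _).trans hL)
  have hL1 : 1 ≤ L := (le_max_right _ _).trans hL
  have hLp : (0 : ℝ) < L := by exact_mod_cast hL1
  have hr := one_le_sqrt cs.length
  have hr2 := sqrt_sq_succ cs.length
  have h2 := HC L hL1 s f hg cs hA N hN Q hQ
  have h3 : (X - 1) * (Kp s ^ cs.sum * Kp f ^ cs.length) * (Kp s ^ N * Q) =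
      (X - 1) ^ 1 * Kp s ^ (cs.sum + N) * (Kp f ^ cs.length * Q) := by
    rw [pow_add]
    ring
  have h4 := Hd L hLd s f hg cs hA (Kp s ^ N * Q) true w hw _ (by rw [h3]; exact h2)
    (fun j => C2 / ((L : ℝ) ^ (k + 1) * √(((cs.length - 1 - j : ℕ) : ℝ) + 1))) (by
      intro j hj
      have h5 := H2 L hLL2 s f hg _ (hA.drop (j + 1)) N hN Q hQ
      have h6 : (cs.drop (j + 1)).length = cs.length - 1 - j := by
        rw [List.length_drop]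
        omega
      rw [h6] at h5
      exact h5)
  refine SB_mono h4 ?_
  have h5 : ∑ j ∈ range cs.length, C2 / ((L : ℝ) ^ (k + 1) *
      √(((cs.length - 1 - j : ℕ) : ℝ) + 1)) / (((j : ℝ) + 1) * √((j : ℝ) + 1))
      ≤ C2 / (L : ℝ) ^ (k + 1) * (40 / √((cs.length : ℝ) + 1)) := by
    calc ∑ j ∈ range cs.length, C2 / ((L : ℝ) ^ (k + 1) *
        √(((cs.length - 1 - j : ℕ) : ℝ) + 1)) / (((j : ℝ) + 1) * √((j : ℝ) + 1))
        = C2 / (L : ℝ) ^ (k + 1) * ∑ j ∈ range cs.length,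
          (1 / √(((cs.length - 1 - j : ℕ) : ℝ) + 1)) / (((j : ℝ) + 1) * √((j : ℝ) + 1)) := by
          rw [Finset.mul_sum]
          apply Finset.sum_congr rfl
          intro j _
          rw [← div_div C2]
          ring
      _ ≤ _ := mul_le_mul_of_nonneg_left (sum_conv3 _) (by positivity)
  have h6 : w * Cd / (L : ℝ) ^ (3 * k + 3) *
      ∑ j ∈ range cs.length, C2 / ((L : ℝ) ^ (k + 1) *
        √(((cs.length - 1 - j : ℕ) : ℝ) + 1)) / (((j : ℝ) + 1) * √((j : ℝ) + 1)) ≤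
      (40 * w * Cd * C2) / ((L : ℝ) ^ (4 * k + 4) * √((cs.length : ℝ) + 1)) := by
    refine (mul_le_mul_of_nonneg_left h5 (by positivity)).trans (le_of_eq ?_)
    rw [show 4 * k + 4 = (3 * k + 3) + (k + 1) by ring, pow_add]
    field_simp
    ring
  have h7 : C / ((L : ℝ) ^ (k + 1) * √((cs.length : ℝ) + 1)) ^ (2 * 1 + 1) =
      C / ((L : ℝ) ^ (3 * k + 3) * (((cs.length : ℝ) + 1) * √((cs.length : ℝ) + 1))) := by
    rw [show ((L : ℝ) ^ (k + 1) * √((cs.length : ℝ) + 1)) ^ (2 * 1 + 1) =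
      (L : ℝ) ^ (3 * k + 3) * (√((cs.length : ℝ) + 1) ^ 2 * √((cs.length : ℝ) + 1)) by ring, hr2]
  rw [h7, add_div, add_div]
  have h8 : 0 ≤ 40 * w * Cd * C2 /
      ((L : ℝ) ^ (3 * k + 3) * (((cs.length : ℝ) + 1) * √((cs.length : ℝ) + 1))) := by positivity
  have h9 : 0 ≤ C / ((L : ℝ) ^ (4 * k + 4) * √((cs.length : ℝ) + 1)) := by positivity
  linarith

theorem chain3 {c : ℝ} (hc : 0 < c) (k : ℕ) {w : ℝ} (hw : 0 ≤ w) :
    ∃ C : ℝ, 0 < C ∧ ∃ L0 : ℕ, ∀ L ≥ L0, ∀ s f : ℝ, Good c s f → ∀ cs : List ℕ, Adm k L cs →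
      ∀ N : ℕ, L ^ (2 * k + 2) ≤ N → ∀ Q : ℝ[X], l1 Q ≤ 1 →
      SB true w (chainK s f cs (Kp s ^ N * (X - 1) * Q))
        (C / ((L : ℝ) ^ (3 * k + 3) * (((cs.length : ℝ) + 1) * √((cs.length : ℝ) + 1))) +
          C / ((L : ℝ) ^ (4 * k + 4) * √((cs.length : ℝ) + 1))) := by
  obtain ⟨C1, hC1, L0, H⟩ := ind_chain hc k hw
  obtain ⟨C, hC, HC⟩ := pure_mid hc 1 k
  refine ⟨C + 80 * w * C1 * C, by positivity, max (max L0 1) ⌈32 * w * C1⌉₊,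
    fun L hL s f hg cs hA N hN Q hQ => ?_⟩
  have hL0 : L0 ≤ L := (le_max_left _ _).trans ((le_max_left _ _).trans hL)
  have hL1 : 1 ≤ L := (le_max_right _ _).trans ((le_max_left _ _).trans hL)
  have hL2 : 32 * w * C1 ≤ (L : ℝ) :=
    (Nat.le_ceil _).trans (by exact_mod_cast (le_max_right _ _).trans hL)
  have hLp : (0 : ℝ) < L := by exact_mod_cast hL1
  have hmain := H L hL0 s f hg (Kp s ^ N * (X - 1) * Q) true
    (fun v => C / ((L : ℝ) ^ (3 * k + 3) * (((v : ℝ) + 1) * √((v : ℝ) + 1))))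
    (fun v => C / ((L : ℝ) ^ (3 * k + 3) * (((v : ℝ) + 1) * √((v : ℝ) + 1))) +
      80 * w * C1 * C / ((L : ℝ) ^ (4 * k + 4) * √((v : ℝ) + 1))) ?_ ?_ cs hA
  · refine SB_mono hmain ?_
    have hr := one_le_sqrt cs.length
    rw [add_div C, add_div C]
    have h8 : 0 ≤ 80 * w * C1 * C /
        ((L : ℝ) ^ (3 * k + 3) * (((cs.length : ℝ) + 1) * √((cs.length : ℝ) + 1))) := by
      positivity
    have h9 : 0 ≤ C / ((L : ℝ) ^ (4 * k + 4) * √((cs.length : ℝ) + 1)) := by positivity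
    linarith
  · intro cs' hA'
    have hr2 := sqrt_sq_succ cs'.length
    have h2 := HC L hL1 s f hg cs' hA' N hN Q hQ
    have h3 : Kp s ^ cs'.sum * Kp f ^ cs'.length * (Kp s ^ N * (X - 1) * Q) =
        (X - 1) ^ 1 * Kp s ^ (cs'.sum + N) * (Kp f ^ cs'.length * Q) := by
      rw [pow_add]
      ring
    rw [h3]
    rw [show ((L : ℝ) ^ (k + 1) * √((cs'.length : ℝ) + 1)) ^ (2 * 1 + 1) =
      (L : ℝ) ^ (3 * k + 3) * (√((cs'.length : ℝ) + 1) ^ 2 * √((cs'.length : ℝ) + 1)) by ring,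
      hr2] at h2
    exact h2
  · intro v hv
    have h1 := one_le_sqrt v
    have h4 := sqrt_le_of_adm hL1 hv
    change C / ((L : ℝ) ^ (3 * k + 3) * (((v : ℝ) + 1) * √((v : ℝ) + 1))) +
      w * C1 / (L : ℝ) ^ (k + 1) * ∑ j ∈ range v,
        (C / ((L : ℝ) ^ (3 * k + 3) * ((((v - 1 - j : ℕ) : ℝ) + 1) *
            √(((v - 1 - j : ℕ) : ℝ) + 1))) +
          80 * w * C1 * C / ((L : ℝ) ^ (4 * k + 4) * √(((v - 1 - j : ℕ) : ℝ) + 1))) /
        √((j : ℝ) + 1) ≤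
      C / ((L : ℝ) ^ (3 * k + 3) * (((v : ℝ) + 1) * √((v : ℝ) + 1))) +
        80 * w * C1 * C / ((L : ℝ) ^ (4 * k + 4) * √((v : ℝ) + 1))
    have h5 : ∑ j ∈ range v,
        (C / ((L : ℝ) ^ (3 * k + 3) * ((((v - 1 - j : ℕ) : ℝ) + 1) *
            √(((v - 1 - j : ℕ) : ℝ) + 1))) +
          80 * w * C1 * C / ((L : ℝ) ^ (4 * k + 4) * √(((v - 1 - j : ℕ) : ℝ) + 1))) /
        √((j : ℝ) + 1) ≤ C / (L : ℝ) ^ (3 * k + 3) * (40 / √((v : ℝ) + 1)) +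
          80 * w * C1 * C / (L : ℝ) ^ (4 * k + 4) * 8 := by
      calc ∑ j ∈ range v,
            (C / ((L : ℝ) ^ (3 * k + 3) * ((((v - 1 - j : ℕ) : ℝ) + 1) *
                √(((v - 1 - j : ℕ) : ℝ) + 1))) +
              80 * w * C1 * C / ((L : ℝ) ^ (4 * k + 4) * √(((v - 1 - j : ℕ) : ℝ) + 1))) /
            √((j : ℝ) + 1)
          = C / (L : ℝ) ^ (3 * k + 3) * (∑ j ∈ range v,
            (1 / ((((v - 1 - j : ℕ) : ℝ) + 1) * √(((v - 1 - j : ℕ) : ℝ) + 1))) /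
              √((j : ℝ) + 1)) +
            80 * w * C1 * C / (L : ℝ) ^ (4 * k + 4) * (∑ j ∈ range v,
            (1 / √(((v - 1 - j : ℕ) : ℝ) + 1)) / √((j : ℝ) + 1)) := by
            rw [Finset.mul_sum, Finset.mul_sum, ← Finset.sum_add_distrib]
            apply Finset.sum_congr rfl
            intro j _
            rw [← div_div C, ← div_div (80 * w * C1 * C)]
            ring
        _ ≤ _ := add_le_add (mul_le_mul_of_nonneg_left (sum_conv2 _) (by positivity))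
            (mul_le_mul_of_nonneg_left (sum_conv1 _) (by positivity))
    have h6 : w * C1 / (L : ℝ) ^ (k + 1) * (C / (L : ℝ) ^ (3 * k + 3) * (40 / √((v : ℝ) + 1))) =
        (80 * w * C1 * C / ((L : ℝ) ^ (4 * k + 4) * √((v : ℝ) + 1))) / 2 := by
      rw [show 4 * k + 4 = (3 * k + 3) + (k + 1) by ring, pow_add (L : ℝ) (3 * k + 3) (k + 1)]
      field_simp
      ring
    have h7 : w * C1 / (L : ℝ) ^ (k + 1) * (80 * w * C1 * C / (L : ℝ) ^ (4 * k + 4) * 8) ≤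
        (80 * w * C1 * C / ((L : ℝ) ^ (4 * k + 4) * √((v : ℝ) + 1))) / 2 := by
      have h8 : 16 * w * C1 * √((v : ℝ) + 1) ≤ (L : ℝ) ^ (k + 1) := by
        calc 16 * w * C1 * √((v : ℝ) + 1) ≤ 16 * w * C1 * (2 * (L : ℝ) ^ k) :=
              mul_le_mul_of_nonneg_left h4 (by positivity)
          _ = (32 * w * C1) * (L : ℝ) ^ k := by ring
          _ ≤ (L : ℝ) * (L : ℝ) ^ k := mul_le_mul_of_nonneg_right hL2 (by positivity)
          _ = (L : ℝ) ^ (k + 1) := by ring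
      have h9 : 8 * (w * C1) / (L : ℝ) ^ (k + 1) ≤ 1 / (2 * √((v : ℝ) + 1)) := by
        rw [div_le_div_iff₀ (by positivity) (by positivity)]
        linarith
      calc w * C1 / (L : ℝ) ^ (k + 1) * (80 * w * C1 * C / (L : ℝ) ^ (4 * k + 4) * 8) =
            (80 * w * C1 * C / (L : ℝ) ^ (4 * k + 4)) * (8 * (w * C1) / (L : ℝ) ^ (k + 1)) := by
            ring
        _ ≤ (80 * w * C1 * C / (L : ℝ) ^ (4 * k + 4)) * (1 / (2 * √((v : ℝ) + 1))) :=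
            mul_le_mul_of_nonneg_left h9 (by positivity)
        _ = _ := by
            field_simp
    have h10 := mul_le_mul_of_nonneg_left h5
      (show 0 ≤ w * C1 / (L : ℝ) ^ (k + 1) by positivity)
    rw [mul_add, h6] at h10
    linarith

theorem chain3' {c : ℝ} (hc : 0 < c) (k : ℕ) {w : ℝ} (hw : 0 ≤ w) :
    ∃ C : ℝ, 0 < C ∧ ∃ L0 : ℕ, ∀ L ≥ L0, ∀ s f : ℝ, Good c s f → ∀ cs : List ℕ, Adm k L cs →
      ∀ N : ℕ, L ^ (2 * k + 2) ≤ N → ∀ Q : ℝ[X], l1 Q ≤ 1 →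
      SB true w (ι (X - 1) * chainK s f cs (Kp s ^ N * (X - 1) * Q))
        (C / (L : ℝ) ^ (5 * k + 5)) := by
  obtain ⟨Cd, hCd, Ld, Hd⟩ := step_deriv hc k
  obtain ⟨C, hC, HC⟩ := pure_mid hc 2 k
  obtain ⟨C3, hC3, L3, H3⟩ := chain3 hc k hw
  refine ⟨C + 6 * w * Cd * C3, by positivity, max (max Ld L3) 1,
    fun L hL s f hg cs hA N hN Q hQ => ?_⟩
  have hLd : Ld ≤ L := (le_max_left _ _).trans ((le_max_left _ _).trans hL)
  have hLL3 : L3 ≤ L := (le_max_right _ _).trans ((le_max_left _ _).trans hL)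
  have hL1 : 1 ≤ L := (le_max_right _ _).trans hL
  have hL1' : (1 : ℝ) ≤ L := by exact_mod_cast hL1
  have hLp : (0 : ℝ) < L := by exact_mod_cast hL1
  have h2 := HC L hL1 s f hg cs hA N hN Q hQ
  have h3 : (X - 1) * (Kp s ^ cs.sum * Kp f ^ cs.length) * (Kp s ^ N * (X - 1) * Q) =
      (X - 1) ^ 2 * Kp s ^ (cs.sum + N) * (Kp f ^ cs.length * Q) := by
    rw [pow_add]
    ring
  have h4 := Hd L hLd s f hg cs hA (Kp s ^ N * (X - 1) * Q) true w hw _ (by rw [h3]; exact h2)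
    (fun _ => 2 * C3 / (L : ℝ) ^ (3 * k + 3)) (by
      intro j hj
      refine SB_mono (H3 L hLL3 s f hg _ (hA.drop (j + 1)) N hN Q hQ) ?_
      have hr := one_le_sqrt (cs.drop (j + 1)).length
      have hn : (0 : ℝ) ≤ ((cs.drop (j + 1)).length : ℝ) := Nat.cast_nonneg _
      have h5 : C3 / ((L : ℝ) ^ (3 * k + 3) * ((((cs.drop (j + 1)).length : ℝ) + 1) *
          √(((cs.drop (j + 1)).length : ℝ) + 1))) ≤ C3 / (L : ℝ) ^ (3 * k + 3) := by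
        apply div_le_div_of_nonneg_left hC3.le (by positivity)
        apply le_mul_of_one_le_right (by positivity)
        nlinarith
      have h6 : C3 / ((L : ℝ) ^ (4 * k + 4) * √(((cs.drop (j + 1)).length : ℝ) + 1)) ≤
          C3 / (L : ℝ) ^ (3 * k + 3) := by
        refine le_trans ?_ (div_pow_anti hL1' hC3.le (show 3 * k + 3 ≤ 4 * k + 4 by omega))
        apply div_le_div_of_nonneg_left hC3.le (by positivity)
        exact le_mul_of_one_le_right (by positivity) hr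
      calc _ ≤ C3 / (L : ℝ) ^ (3 * k + 3) + C3 / (L : ℝ) ^ (3 * k + 3) := add_le_add h5 h6
        _ = _ := by ring)
  refine SB_mono h4 ?_
  have h5 : ∑ j ∈ range cs.length, 2 * C3 / (L : ℝ) ^ (3 * k + 3) /
      (((j : ℝ) + 1) * √((j : ℝ) + 1)) ≤ 2 * C3 / (L : ℝ) ^ (3 * k + 3) * 3 := by
    calc ∑ j ∈ range cs.length, 2 * C3 / (L : ℝ) ^ (3 * k + 3) /
        (((j : ℝ) + 1) * √((j : ℝ) + 1))
        = 2 * C3 / (L : ℝ) ^ (3 * k + 3) *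
          ∑ j ∈ range cs.length, 1 / (((j : ℝ) + 1) * √((j : ℝ) + 1)) := by
          rw [Finset.mul_sum]
          apply Finset.sum_congr rfl
          intro j _
          ring
      _ ≤ _ := mul_le_mul_of_nonneg_left (sum_inv_32 _) (by positivity)
  have h6 : w * Cd / (L : ℝ) ^ (3 * k + 3) *
      ∑ j ∈ range cs.length, 2 * C3 / (L : ℝ) ^ (3 * k + 3) /
        (((j : ℝ) + 1) * √((j : ℝ) + 1)) ≤ 6 * w * Cd * C3 / (L : ℝ) ^ (5 * k + 5) := by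
    refine (mul_le_mul_of_nonneg_left h5 (by positivity)).trans ?_
    refine le_trans (le_of_eq ?_) (div_pow_anti hL1' (by positivity)
      (show 5 * k + 5 ≤ (3 * k + 3) + (3 * k + 3) by omega))
    rw [pow_add]
    field_simp
    ring
  have h7 : C / ((L : ℝ) ^ (k + 1) * √((cs.length : ℝ) + 1)) ^ (2 * 2 + 1) ≤
      C / (L : ℝ) ^ (5 * k + 5) := by
    have hr := one_le_sqrt cs.length
    apply div_le_div_of_nonneg_left hC.le (by positivity)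
    rw [show (L : ℝ) ^ (5 * k + 5) = ((L : ℝ) ^ (k + 1)) ^ (2 * 2 + 1) by ring]
    apply pow_le_pow_left₀ (by positivity)
    exact le_mul_of_one_le_right (by positivity) hr
  rw [add_div]
  exact add_le_add h7 h6

/-! ### outer chains -/

/-- reflected sum -/
theorem sum_reflect_inv_sqrt {k L : ℕ} (hL : 1 ≤ L) {v : ℕ} (hv : v ≤ 3 * L ^ (2 * k)) :
    ∑ j ∈ range v, 1 / √(((v - 1 - j : ℕ) : ℝ) + 1) ≤ 4 * (L : ℝ) ^ k := by
  rw [Finset.sum_range_reflect (fun j : ℕ => 1 / √((j : ℝ) + 1)) v]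
  have h2 := sum_inv_sqrt v
  have h3 : √(v : ℝ) ≤ √((v : ℝ) + 1) := Real.sqrt_le_sqrt (by linarith)
  have h4 := sqrt_le_of_adm hL hv
  linarith

theorem sum_reflect_inv_32 (v : ℕ) :
    ∑ j ∈ range v, 1 / ((((v - 1 - j : ℕ) : ℝ) + 1) * √(((v - 1 - j : ℕ) : ℝ) + 1)) ≤ 3 := by
  rw [Finset.sum_range_reflect (fun j : ℕ => 1 / (((j : ℝ) + 1) * √((j : ℝ) + 1))) v]
  exact sum_inv_32 v

/-- the pure part of an outer chain -/
theorem pure_outer {c : ℝ} (hc : 0 < c) (h k C0 : ℕ) (w : ℝ) :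
    ∃ C : ℝ, 0 < C ∧ ∀ L : ℕ, 1 ≤ L → ∀ s f : ℝ, Good c s f → ∀ cs : List ℕ,
      ∀ N0 i0 : ℕ, L ^ (4 * k + 6) ≤ C0 * N0 → ∀ N : ℕ, ∀ Q : ℝ[X], l1 Q ≤ 1 →
      ∀ a : ℕ, a ≤ (2 * k + 3) * (2 * h + 1) →
      SB true w (ι (Kp s ^ N0 * Kp f ^ i0 * (Kp s ^ cs.sum * Kp f ^ cs.length) *
        (Kp s ^ N * (X - 1) ^ h * Q))) (C / (L : ℝ) ^ a) := by
  obtain ⟨C, hC, HC⟩ := pure_l2 h hc
  refine ⟨C * √((C0 : ℝ) + 1) ^ (2 * h + 1), by positivity,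
    fun L hL s f hg cs N0 i0 hN0 N Q hQ a ha => ?_⟩
  have hL1' : (1 : ℝ) ≤ L := by exact_mod_cast hL
  have hLp : (0 : ℝ) < L := by exact_mod_cast hL
  have h3 : Kp s ^ N0 * Kp f ^ i0 * (Kp s ^ cs.sum * Kp f ^ cs.length) *
        (Kp s ^ N * (X - 1) ^ h * Q) =
      (X - 1) ^ h * Kp s ^ ((cs.sum + N) + N0) * (Kp f ^ (i0 + cs.length) * Q) := by
    rw [pow_add, pow_add, pow_add]
    ring
  have h2 := HC s hg.1 hg.2.1 ((cs.sum + N) + N0) ((L : ℝ) ^ (2 * k + 3) / √((C0 : ℝ) + 1))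
    (by positivity) (rho_outer hN0) (Kp f ^ (i0 + cs.length) * Q) (l1_f_mul hc hg _ hQ)
  rw [h3]
  refine Bd_mono (b := true) ?_ (div_rho_outer hL1' hC.le k C0 (2 * h + 1) ha)
  intro Y
  have h4 := h2 Y
  simp only [S_ι]
  exact h4

/-- left-outer chains, sum bound -/
theorem outer2 {c : ℝ} (hc : 0 < c) (k C0 : ℕ) {w : ℝ} (hw : 0 ≤ w) :
    ∃ C : ℝ, 0 < C ∧ ∃ L0 : ℕ, ∀ L ≥ L0, ∀ s f : ℝ, Good c s f → ∀ cs : List ℕ, Adm k L cs →
      ∀ N0 i0 : ℕ, L ^ (4 * k + 6) ≤ C0 * N0 → N0 ≤ C0 * L ^ (4 * k + 6) →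
      i0 ≤ L ^ (4 * k + 6) →
      ∀ N : ℕ, L ^ (2 * k + 2) ≤ N → ∀ Q : ℝ[X], l1 Q ≤ 1 →
      SB true w (ι (Kp s ^ N0 * Kp f ^ i0) * chainK s f cs (Kp s ^ N * Q))
        (C / (L : ℝ) ^ (2 * k + 2)) := by
  obtain ⟨Cd, hCd, Ld, Hd⟩ := step_outer hc k C0
  obtain ⟨C, hC, HC⟩ := pure_outer hc 0 k C0 w
  obtain ⟨C2, hC2, L2, H2⟩ := chain2 hc k hw
  refine ⟨2 * (4 * w * Cd * C2) + 2 * C, by positivity, max (max Ld L2) 1,
    fun L hL s f hg cs hA N0 i0 hN0 hN0' hi0 N hN Q hQ => ?_⟩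
  have hLd : Ld ≤ L := (le_max_left _ _).trans ((le_max_left _ _).trans hL)
  have hLL2 : L2 ≤ L := (le_max_right _ _).trans ((le_max_left _ _).trans hL)
  have hL1 : 1 ≤ L := (le_max_right _ _).trans hL
  have hLp : (0 : ℝ) < L := by exact_mod_cast hL1
  have h4 := Hd L hLd s f hg cs hA N0 i0 hN0 hN0' hi0 (Kp s ^ N * Q) true w hw
    (fun j => C2 / ((L : ℝ) ^ (k + 1) * √(((cs.length - 1 - j : ℕ) : ℝ) + 1))) (by
      intro j hj
      have h5 := H2 L hLL2 s f hg _ (hA.drop (j + 1)) N hN Q hQ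
      have h6 : (cs.drop (j + 1)).length = cs.length - 1 - j := by
        rw [List.length_drop]
        omega
      rw [h6] at h5
      exact h5)
  have h5 : ∑ j ∈ range cs.length, C2 / ((L : ℝ) ^ (k + 1) *
      √(((cs.length - 1 - j : ℕ) : ℝ) + 1)) ≤ C2 / (L : ℝ) ^ (k + 1) * (4 * (L : ℝ) ^ k) := by
    calc ∑ j ∈ range cs.length, C2 / ((L : ℝ) ^ (k + 1) *
        √(((cs.length - 1 - j : ℕ) : ℝ) + 1))
        = C2 / (L : ℝ) ^ (k + 1) * ∑ j ∈ range cs.length,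
          1 / √(((cs.length - 1 - j : ℕ) : ℝ) + 1) := by
          rw [Finset.mul_sum]
          apply Finset.sum_congr rfl
          intro j _
          rw [← div_div C2]
          ring
      _ ≤ _ := mul_le_mul_of_nonneg_left (sum_reflect_inv_sqrt hL1 hA.1) (by positivity)
  have h6 := SB_mono (B := 4 * w * Cd * C2 / (L : ℝ) ^ (2 * k + 2)) h4 (by
    refine (mul_le_mul_of_nonneg_left h5 (by positivity)).trans (le_of_eq ?_)
    rw [show 2 * k + 2 = (2 * k + 1) + 1 by ring, pow_succ (L : ℝ) (2 * k + 1),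
      pow_succ (L : ℝ) k]
    field_simp)
  have h7 := HC L hL1 s f hg cs N0 i0 hN0 N Q hQ (2 * k + 2) (by omega)
  rw [pow_zero, mul_one] at h7
  have h8 := SB_add hw h6 h7
  rw [sub_add_cancel] at h8
  refine SB_mono h8 (le_of_eq ?_)
  ring

theorem outer3 {c : ℝ} (hc : 0 < c) (k C0 : ℕ) {w : ℝ} (hw : 0 ≤ w) :
    ∃ C : ℝ, 0 < C ∧ ∃ L0 : ℕ, ∀ L ≥ L0, ∀ s f : ℝ, Good c s f → ∀ cs : List ℕ, Adm k L cs →
      ∀ N0 i0 : ℕ, L ^ (4 * k + 6) ≤ C0 * N0 → N0 ≤ C0 * L ^ (4 * k + 6) →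
      i0 ≤ L ^ (4 * k + 6) →
      ∀ N : ℕ, L ^ (2 * k + 2) ≤ N → ∀ Q : ℝ[X], l1 Q ≤ 1 →
      SB true w (ι (Kp s ^ N0 * Kp f ^ i0) * chainK s f cs (Kp s ^ N * (X - 1) * Q))
        (C / (L : ℝ) ^ (5 * k + 4)) := by
  obtain ⟨Cd, hCd, Ld, Hd⟩ := step_outer hc k C0
  obtain ⟨C, hC, HC⟩ := pure_outer hc 1 k C0 w
  obtain ⟨C3, hC3, L3, H3⟩ := chain3 hc k hw
  refine ⟨2 * (7 * w * Cd * C3) + 2 * C, by positivity, max (max Ld L3) 1,
    fun L hL s f hg cs hA N0 i0 hN0 hN0' hi0 N hN Q hQ => ?_⟩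
  have hLd : Ld ≤ L := (le_max_left _ _).trans ((le_max_left _ _).trans hL)
  have hLL3 : L3 ≤ L := (le_max_right _ _).trans ((le_max_left _ _).trans hL)
  have hL1 : 1 ≤ L := (le_max_right _ _).trans hL
  have hL1' : (1 : ℝ) ≤ L := by exact_mod_cast hL1
  have hLp : (0 : ℝ) < L := by exact_mod_cast hL1
  have h4 := Hd L hLd s f hg cs hA N0 i0 hN0 hN0' hi0 (Kp s ^ N * (X - 1) * Q) true w hw
    (fun j => C3 / ((L : ℝ) ^ (3 * k + 3) * ((((cs.length - 1 - j : ℕ) : ℝ) + 1) *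
        √(((cs.length - 1 - j : ℕ) : ℝ) + 1))) +
      C3 / ((L : ℝ) ^ (4 * k + 4) * √(((cs.length - 1 - j : ℕ) : ℝ) + 1))) (by
      intro j hj
      have h5 := H3 L hLL3 s f hg _ (hA.drop (j + 1)) N hN Q hQ
      have h6 : (cs.drop (j + 1)).length = cs.length - 1 - j := by
        rw [List.length_drop]
        omega
      rw [h6] at h5
      exact h5)
  have h5 : ∑ j ∈ range cs.length,
      (C3 / ((L : ℝ) ^ (3 * k + 3) * ((((cs.length - 1 - j : ℕ) : ℝ) + 1) *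
        √(((cs.length - 1 - j : ℕ) : ℝ) + 1))) +
      C3 / ((L : ℝ) ^ (4 * k + 4) * √(((cs.length - 1 - j : ℕ) : ℝ) + 1))) ≤
      7 * C3 / (L : ℝ) ^ (3 * k + 3) := by
    calc ∑ j ∈ range cs.length,
        (C3 / ((L : ℝ) ^ (3 * k + 3) * ((((cs.length - 1 - j : ℕ) : ℝ) + 1) *
          √(((cs.length - 1 - j : ℕ) : ℝ) + 1))) +
        C3 / ((L : ℝ) ^ (4 * k + 4) * √(((cs.length - 1 - j : ℕ) : ℝ) + 1)))
        = C3 / (L : ℝ) ^ (3 * k + 3) * (∑ j ∈ range cs.length,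
          1 / ((((cs.length - 1 - j : ℕ) : ℝ) + 1) * √(((cs.length - 1 - j : ℕ) : ℝ) + 1))) +
          C3 / (L : ℝ) ^ (4 * k + 4) * ∑ j ∈ range cs.length,
          1 / √(((cs.length - 1 - j : ℕ) : ℝ) + 1) := by
          rw [Finset.mul_sum, Finset.mul_sum, ← Finset.sum_add_distrib]
          apply Finset.sum_congr rfl
          intro j _
          rw [← div_div C3 ((L : ℝ) ^ (3 * k + 3)), ← div_div C3 ((L : ℝ) ^ (4 * k + 4))]
          ring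
      _ ≤ C3 / (L : ℝ) ^ (3 * k + 3) * 3 + C3 / (L : ℝ) ^ (4 * k + 4) * (4 * (L : ℝ) ^ k) :=
          add_le_add (mul_le_mul_of_nonneg_left (sum_reflect_inv_32 _) (by positivity))
            (mul_le_mul_of_nonneg_left (sum_reflect_inv_sqrt hL1 hA.1) (by positivity))
      _ = C3 / (L : ℝ) ^ (3 * k + 3) * 3 + 4 * C3 / (L : ℝ) ^ (3 * k + 4) := by
          rw [show 4 * k + 4 = (3 * k + 4) + k by ring, pow_add (L : ℝ) (3 * k + 4) k]
          field_simp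
      _ ≤ C3 / (L : ℝ) ^ (3 * k + 3) * 3 + 4 * C3 / (L : ℝ) ^ (3 * k + 3) :=
          add_le_add le_rfl (div_pow_anti hL1' (by positivity) (by omega))
      _ = _ := by ring
  have h6 := SB_mono (B := 7 * w * Cd * C3 / (L : ℝ) ^ (5 * k + 4)) h4 (by
    refine (mul_le_mul_of_nonneg_left h5 (by positivity)).trans (le_of_eq ?_)
    rw [show 5 * k + 4 = (2 * k + 1) + (3 * k + 3) by ring,
      pow_add (L : ℝ) (2 * k + 1) (3 * k + 3)]
    field_simp)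
  have h7 := HC L hL1 s f hg cs N0 i0 hN0 N Q hQ (5 * k + 4) (by omega)
  rw [pow_one] at h7
  have h8 := SB_add hw h6 h7
  rw [sub_add_cancel] at h8
  refine SB_mono h8 (le_of_eq ?_)
  ring

/-- the non-pure part of a whole string, sup bound -/
theorem outer1 {c : ℝ} (hc : 0 < c) (k C0 : ℕ) {w : ℝ} (hw : 0 ≤ w) :
    ∃ C : ℝ, 0 < C ∧ ∃ L0 : ℕ, ∀ L ≥ L0, ∀ s f : ℝ, Good c s f → ∀ cs : List ℕ, Adm k L cs →
      ∀ N0 i0 : ℕ, L ^ (4 * k + 6) ≤ C0 * N0 → N0 ≤ C0 * L ^ (4 * k + 6) →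
      i0 ≤ L ^ (4 * k + 6) →
      ∀ N : ℕ, L ^ (4 * k + 6) ≤ C0 * N → ∀ Q : ℝ[X], l1 Q ≤ 1 →
      SB false w (ι (Kp s ^ N0 * Kp f ^ i0) * chainK s f cs (Kp s ^ N * Q) -
          ι (Kp s ^ N0 * Kp f ^ i0 * (Kp s ^ cs.sum * Kp f ^ cs.length) * (Kp s ^ N * Q)))
        (C / (L : ℝ) ^ (4 * k + 7)) := by
  obtain ⟨Cd, hCd, Ld, Hd⟩ := step_outer hc k C0
  obtain ⟨C1, hC1, L1, H1⟩ := chain1 hc k C0 hw
  refine ⟨3 * w * Cd * C1 + 1, by positivity, max (max Ld L1) 1,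
    fun L hL s f hg cs hA N0 i0 hN0 hN0' hi0 N hN Q hQ => ?_⟩
  have hLd : Ld ≤ L := (le_max_left _ _).trans ((le_max_left _ _).trans hL)
  have hLL1 : L1 ≤ L := (le_max_right _ _).trans ((le_max_left _ _).trans hL)
  have hL1 : 1 ≤ L := (le_max_right _ _).trans hL
  have hLp : (0 : ℝ) < L := by exact_mod_cast hL1
  have h4 := Hd L hLd s f hg cs hA N0 i0 hN0 hN0' hi0 (Kp s ^ N * Q) false w hw
    (fun _ => C1 / (L : ℝ) ^ (4 * k + 6))
    (fun j _ => H1 L hLL1 s f hg _ (hA.drop _) N hN Q hQ)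
  refine SB_mono h4 ?_
  rw [Finset.sum_const, Finset.card_range, nsmul_eq_mul]
  have h5 : (cs.length : ℝ) ≤ 3 * (L : ℝ) ^ (2 * k) := by exact_mod_cast hA.1
  calc w * Cd / (L : ℝ) ^ (2 * k + 1) * ((cs.length : ℝ) * (C1 / (L : ℝ) ^ (4 * k + 6)))
      ≤ w * Cd / (L : ℝ) ^ (2 * k + 1) *
        ((3 * (L : ℝ) ^ (2 * k)) * (C1 / (L : ℝ) ^ (4 * k + 6))) :=
        mul_le_mul_of_nonneg_left (mul_le_mul_of_nonneg_right h5 (by positivity))
          (by positivity)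
    _ = 3 * w * Cd * C1 / (L : ℝ) ^ (4 * k + 7) := by
        rw [pow_succ (L : ℝ) (2 * k), pow_succ (L : ℝ) (4 * k + 6)]
        field_simp
    _ ≤ _ := by
        apply div_le_div_of_nonneg_right _ (by positivity)
        linarith

end P321
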