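import Vale.Agent.TR321.Defs

/-! # P321 module Chern: Chernoff bound for coefficients and near-disjointness -/

namespace P321

open Polynomial Finset

/-- the gap kernel before the `j`-th planted letter: `K^{c_0+…+c_j} Φ^j` -/
noncomputable def pre (s f : ℝ) (cs : List ℕ) (j : ℕ) : ℝ[X] :=
  Kp s ^ (cs.take (j + 1)).sum * Kp f ^ j

namespace ChernAux

theorem coeff_mul_nonneg {P Q : ℝ[X]} (hP : ∀ n, 0 ≤ P.coeff n) (hQ : ∀ n, 0 ≤ Q.coeff n) (n : ℕ) :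
    0 ≤ (P * Q).coeff n := by
  rw [coeff_mul]
  exact Finset.sum_nonneg (fun x _ => mul_nonneg (hP _) (hQ _))

theorem coeff_pow_nonneg {P : ℝ[X]} (hP : ∀ n, 0 ≤ P.coeff n) (N n : ℕ) :
    0 ≤ (P ^ N).coeff n := by
  induction N generalizing n with
  | zero =>
    rw [pow_zero, coeff_one]
    split_ifs <;> norm_num
  | succ N ih =>
    rw [pow_succ]
    exact coeff_mul_nonneg ih hP n

theorem coeff_Kp_nonneg {s : ℝ} (hs0 : 0 ≤ s) (hs1 : s ≤ 1) (n : ℕ) : 0 ≤ (Kp s).coeff n := by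
  unfold Kp
  rw [coeff_add, coeff_C, coeff_C_mul, coeff_X]
  refine add_nonneg ?_ (mul_nonneg hs0 ?_)
  · split_ifs
    · linarith
    · exact le_refl _
  · split_ifs <;> norm_num

theorem coeff_mul_pow_le_eval {P : ℝ[X]} (hP : ∀ n, 0 ≤ P.coeff n) {y : ℝ} (hy : 0 ≤ y) (g : ℕ) :
    P.coeff g * y ^ g ≤ P.eval y := by
  rw [eval_eq_sum, Polynomial.sum]
  by_cases hg : g ∈ P.support
  · exact Finset.single_le_sum (f := fun n => P.coeff n * y ^ n)
      (fun n _ => mul_nonneg (hP n) (pow_nonneg hy n)) hg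
  · rw [notMem_support_iff] at hg
    rw [hg, zero_mul]
    exact Finset.sum_nonneg (fun n _ => mul_nonneg (hP n) (pow_nonneg hy n))

theorem eval_Kp (s y : ℝ) : (Kp s).eval y = 1 + s * (y - 1) := by
  unfold Kp
  simp
  ring

theorem eval_Kp_nonneg {s y : ℝ} (hs0 : 0 ≤ s) (hs1 : s ≤ 1) (hy : 0 ≤ y) :
    0 ≤ (Kp s).eval y := by
  rw [eval_Kp]
  nlinarith

theorem eval_Kp_pow_le {s : ℝ} (hs0 : 0 ≤ s) (hs1 : s ≤ 1) {x : ℝ} (hx : |x| ≤ 1) (N : ℕ) :
    ((Kp s).eval (Real.exp x)) ^ N ≤ Real.exp (N * s * (x + x ^ 2)) := by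
  have h1 : Real.exp x - 1 ≤ x + x ^ 2 := by
    have := (abs_le.mp (Real.abs_exp_sub_one_sub_id_le hx)).2
    linarith
  have h2 : (Kp s).eval (Real.exp x) ≤ Real.exp (s * (x + x ^ 2)) := by
    rw [eval_Kp]
    have h3 : s * (Real.exp x - 1) ≤ s * (x + x ^ 2) := mul_le_mul_of_nonneg_left h1 hs0
    have h4 := Real.add_one_le_exp (s * (x + x ^ 2))
    linarith
  calc ((Kp s).eval (Real.exp x)) ^ N ≤ (Real.exp (s * (x + x ^ 2))) ^ N :=
        pow_le_pow_left₀ (eval_Kp_nonneg hs0 hs1 (Real.exp_pos x).le) h2 N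
    _ = Real.exp (N * s * (x + x ^ 2)) := by
        rw [← Real.exp_nat_mul]
        ring_nf

theorem window_card (S : Finset ℕ) (hne : S.Nonempty) (μ : ℕ → ℝ) {δ D g : ℝ} (hδ : 0 < δ)
    (hsp : ∀ j ∈ S, ∀ j' ∈ S, j ≤ j' → δ * ((j' : ℝ) - j) ≤ μ j' - μ j)
    (hwin : ∀ j ∈ S, |g - μ j| < D) : ((S.card : ℝ) - 1) * δ < 2 * D := by
  set a := S.min' hne with ha
  set b := S.max' hne with hb
  have haS : a ∈ S := S.min'_mem hne
  have hbS : b ∈ S := S.max'_mem hne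
  have hab : a ≤ b := S.min'_le b hbS
  have hsub : S ⊆ Finset.Icc a b := by
    intro j hj
    rw [Finset.mem_Icc]
    exact ⟨S.min'_le j hj, S.le_max' j hj⟩
  have hcard : S.card ≤ b + 1 - a := by
    have := Finset.card_le_card hsub
    rwa [Nat.card_Icc] at this
  have hcard' : (S.card : ℝ) ≤ (b : ℝ) - a + 1 := by
    have h1 : S.card + a ≤ b + 1 := by omega
    have h2 : ((S.card + a : ℕ) : ℝ) ≤ ((b + 1 : ℕ) : ℝ) := by exact_mod_cast h1
    push_cast at h2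
    linarith
  have h1 := hsp a haS b hbS hab
  have h2 := abs_lt.mp (hwin a haS)
  have h3 := abs_lt.mp (hwin b hbS)
  have h4 : ((S.card : ℝ) - 1) * δ ≤ ((b : ℝ) - a) * δ :=
    mul_le_mul_of_nonneg_right (by linarith) hδ.le
  nlinarith

/-- the exponential beats every power -/
theorem exp_small {b : ℝ} (hb : 0 < b) (A : ℕ) :
    ∃ L0 : ℕ, ∀ L : ℕ, L0 ≤ L → 1 ≤ L ∧ Real.exp (-(b * (L : ℝ) ^ 2)) ≤ 1 / (L : ℝ) ^ A := by
  have h1 := Real.tendsto_pow_mul_exp_neg_atTop_nhds_zero A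
  have h2 : Filter.Tendsto (fun L : ℕ => b * (L : ℝ)) Filter.atTop Filter.atTop :=
    Filter.Tendsto.const_mul_atTop hb tendsto_natCast_atTop_atTop
  have h3 := (h1.comp h2).eventually (gt_mem_nhds (show (0 : ℝ) < b ^ A from pow_pos hb A))
  have h4 := h3.and (Filter.eventually_ge_atTop 1)
  obtain ⟨L0, hL0⟩ := Filter.eventually_atTop.mp h4
  refine ⟨L0, fun L hL => ?_⟩
  obtain ⟨h5, h6⟩ := hL0 L hL
  refine ⟨h6, ?_⟩
  have hL1 : (1 : ℝ) ≤ L := by exact_mod_cast h6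
  have hLpos : (0 : ℝ) < (L : ℝ) ^ A := pow_pos (by linarith) A
  rw [le_div_iff₀ hLpos]
  have h7 : (b * (L : ℝ)) ^ A * Real.exp (-(b * (L : ℝ))) < b ^ A := h5
  have h8 : Real.exp (-(b * (L : ℝ) ^ 2)) ≤ Real.exp (-(b * (L : ℝ))) := by
    rw [Real.exp_le_exp]
    have : (L : ℝ) ≤ (L : ℝ) ^ 2 := by nlinarith
    nlinarith
  have h9 : (L : ℝ) ^ A * Real.exp (-(b * (L : ℝ))) < 1 := by
    rw [mul_pow] at h7
    have hbA : 0 < b ^ A := pow_pos hb A
    by_contra hcon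
    push Not at hcon
    have := mul_le_mul_of_nonneg_left hcon hbA.le
    linarith
  calc Real.exp (-(b * (L : ℝ) ^ 2)) * (L : ℝ) ^ A
      ≤ Real.exp (-(b * (L : ℝ))) * (L : ℝ) ^ A := mul_le_mul_of_nonneg_right h8 hLpos.le
    _ ≤ 1 := by linarith

end ChernAux

open ChernAux

theorem coeff_KK_nonneg {s f : ℝ} (hs0 : 0 ≤ s) (hs1 : s ≤ 1) (hf0 : 0 ≤ f) (hf1 : f ≤ 1)
    (N v g : ℕ) : 0 ≤ (Kp s ^ N * Kp f ^ v).coeff g :=
  coeff_mul_nonneg (coeff_pow_nonneg (coeff_Kp_nonneg hs0 hs1) N)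
    (coeff_pow_nonneg (coeff_Kp_nonneg hf0 hf1) v) g

/-- `coeff_g ≤ e^{-xg} P(e^x)`, `1 + s(e^x - 1) ≤ exp(s(e^x-1))`, `e^x - 1 ≤ x + x^2`. -/
theorem chernoff {s f : ℝ} (hs0 : 0 ≤ s) (hs1 : s ≤ 1) (hf0 : 0 ≤ f) (hf1 : f ≤ 1)
    (N v g : ℕ) {x : ℝ} (hx : |x| ≤ 1) :
    (Kp s ^ N * Kp f ^ v).coeff g ≤
      Real.exp (-x * ((g : ℝ) - (N * s + v * f)) + (N * s + v * f) * x ^ 2) := by
  have h1 := coeff_mul_pow_le_eval (P := Kp s ^ N * Kp f ^ v)
    (coeff_KK_nonneg hs0 hs1 hf0 hf1 N v) (Real.exp_pos x).le g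
  rw [eval_mul, eval_pow, eval_pow] at h1
  have h2 := eval_Kp_pow_le hs0 hs1 hx N
  have h3 := eval_Kp_pow_le hf0 hf1 hx v
  have h4 : (Kp s ^ N * Kp f ^ v).coeff g * Real.exp x ^ g
      ≤ Real.exp (N * s * (x + x ^ 2)) * Real.exp (v * f * (x + x ^ 2)) :=
    h1.trans (mul_le_mul h2 h3 (pow_nonneg (eval_Kp_nonneg hf0 hf1 (Real.exp_pos x).le) v)
      (Real.exp_pos _).le)
  have h5 : Real.exp x ^ g = Real.exp (g * x) := by
    rw [← Real.exp_nat_mul]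
  rw [h5, ← Real.exp_add] at h4
  calc (Kp s ^ N * Kp f ^ v).coeff g
      = ((Kp s ^ N * Kp f ^ v).coeff g * Real.exp (g * x)) * Real.exp (-(g * x)) := by
        rw [mul_assoc, ← Real.exp_add, add_neg_cancel, Real.exp_zero, mul_one]
    _ ≤ Real.exp (N * s * (x + x ^ 2) + v * f * (x + x ^ 2)) * Real.exp (-(g * x)) :=
        mul_le_mul_of_nonneg_right h4 (Real.exp_pos _).le
    _ = Real.exp (-x * ((g : ℝ) - (N * s + v * f)) + (N * s + v * f) * x ^ 2) := by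
        rw [← Real.exp_add]
        congr 1
        ring

namespace ChernAux

/-- Chernoff tail -/
theorem tail {s f : ℝ} (hs0 : 0 ≤ s) (hs1 : s ≤ 1) (hf0 : 0 ≤ f) (hf1 : f ≤ 1)
    (N v g : ℕ) {M D : ℝ} (hM : N * s + v * f ≤ M) (hM0 : 0 < M) (hD : 0 ≤ D) (hDM : D ≤ 2 * M)
    (h : D ≤ |(g : ℝ) - (N * s + v * f)|) :
    (Kp s ^ N * Kp f ^ v).coeff g ≤ Real.exp (-(D ^ 2 / (4 * M))) := by
  set x0 : ℝ := D / (2 * M) with hx0
  have h2M : 0 < 2 * M := by linarith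
  have hx00 : 0 ≤ x0 := div_nonneg hD h2M.le
  have hx01 : x0 ≤ 1 := by
    rw [hx0, div_le_one h2M]
    exact hDM
  have hμ0 : 0 ≤ (N : ℝ) * s + v * f := by positivity
  have hval : -x0 * D + M * x0 ^ 2 = -(D ^ 2 / (4 * M)) := by
    rw [hx0]
    field_simp
    ring
  have hsq : ((N : ℝ) * s + v * f) * x0 ^ 2 ≤ M * x0 ^ 2 :=
    mul_le_mul_of_nonneg_right hM (sq_nonneg _)
  rcases le_abs.mp h with h' | h'
  · refine (chernoff hs0 hs1 hf0 hf1 N v g (x := x0) (by rw [abs_of_nonneg hx00]; exact hx01)).trans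
      ?_
    rw [Real.exp_le_exp, ← hval]
    have := mul_le_mul_of_nonneg_left h' hx00
    nlinarith
  · refine (chernoff hs0 hs1 hf0 hf1 N v g (x := -x0)
      (by rw [abs_neg, abs_of_nonneg hx00]; exact hx01)).trans ?_
    rw [Real.exp_le_exp, ← hval]
    have := mul_le_mul_of_nonneg_left h' hx00
    nlinarith

/-- mean of the kernel `pre s f cs j` -/
noncomputable def mu (s f : ℝ) (cs : List ℕ) (j : ℕ) : ℝ :=
  ((cs.take (j + 1)).sum : ℝ) * s + j * f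

theorem sum_take_le {k L : ℕ} {cs : List ℕ} (h : Adm k L cs) (j : ℕ) :
    (cs.take (j + 1)).sum ≤ 12 * L ^ (4 * k + 2) := by
  have h1 : (cs.take (j + 1)).sum ≤ (cs.take (j + 1)).length • (4 * L ^ (2 * k + 2)) := by
    refine List.sum_le_card_nsmul _ _ (fun x hx => ?_)
    exact (h.2 x (List.mem_of_mem_take hx)).2
  have h2 : (cs.take (j + 1)).length ≤ 3 * L ^ (2 * k) := by
    rw [List.length_take]
    exact (min_le_right _ _).trans h.1
  calc (cs.take (j + 1)).sum ≤ (cs.take (j + 1)).length • (4 * L ^ (2 * k + 2)) := h1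
    _ = (cs.take (j + 1)).length * (4 * L ^ (2 * k + 2)) := by rw [smul_eq_mul]
    _ ≤ 3 * L ^ (2 * k) * (4 * L ^ (2 * k + 2)) := Nat.mul_le_mul_right _ h2
    _ = 12 * L ^ (4 * k + 2) := by
        have : L ^ (4 * k + 2) = L ^ (2 * k) * L ^ (2 * k + 2) := by
          rw [← pow_add]
          congr 1
          ring
        rw [this]
        ring

theorem mu_le {c s f : ℝ} (hc : 0 < c) (hg : Good c s f) {k L : ℕ} (hL : 1 ≤ L) {cs : List ℕ}
    (h : Adm k L cs) {j : ℕ} (hj : j < cs.length) : mu s f cs j ≤ 15 * (L : ℝ) ^ (4 * k + 2) := by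
  have hs0 : 0 ≤ s := by linarith [hg.1]
  have hs1 : s ≤ 1 := by linarith [hg.2.1]
  have hf1 : f ≤ 1 := by linarith [hg.2.2.2]
  have h1 : ((cs.take (j + 1)).sum : ℝ) ≤ 12 * (L : ℝ) ^ (4 * k + 2) := by
    exact_mod_cast sum_take_le h j
  have h2 : (j : ℝ) ≤ 3 * (L : ℝ) ^ (4 * k + 2) := by
    have h3 : j ≤ 3 * L ^ (4 * k + 2) := by
      calc j ≤ cs.length := hj.le
        _ ≤ 3 * L ^ (2 * k) := h.1
        _ ≤ 3 * L ^ (4 * k + 2) :=
            Nat.mul_le_mul_left _ (Nat.pow_le_pow_right hL (by omega))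
    exact_mod_cast h3
  have h4 : ((cs.take (j + 1)).sum : ℝ) * s ≤ ((cs.take (j + 1)).sum : ℝ) * 1 :=
    mul_le_mul_of_nonneg_left hs1 (Nat.cast_nonneg _)
  have h5 : (j : ℝ) * f ≤ j * 1 := mul_le_mul_of_nonneg_left hf1 (Nat.cast_nonneg _)
  unfold mu
  linarith

theorem sum_take_spacing {k L : ℕ} {cs : List ℕ} (h : Adm k L cs) (j d : ℕ)
    (hj : j + d < cs.length) :
    (cs.take (j + 1)).sum + d * L ^ (2 * k + 2) ≤ (cs.take (j + d + 1)).sum := by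
  induction d with
  | zero => simp
  | succ d ih =>
    have h1 := ih (by omega)
    have h2 : (cs.take (j + (d + 1) + 1)).sum
        = (cs.take (j + d + 1)).sum + cs[j + (d + 1)] := by
      rw [List.sum_take_succ cs (j + (d + 1)) hj]
      rfl
    have h3 := (h.2 _ (List.getElem_mem hj)).1
    rw [h2]
    calc (cs.take (j + 1)).sum + (d + 1) * L ^ (2 * k + 2)
        = ((cs.take (j + 1)).sum + d * L ^ (2 * k + 2)) + L ^ (2 * k + 2) := by ring
      _ ≤ (cs.take (j + d + 1)).sum + cs[j + (d + 1)] := Nat.add_le_add h1 h3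

theorem mu_spacing {c s f : ℝ} (hc : 0 < c) (hg : Good c s f) {k L : ℕ} {cs : List ℕ}
    (h : Adm k L cs) {j j' : ℕ} (hj : j ≤ j') (hj' : j' < cs.length) :
    c * (L : ℝ) ^ (2 * k + 2) * ((j' : ℝ) - j) ≤ mu s f cs j' - mu s f cs j := by
  obtain ⟨d, rfl⟩ := Nat.exists_eq_add_of_le hj
  have h1 := sum_take_spacing h j d hj'
  have h2 : ((cs.take (j + 1)).sum : ℝ) + d * (L : ℝ) ^ (2 * k + 2)
      ≤ ((cs.take (j + d + 1)).sum : ℝ) := by
    exact_mod_cast h1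
  have hs0 : 0 ≤ s := by linarith [hg.1]
  have hf0 : 0 ≤ f := by linarith [hg.2.2.1]
  have h3 := mul_le_mul_of_nonneg_right h2 hs0
  have h4 : 0 ≤ (d : ℝ) * f := mul_nonneg (Nat.cast_nonneg _) hf0
  have h5 : c * (d * (L : ℝ) ^ (2 * k + 2)) ≤ s * (d * (L : ℝ) ^ (2 * k + 2)) :=
    mul_le_mul_of_nonneg_right hg.1 (by positivity)
  unfold mu
  have h6 : ((j + d : ℕ) : ℝ) = (j : ℝ) + d := Nat.cast_add j d
  rw [h6]
  have h7 : c * (L : ℝ) ^ (2 * k + 2) * ((j : ℝ) + d - j) = c * (d * (L : ℝ) ^ (2 * k + 2)) := by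
    ring
  rw [h7]
  linarith

end ChernAux

/-- near-disjointness of the kernels `pre s f cs j` -/
theorem nd_inner {c : ℝ} (hc : 0 < c) (k A : ℕ) :
    ∃ L0 : ℕ, ∀ L ≥ L0, ∀ s f : ℝ, Good c s f → ∀ cs : List ℕ, Adm k L cs → ∀ g : ℕ,
      ((range cs.length).filter
        (fun j => 1 / (L : ℝ) ^ A < |(pre s f cs j).coeff g|)).card ≤ 1 := by
  obtain ⟨L0, hL0⟩ := exp_small (b := c ^ 2 / 240) (by positivity) A
  refine ⟨L0, fun L hL s f hg cs hcs g => ?_⟩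
  obtain ⟨hL1, hexp⟩ := hL0 L hL
  have hL1' : (1 : ℝ) ≤ L := by exact_mod_cast hL1
  have hs0 : 0 ≤ s := by linarith [hg.1]
  have hs1 : s ≤ 1 := by linarith [hg.2.1]
  have hf0 : 0 ≤ f := by linarith [hg.2.2.1]
  have hf1 : f ≤ 1 := by linarith [hg.2.2.2]
  have hc1 : c ≤ 1 := by linarith [hg.1, hg.2.1]
  set S := (range cs.length).filter (fun j => 1 / (L : ℝ) ^ A < |(pre s f cs j).coeff g|) with hS
  have hpow : (0 : ℝ) < (L : ℝ) ^ (2 * k + 2) := by positivity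
  have hpow2 : (L : ℝ) ^ (2 * k + 2) ≤ (L : ℝ) ^ (4 * k + 2) :=
    pow_le_pow_right₀ hL1' (by omega)
  have hpow3 : (0 : ℝ) < (L : ℝ) ^ (4 * k + 2) := by positivity
  have hwin : ∀ j ∈ S, |(g : ℝ) - mu s f cs j| < c / 2 * (L : ℝ) ^ (2 * k + 2) := by
    intro j hj
    rw [hS, Finset.mem_filter, Finset.mem_range] at hj
    obtain ⟨hj1, hj2⟩ := hj
    by_contra hcon
    push Not at hcon
    have h1 := tail hs0 hs1 hf0 hf1 (cs.take (j + 1)).sum j g (M := 15 * (L : ℝ) ^ (4 * k + 2))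
      (D := c / 2 * (L : ℝ) ^ (2 * k + 2)) (mu_le hc hg hL1 hcs hj1) (by positivity)
      (by positivity) (by nlinarith) hcon
    have h2 : (c / 2 * (L : ℝ) ^ (2 * k + 2)) ^ 2 / (4 * (15 * (L : ℝ) ^ (4 * k + 2)))
        = c ^ 2 / 240 * (L : ℝ) ^ 2 := by
      have h3 : ((L : ℝ) ^ (2 * k + 2)) ^ 2 = (L : ℝ) ^ (4 * k + 2) * (L : ℝ) ^ 2 := by
        rw [← pow_mul, ← pow_add]
        congr 1
        ring
      rw [mul_pow, h3]
      field_simp
      ring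
    rw [h2] at h1
    have h4 : |(pre s f cs j).coeff g| ≤ 1 / (L : ℝ) ^ A := by
      rw [abs_of_nonneg (show 0 ≤ (pre s f cs j).coeff g from
        coeff_KK_nonneg hs0 hs1 hf0 hf1 _ _ g)]
      exact h1.trans hexp
    linarith
  rcases S.eq_empty_or_nonempty with h0 | hne
  · rw [h0, Finset.card_empty]
    exact Nat.zero_le 1
  · have h1 := window_card S hne (mu s f cs) (δ := c * (L : ℝ) ^ (2 * k + 2))
      (D := c / 2 * (L : ℝ) ^ (2 * k + 2)) (g := (g : ℝ)) (by positivity)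
      (fun j _ j' hj' hjj => mu_spacing hc hg hcs hjj
        (Finset.mem_range.mp (Finset.mem_filter.mp hj').1)) hwin
    have h2 : (0 : ℝ) < c * (L : ℝ) ^ (2 * k + 2) := by positivity
    have h3 : ((S.card : ℝ) - 1) < 1 := by
      by_contra hcon
      push Not at hcon
      have := mul_le_mul_of_nonneg_right hcon h2.le
      linarith
    have h4 : (S.card : ℝ) < 2 := by linarith
    have h5 : S.card < 2 := by exact_mod_cast h4
    omega

/-- the same for the differences `(X - 1) * pre s f cs j` -/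
theorem nd_deriv {c : ℝ} (hc : 0 < c) (k A : ℕ) :
    ∃ L0 : ℕ, ∀ L ≥ L0, ∀ s f : ℝ, Good c s f → ∀ cs : List ℕ, Adm k L cs → ∀ g : ℕ,
      ((range cs.length).filter
        (fun j => 1 / (L : ℝ) ^ A < |((X - 1) * pre s f cs j).coeff g|)).card ≤ 1 := by
  obtain ⟨L0, hL0⟩ := exp_small (b := c ^ 2 / 960) (by positivity) (A + 1)
  refine ⟨max L0 (max 2 ⌈4 / c⌉₊), fun L hL s f hg cs hcs g => ?_⟩
  obtain ⟨hL1, hexp⟩ := hL0 L (le_trans (le_max_left _ _) hL)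
  have hL2 : 2 ≤ L := le_trans (le_trans (le_max_left _ _) (le_max_right _ _)) hL
  have hL3 : 4 / c ≤ (L : ℝ) := by
    have h1 : ⌈4 / c⌉₊ ≤ L := le_trans (le_trans (le_max_right _ _) (le_max_right _ _)) hL
    exact (Nat.le_ceil _).trans (by exact_mod_cast h1)
  have hL1' : (1 : ℝ) ≤ L := by exact_mod_cast hL1
  have hL2' : (2 : ℝ) ≤ L := by exact_mod_cast hL2
  have hs0 : 0 ≤ s := by linarith [hg.1]
  have hs1 : s ≤ 1 := by linarith [hg.2.1]
  have hf0 : 0 ≤ f := by linarith [hg.2.2.1]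
  have hf1 : f ≤ 1 := by linarith [hg.2.2.2]
  have hc1 : c ≤ 1 := by linarith [hg.1, hg.2.1]
  set S := (range cs.length).filter
    (fun j => 1 / (L : ℝ) ^ A < |((X - 1) * pre s f cs j).coeff g|) with hS
  have hpow : (0 : ℝ) < (L : ℝ) ^ (2 * k + 2) := by positivity
  have hpow2 : (L : ℝ) ^ (2 * k + 2) ≤ (L : ℝ) ^ (4 * k + 2) :=
    pow_le_pow_right₀ hL1' (by omega)
  have hpow3 : (0 : ℝ) < (L : ℝ) ^ (4 * k + 2) := by positivity
  have hpow4 : (L : ℝ) ≤ (L : ℝ) ^ (2 * k + 2) := le_self_pow₀ hL1' (by omega)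
  have hone : 1 ≤ c / 4 * (L : ℝ) ^ (2 * k + 2) := by
    have h1 : c / 4 * (4 / c) = 1 := by
      field_simp
    have h2 : c / 4 * (4 / c) ≤ c / 4 * (L : ℝ) ^ (2 * k + 2) :=
      mul_le_mul_of_nonneg_left (hL3.trans hpow4) (by positivity)
    linarith
  -- small coefficients far from the mean
  have hsmall : ∀ j < cs.length, ∀ g' : ℕ,
      c / 4 * (L : ℝ) ^ (2 * k + 2) ≤ |(g' : ℝ) - mu s f cs j| →
      (pre s f cs j).coeff g' ≤ 1 / (L : ℝ) ^ (A + 1) := by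
    intro j hj1 g' hcon
    have h1 := tail hs0 hs1 hf0 hf1 (cs.take (j + 1)).sum j g' (M := 15 * (L : ℝ) ^ (4 * k + 2))
      (D := c / 4 * (L : ℝ) ^ (2 * k + 2)) (mu_le hc hg hL1 hcs hj1) (by positivity)
      (by positivity) (by nlinarith) hcon
    have h2 : (c / 4 * (L : ℝ) ^ (2 * k + 2)) ^ 2 / (4 * (15 * (L : ℝ) ^ (4 * k + 2)))
        = c ^ 2 / 960 * (L : ℝ) ^ 2 := by
      have h3 : ((L : ℝ) ^ (2 * k + 2)) ^ 2 = (L : ℝ) ^ (4 * k + 2) * (L : ℝ) ^ 2 := by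
        rw [← pow_mul, ← pow_add]
        congr 1
        ring
      rw [mul_pow, h3]
      field_simp
      ring
    rw [h2] at h1
    exact h1.trans hexp
  have hhalf : 2 * (1 / (L : ℝ) ^ (A + 1)) ≤ 1 / (L : ℝ) ^ A := by
    have hpA : (0 : ℝ) < (L : ℝ) ^ A := by positivity
    rw [pow_succ, mul_one_div, div_le_div_iff₀ (by positivity) hpA]
    nlinarith
  have hwin : ∀ j ∈ S, |(g : ℝ) - mu s f cs j| < c / 4 * (L : ℝ) ^ (2 * k + 2) + 1 := by
    intro j hj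
    rw [hS, Finset.mem_filter, Finset.mem_range] at hj
    obtain ⟨hj1, hj2⟩ := hj
    by_contra hcon
    push Not at hcon
    have hP0 : ∀ n, 0 ≤ (pre s f cs j).coeff n :=
      coeff_KK_nonneg hs0 hs1 hf0 hf1 _ _
    have h1 : (pre s f cs j).coeff g ≤ 1 / (L : ℝ) ^ (A + 1) := hsmall j hj1 g (by linarith)
    have h2 : |((X - 1) * pre s f cs j).coeff g| ≤ 1 / (L : ℝ) ^ A := by
      rw [sub_mul, one_mul, coeff_sub]
      cases g with
      | zero =>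
        rw [coeff_X_mul_zero, zero_sub, abs_neg, abs_of_nonneg (hP0 0)]
        have : (0 : ℝ) < 1 / (L : ℝ) ^ (A + 1) := by positivity
        linarith
      | succ g =>
        rw [coeff_X_mul]
        have h3 : (pre s f cs j).coeff g ≤ 1 / (L : ℝ) ^ (A + 1) := by
          refine hsmall j hj1 g ?_
          have h4 : |((g + 1 : ℕ) : ℝ) - mu s f cs j| ≤ |(g : ℝ) - mu s f cs j| + 1 := by
            have h5 : ((g + 1 : ℕ) : ℝ) - mu s f cs j = ((g : ℝ) - mu s f cs j) + 1 := by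
              push_cast
              ring
            rw [h5]
            exact (abs_add_le _ _).trans (by rw [abs_one])
          linarith
        have h4 := hP0 g
        have h5 := hP0 (g + 1)
        rw [abs_le]
        constructor <;> linarith
    linarith
  rcases S.eq_empty_or_nonempty with h0 | hne
  · rw [h0, Finset.card_empty]
    exact Nat.zero_le 1
  · have h1 := window_card S hne (mu s f cs) (δ := c * (L : ℝ) ^ (2 * k + 2))
      (D := c / 4 * (L : ℝ) ^ (2 * k + 2) + 1) (g := (g : ℝ)) (by positivity)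
      (fun j _ j' hj' hjj => mu_spacing hc hg hcs hjj
        (Finset.mem_range.mp (Finset.mem_filter.mp hj').1)) hwin
    have h2 : (0 : ℝ) < c * (L : ℝ) ^ (2 * k + 2) := by positivity
    have h3 : ((S.card : ℝ) - 1) < 1 := by
      by_contra hcon
      push Not at hcon
      have := mul_le_mul_of_nonneg_right hcon h2.le
      linarith
    have h4 : (S.card : ℝ) < 2 := by linarith
    have h5 : S.card < 2 := by exact_mod_cast h4
    omega

/-- with a long prefix at most `C1 * L^2` kernels are non-negligible at each place -/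
theorem nd_outer {c : ℝ} (hc : 0 < c) (k A C0 : ℕ) :
    ∃ C1 L0 : ℕ, ∀ L ≥ L0, ∀ s f : ℝ, Good c s f → ∀ cs : List ℕ, Adm k L cs →
      ∀ N0 i0 : ℕ, N0 ≤ C0 * L ^ (4 * k + 6) → i0 ≤ L ^ (4 * k + 6) → ∀ g : ℕ,
      ((range cs.length).filter
        (fun j => 1 / (L : ℝ) ^ A < |(Kp s ^ N0 * Kp f ^ i0 * pre s f cs j).coeff g|)).card
        ≤ C1 * L ^ 2 := by
  obtain ⟨L0, hL0⟩ := exp_small (b := 1 / (4 * ((C0 : ℝ) + 16))) (by positivity) A
  refine ⟨⌈2 / c⌉₊ + 1, L0, fun L hL s f hg cs hcs N0 i0 hN0 hi0 g => ?_⟩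
  obtain ⟨hL1, hexp⟩ := hL0 L hL
  have hL1' : (1 : ℝ) ≤ L := by exact_mod_cast hL1
  have hs0 : 0 ≤ s := by linarith [hg.1]
  have hs1 : s ≤ 1 := by linarith [hg.2.1]
  have hf0 : 0 ≤ f := by linarith [hg.2.2.1]
  have hf1 : f ≤ 1 := by linarith [hg.2.2.2]
  set S := (range cs.length).filter
    (fun j => 1 / (L : ℝ) ^ A < |(Kp s ^ N0 * Kp f ^ i0 * pre s f cs j).coeff g|) with hS
  have hpow2 : (L : ℝ) ^ (4 * k + 2) ≤ (L : ℝ) ^ (4 * k + 6) :=
    pow_le_pow_right₀ hL1' (by omega)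
  have hpow3 : (L : ℝ) ^ (2 * k + 4) ≤ (L : ℝ) ^ (4 * k + 6) :=
    pow_le_pow_right₀ hL1' (by omega)
  have hpow4 : (0 : ℝ) < (L : ℝ) ^ (4 * k + 6) := by positivity
  have hC0 : (0 : ℝ) ≤ C0 := Nat.cast_nonneg _
  set mu' : ℕ → ℝ := fun j => (N0 * s + i0 * f) + mu s f cs j with hmu'
  have hwin : ∀ j ∈ S, |(g : ℝ) - mu' j| < (L : ℝ) ^ (2 * k + 4) := by
    intro j hj
    rw [hS, Finset.mem_filter, Finset.mem_range] at hj
    obtain ⟨hj1, hj2⟩ := hj
    by_contra hcon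
    push Not at hcon
    have heq : Kp s ^ N0 * Kp f ^ i0 * pre s f cs j
        = Kp s ^ (N0 + (cs.take (j + 1)).sum) * Kp f ^ (i0 + j) := by
      unfold pre
      rw [pow_add, pow_add]
      ring
    have hmueq : ((N0 + (cs.take (j + 1)).sum : ℕ) : ℝ) * s + ((i0 + j : ℕ) : ℝ) * f = mu' j := by
      simp only [hmu', mu]
      push_cast
      ring
    have hMle : ((N0 + (cs.take (j + 1)).sum : ℕ) : ℝ) * s + ((i0 + j : ℕ) : ℝ) * f
        ≤ ((C0 : ℝ) + 16) * (L : ℝ) ^ (4 * k + 6) := by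
      rw [hmueq]
      have h1 := mu_le hc hg hL1 hcs hj1
      have h2 : (N0 : ℝ) ≤ C0 * (L : ℝ) ^ (4 * k + 6) := by exact_mod_cast hN0
      have h3 : (i0 : ℝ) ≤ (L : ℝ) ^ (4 * k + 6) := by exact_mod_cast hi0
      have h4 : (N0 : ℝ) * s ≤ N0 * 1 := mul_le_mul_of_nonneg_left hs1 (Nat.cast_nonneg _)
      have h5 : (i0 : ℝ) * f ≤ i0 * 1 := mul_le_mul_of_nonneg_left hf1 (Nat.cast_nonneg _)
      simp only [hmu']
      nlinarith
    have h1 := tail hs0 hs1 hf0 hf1 (N0 + (cs.take (j + 1)).sum) (i0 + j) g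
      (M := ((C0 : ℝ) + 16) * (L : ℝ) ^ (4 * k + 6))
      (D := (L : ℝ) ^ (2 * k + 4)) hMle (by positivity)
      (by positivity) (by nlinarith) (by rw [hmueq]; exact hcon)
    have h2 : ((L : ℝ) ^ (2 * k + 4)) ^ 2 / (4 * (((C0 : ℝ) + 16) * (L : ℝ) ^ (4 * k + 6)))
        = 1 / (4 * ((C0 : ℝ) + 16)) * (L : ℝ) ^ 2 := by
      have h3 : ((L : ℝ) ^ (2 * k + 4)) ^ 2 = (L : ℝ) ^ (4 * k + 6) * (L : ℝ) ^ 2 := by
        rw [← pow_mul, ← pow_add]
        congr 1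
        ring
      rw [h3]
      field_simp
    rw [h2] at h1
    have h4 : |(Kp s ^ N0 * Kp f ^ i0 * pre s f cs j).coeff g| ≤ 1 / (L : ℝ) ^ A := by
      rw [heq, abs_of_nonneg (coeff_KK_nonneg hs0 hs1 hf0 hf1 _ _ g)]
      exact h1.trans hexp
    linarith
  rcases S.eq_empty_or_nonempty with h0 | hne
  · rw [h0, Finset.card_empty]
    exact Nat.zero_le _
  · have h1 := window_card S hne mu' (δ := c * (L : ℝ) ^ (2 * k + 2))
      (D := (L : ℝ) ^ (2 * k + 4)) (g := (g : ℝ)) (by positivity)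
      (fun j _ j' hj' hjj => by
        have := mu_spacing hc hg hcs hjj (Finset.mem_range.mp (Finset.mem_filter.mp hj').1)
        simp only [hmu']
        linarith) hwin
    have h2 : (0 : ℝ) < c * (L : ℝ) ^ (2 * k + 2) := by positivity
    have h3 : ((S.card : ℝ) - 1) < 2 / c * (L : ℝ) ^ 2 := by
      by_contra hcon
      push Not at hcon
      have h4 := mul_le_mul_of_nonneg_right hcon h2.le
      have h5 : 2 / c * (L : ℝ) ^ 2 * (c * (L : ℝ) ^ (2 * k + 2)) = 2 * (L : ℝ) ^ (2 * k + 4) := by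
        have h6 : (L : ℝ) ^ (2 * k + 4) = (L : ℝ) ^ 2 * (L : ℝ) ^ (2 * k + 2) := by
          rw [← pow_add]
          congr 1
          ring
        rw [h6]
        field_simp
      linarith
    have h4 : (2 / c : ℝ) ≤ ⌈2 / c⌉₊ := Nat.le_ceil _
    have hL2 : (1 : ℝ) ≤ (L : ℝ) ^ 2 := one_le_pow₀ hL1'
    have h5 : (S.card : ℝ) < (((⌈2 / c⌉₊ + 1) * L ^ 2 : ℕ) : ℝ) + 1 := by
      push_cast
      have h6 := mul_le_mul_of_nonneg_right h4 (show (0 : ℝ) ≤ (L : ℝ) ^ 2 by positivity)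
      nlinarith
    have h6 : S.card < (⌈2 / c⌉₊ + 1) * L ^ 2 + 1 := by exact_mod_cast h5
    omega

end P321
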