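import Mathlib

/-!
# P321, core: noncommutative power series in two letters

`NC` is the ring of real formal power series in two noncommuting letters `false` (written `x0`) and
`true` (written `x1`).  Elements are functions `List Bool → ℝ`; the product is the convolution
(concatenation product), defined by recursion on the word.
-/

namespace P321

open Polynomial

/-- noncommutative power series in the letters `false`, `true`: functions on words -/
def NC : Type := List Bool → ℝ

namespace NC

noncomputable instance : AddCommGroup NC := inferInstanceAs (AddCommGroup (List Bool → ℝ))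
noncomputable instance : Module ℝ NC := inferInstanceAs (Module ℝ (List Bool → ℝ))

@[ext] theorem ext {f g : NC} (h : ∀ μ : List Bool, f μ = g μ) : f = g := funext h

@[simp] theorem add_apply (f g : NC) (μ : List Bool) : (f + g) μ = f μ + g μ := rfl
@[simp] theorem sub_apply (f g : NC) (μ : List Bool) : (f - g) μ = f μ - g μ := rfl
@[simp] theorem neg_apply (f : NC) (μ : List Bool) : (-f) μ = - f μ := rfl
@[simp] theorem zero_apply (μ : List Bool) : (0 : NC) μ = 0 := rfl
@[simp] theorem smul_apply (c : ℝ) (f : NC) (μ : List Bool) : (c • f) μ = c * f μ := rfl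

/-- the left derivative (left quotient) by the letter `b` -/
def d (b : Bool) (f : NC) : NC := fun μ => f (b :: μ)

@[simp] theorem d_apply (b : Bool) (f : NC) (μ : List Bool) : d b f μ = f (b :: μ) := rfl

/-- the concatenation product -/
def mulAux : (List Bool → ℝ) → (List Bool → ℝ) → List Bool → ℝ
  | f, g, [] => f [] * g []
  | f, g, (b :: μ) => f [] * g (b :: μ) + mulAux (fun ν => f (b :: ν)) g μ

instance : Mul NC := ⟨fun f g => mulAux f g⟩

/-- the unit: the indicator of the empty word -/
def oneAux : List Bool → ℝ
  | [] => 1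
  | (_ :: _) => 0

instance : One NC := ⟨oneAux⟩

@[simp] theorem one_nil : (1 : NC) [] = 1 := rfl
@[simp] theorem one_cons (b : Bool) (μ : List Bool) : (1 : NC) (b :: μ) = 0 := rfl
@[simp] theorem mul_nil (f g : NC) : (f * g) [] = f [] * g [] := rfl
theorem mul_cons (f g : NC) (b : Bool) (μ : List Bool) :
    (f * g) (b :: μ) = f [] * g (b :: μ) + (d b f * g) μ := rfl

@[simp] theorem d_add (b : Bool) (f g : NC) : d b (f + g) = d b f + d b g := rfl
@[simp] theorem d_sub (b : Bool) (f g : NC) : d b (f - g) = d b f - d b g := rfl
@[simp] theorem d_neg (b : Bool) (f : NC) : d b (-f) = - d b f := rfl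
@[simp] theorem d_zero (b : Bool) : d b (0 : NC) = 0 := rfl
@[simp] theorem d_one (b : Bool) : d b (1 : NC) = 0 := rfl
@[simp] theorem d_smul (b : Bool) (c : ℝ) (f : NC) : d b (c • f) = c • d b f := rfl

theorem d_mul (b : Bool) (f g : NC) : d b (f * g) = f [] • d b g + d b f * g := rfl

theorem add_mul' (f g h : NC) : (f + g) * h = f * h + g * h := by
  ext μ
  induction μ generalizing f g with
  | nil => simp [add_mul]
  | cons b μ ih => simp only [mul_cons, add_apply, d_add, ih]; ring

theorem mul_add' (f g h : NC) : f * (g + h) = f * g + f * h := by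
  ext μ
  induction μ generalizing f with
  | nil => simp [mul_add]
  | cons b μ ih => simp only [mul_cons, add_apply, ih]; ring

theorem smul_mul' (c : ℝ) (f g : NC) : (c • f) * g = c • (f * g) := by
  ext μ
  induction μ generalizing f with
  | nil => simp [mul_assoc]
  | cons b μ ih => simp only [mul_cons, smul_apply, d_smul, ih]; ring

theorem mul_smul' (c : ℝ) (f g : NC) : f * (c • g) = c • (f * g) := by
  ext μ
  induction μ generalizing f with
  | nil => simp [mul_left_comm]
  | cons b μ ih => simp only [mul_cons, smul_apply, ih]; ring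

theorem zero_mul' (f : NC) : (0 : NC) * f = 0 := by
  have := smul_mul' 0 0 f
  simpa using this

theorem mul_zero' (f : NC) : f * (0 : NC) = 0 := by
  have := mul_smul' 0 f 0
  simpa using this

theorem one_mul' (f : NC) : (1 : NC) * f = f := by
  ext μ
  cases μ with
  | nil => simp
  | cons b μ => simp [mul_cons, zero_mul']

theorem mul_one' (f : NC) : f * (1 : NC) = f := by
  ext μ
  induction μ generalizing f with
  | nil => simp
  | cons b μ ih => simp [mul_cons, ih]

theorem mul_assoc' (f g h : NC) : f * g * h = f * (g * h) := by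
  ext μ
  induction μ generalizing f with
  | nil => simp [mul_assoc]
  | cons b μ ih =>
    rw [mul_cons, mul_cons, mul_cons g h, d_mul, add_mul', add_apply, ih, smul_mul', smul_apply,
      mul_nil]
    ring

noncomputable instance : Ring NC :=
  { (inferInstance : AddCommGroup NC) with
    mul := (· * ·)
    one := 1
    left_distrib := mul_add'
    right_distrib := add_mul'
    zero_mul := zero_mul'
    mul_zero := mul_zero'
    one_mul := one_mul'
    mul_one := mul_one'
    mul_assoc := mul_assoc' }

noncomputable instance : Algebra ℝ NC := Algebra.ofModule smul_mul' mul_smul'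

/-- the letter `b` -/
def ltr (b : Bool) : NC := fun μ => if μ = [b] then 1 else 0

@[simp] theorem ltr_nil (b : Bool) : ltr b [] = 0 := by simp [ltr]
@[simp] theorem d_ltr_self (b : Bool) : d b (ltr b) = 1 := by
  ext μ
  cases μ <;> simp [ltr]

theorem d_ltr_ne {b c : Bool} (h : b ≠ c) : d b (ltr c) = 0 := by
  ext μ
  simp [ltr, h]

/-- the letter for background -/
abbrev x0 : NC := ltr false
/-- the letter for planted -/
abbrev x1 : NC := ltr true

@[simp] theorem d_false_x0 : d false x0 = 1 := d_ltr_self false
@[simp] theorem d_true_x1 : d true x1 = 1 := d_ltr_self true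
@[simp] theorem d_true_x0 : d true x0 = 0 := d_ltr_ne (by decide)
@[simp] theorem d_false_x1 : d false x1 = 0 := d_ltr_ne (by decide)
@[simp] theorem d_false_x0_mul (f : NC) : d false (x0 * f) = f := by simp [d_mul]
@[simp] theorem d_true_x0_mul (f : NC) : d true (x0 * f) = 0 := by simp [d_mul]
@[simp] theorem d_false_x1_mul (f : NC) : d false (x1 * f) = 0 := by simp [d_mul]
@[simp] theorem d_true_x1_mul (f : NC) : d true (x1 * f) = f := by simp [d_mul]

theorem algebraMap_apply' (c : ℝ) : algebraMap ℝ NC c = c • (1 : NC) := Algebra.algebraMap_eq_smul_one c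

/-- a real polynomial evaluated at the background letter -/
noncomputable def ι : ℝ[X] →ₐ[ℝ] NC := Polynomial.aeval x0

@[simp] theorem ι_C (c : ℝ) : ι (C c) = c • (1 : NC) := by
  simp [ι, algebraMap_apply']

@[simp] theorem ι_X : ι (Polynomial.X) = x0 := by simp [ι]

theorem ι_eq (P : ℝ[X]) : ι P = x0 * ι P.divX + P.coeff 0 • (1 : NC) := by
  conv_lhs => rw [← Polynomial.X_mul_divX_add P]
  rw [map_add, map_mul, ι_X, ι_C]

@[simp] theorem ι_nil (P : ℝ[X]) : ι P [] = P.coeff 0 := by
  rw [ι_eq]; simp

@[simp] theorem d_false_ι (P : ℝ[X]) : d false (ι P) = ι P.divX := by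
  conv_lhs => rw [ι_eq]
  simp

@[simp] theorem d_true_ι (P : ℝ[X]) : d true (ι P) = 0 := by
  rw [ι_eq]; simp

theorem d_false_ι_mul (P : ℝ[X]) (f : NC) :
    d false (ι P * f) = P.coeff 0 • d false f + ι P.divX * f := by
  simp [d_mul]

theorem d_true_ι_mul (P : ℝ[X]) (f : NC) :
    d true (ι P * f) = P.coeff 0 • d true f := by
  simp [d_mul]

/-- The weighted square sum over words of length `y`: `∑_{|μ| = y} w^{#true μ} (f μ)^2`. -/
noncomputable def S (w : ℝ) : ℕ → NC → ℝ
  | 0, f => f [] ^ 2
  | (y + 1), f => S w y (d false f) + w * S w y (d true f)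

@[simp] theorem S_zero_left (w : ℝ) (f : NC) : S w 0 f = f [] ^ 2 := rfl
theorem S_succ (w : ℝ) (y : ℕ) (f : NC) :
    S w (y + 1) f = S w y (d false f) + w * S w y (d true f) := rfl

end NC

end P321
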