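import Vale.Agent.TR321.Core

/-!
# P321: definitions used by all modules
-/

namespace P321

open Polynomial NC

/-- `(1 - s) + s X` -/
noncomputable def Kp (s : ℝ) : ℝ[X] := C (1 - s) + C s * X

/-- `ℓ¹` norm of the coefficients -/
noncomputable def l1 (P : ℝ[X]) : ℝ := ∑ k ∈ P.support, |P.coeff k|

/-- squared `ℓ²` norm of the coefficients -/
noncomputable def l2 (P : ℝ[X]) : ℝ := ∑ k ∈ P.support, (P.coeff k) ^ 2

/-- `Bd false u B`: `u ≤ B` pointwise.  `Bd true u B`: all partial sums of `u` are `≤ B`. -/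
def Bd (b : Bool) (u : ℕ → ℝ) (B : ℝ) : Prop :=
  match b with
  | false => ∀ y, u y ≤ B
  | true => ∀ Y, ∑ y ∈ Finset.range Y, u y ≤ B

/-- `SB b w Z B`: the sequence `y ↦ S w y Z` is bounded by `B` in sup (`b = false`) or in sum
(`b = true`). -/
def SB (b : Bool) (w : ℝ) (Z : NC) (B : ℝ) : Prop := Bd b (fun y => S w y Z) B

/-- the mask expansion of a planted block: `Φ + f • x1`, with `Φ = (1-f) + f x0` -/
noncomputable def Fn (f : ℝ) : NC := ι (Kp f) + f • x1

/-- `chainK s f [c₀, …, c_{v-1}] θ = K^{c₀} F K^{c₁} F ⋯ K^{c_{v-1}} F θ` -/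
noncomputable def chainK (s f : ℝ) : List ℕ → ℝ[X] → NC
  | [], θ => ι θ
  | (c :: cs), θ => ι (Kp s ^ c) * Fn f * chainK s f cs θ

/-- `s, f ∈ [c, 1 - c]` -/
def Good (c s f : ℝ) : Prop := c ≤ s ∧ s ≤ 1 - c ∧ c ≤ f ∧ f ≤ 1 - c

/-- admissible gap lists: at most `3 L^{2k}` gaps, each in `[L^{2k+2}, 4 L^{2k+2}]` -/
def Adm (k L : ℕ) (cs : List ℕ) : Prop :=
  cs.length ≤ 3 * L ^ (2 * k) ∧ ∀ c ∈ cs, L ^ (2 * k + 2) ≤ c ∧ c ≤ 4 * L ^ (2 * k + 2)

/-- a site: `K^{e+α} F K^{e-α}` with `α ∈ {0,1}` -/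
noncomputable def site (s f : ℝ) (e : ℕ) (α : Bool) : NC :=
  ι (Kp s ^ (e + α.toNat)) * Fn f * ι (Kp s ^ (e - α.toNat))

/-- the product of the sites -/
noncomputable def sites (s f : ℝ) (e : ℕ) (as : List Bool) : NC := (as.map (site s f e)).prod

/-- the unshifted site `A = K^e F K^e` -/
noncomputable def An (s f : ℝ) (e : ℕ) : NC := site s f e false

/-- the difference of the two sites, `J = K^{e+1} F K^{e-1} - K^e F K^e` -/
noncomputable def Jn (s f : ℝ) (e : ℕ) : NC := site s f e true - site s f e false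

/-- the commuting part of `A` (as a polynomial): `Φ K^{2e}` -/
noncomputable def Gp (s f : ℝ) (e : ℕ) : ℝ[X] := Kp f * Kp s ^ (2 * e)

/-- the planted part of `A`: `f K^e x1 K^e` -/
noncomputable def Qn (s f : ℝ) (e : ℕ) : NC := f • (ι (Kp s ^ e) * x1 * ι (Kp s ^ e))

/-- Thue–Morse words -/
def tm : ℕ → List Bool
  | 0 => [true]
  | (r + 1) => tm r ++ (tm r).map not

/-- iterated Thue–Morse commutator: `T_0(A;Y) = Y`, `T_{r+1} = T_r A^{2^r} - A^{2^r} T_r` -/
noncomputable def TM (A Y : NC) : ℕ → NC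
  | 0 => Y
  | (r + 1) => TM A Y r * A ^ (2 ^ r) - A ^ (2 ^ r) * TM A Y r

/-- the full array: `M` unshifted sites, the list `as`, `M` unshifted sites -/
def arr (M : ℕ) (as : List Bool) : List Bool :=
  List.replicate M false ++ as ++ List.replicate M false

/-- the mask expansion of the full string -/
noncomputable def Xn (s f : ℝ) (e a b : ℕ) (as : List Bool) : NC :=
  ι (Kp s ^ a) * sites s f e as * ι (Kp s ^ b)

end P321
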