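import Vale.Agent.TR321.NCa

/-! # P321 module NCb: the product lemma -/

namespace P321

open Polynomial NC Finset

theorem d_false_mul_x1_mul (f g : NC) : d false (f * x1 * g) = d false f * x1 * g := by
  rw [d_mul, d_mul]
  simp

theorem d_true_mul_x1_mul (f g : NC) :
    d true (f * x1 * g) = f [] • g + d true f * x1 * g := by
  rw [d_mul, d_mul]
  simp [add_mul]

theorem S_mul_x1_mul_zero (w : ℝ) (f g : NC) : S w 0 (f * x1 * g) = 0 := by
  simp

/-- Product lemma.  Proof: induction on `y` with `f` general, using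
`d false (f*x1*g) = d false f * x1 * g` (as `d b (f*x1) = f [] • d b x1 + d b f * x1`),
`d true (f*x1*g) = f [] • g + d true f * x1 * g` and `S (u+v) ≤ 2 S u + 2 S v`. -/
theorem S_mul_x1_mul {w : ℝ} (hw : 0 ≤ w) (y : ℕ) (f g : NC) :
    S w (y + 1) (f * x1 * g) ≤
      2 * w * ∑ p ∈ antidiagonal y, S (2 * w) p.1 f * S w p.2 g := by
  induction y generalizing f with
  | zero =>
    rw [S_succ, d_false_mul_x1_mul, d_true_mul_x1_mul, S_mul_x1_mul_zero]
    rw [S_zero_left, Finset.Nat.antidiagonal_zero, sum_singleton, S_zero_left,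
      S_zero_left]
    have h1 : (f [] • g + d true f * x1 * g) [] = f [] * g [] := by
      have h0 : x1 [] = 0 := ltr_nil true
      rw [NC.add_apply, NC.smul_apply, mul_nil, mul_nil, h0]
      ring
    rw [h1]
    nlinarith [mul_nonneg hw (sq_nonneg (f [] * g []))]
  | succ y ih =>
    rw [S_succ, d_false_mul_x1_mul, d_true_mul_x1_mul, Finset.Nat.sum_antidiagonal_succ]
    have h1 := ih (d false f)
    have h2 := ih (d true f)
    have h3 := S_add_le hw (y + 1) (f [] • g) (d true f * x1 * g)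
    rw [S_smul] at h3
    have h4 : ∑ p ∈ antidiagonal y, S (2 * w) (p.1 + 1) f * S w p.2 g
        = ∑ p ∈ antidiagonal y, S (2 * w) p.1 (d false f) * S w p.2 g
          + 2 * w * ∑ p ∈ antidiagonal y, S (2 * w) p.1 (d true f) * S w p.2 g := by
      rw [mul_sum, ← sum_add_distrib]
      refine sum_congr rfl fun p _ => ?_
      rw [S_succ]
      ring
    simp only [h4, S_zero_left]
    have h5 := mul_le_mul_of_nonneg_left h3 hw
    have h6 := mul_le_mul_of_nonneg_left h2 (mul_nonneg (by norm_num : (0 : ℝ) ≤ 2) hw)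
    nlinarith

theorem sum_antidiag_le {a c : ℕ → ℝ} (ha : ∀ i, 0 ≤ a i) (hc : ∀ i, 0 ≤ c i) (n : ℕ) :
    ∑ y ∈ range n, ∑ p ∈ antidiagonal y, a p.1 * c p.2
      ≤ (∑ i ∈ range n, a i) * ∑ j ∈ range n, c j := by
  rw [← sum_biUnion, sum_mul_sum, ← sum_product']
  · refine sum_le_sum_of_subset_of_nonneg ?_ fun p _ _ => mul_nonneg (ha _) (hc _)
    intro p hp
    rw [mem_biUnion] at hp
    obtain ⟨y, hy, hp⟩ := hp
    rw [mem_range] at hy
    rw [HasAntidiagonal.mem_antidiagonal] at hp
    rw [mem_product, mem_range, mem_range]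
    constructor <;> omega
  · intro y _ z _ hyz
    rw [Function.onFun, disjoint_left]
    intro p hp hp'
    rw [HasAntidiagonal.mem_antidiagonal] at hp hp'
    exact hyz (by omega)

theorem SB_mul_x1_mul {b : Bool} {w : ℝ} (hw : 0 ≤ w) {f g : NC} {A B : ℝ}
    (hf : SB true (2 * w) f A) (hg : SB b w g B) : SB b w (f * x1 * g) (2 * w * A * B) := by
  have hA : 0 ≤ A := SB_nonneg (by positivity) hf
  have hB : 0 ≤ B := SB_nonneg hw hg
  have hw2 : 0 ≤ 2 * w := by positivity
  have hfn : ∀ y, 0 ≤ S (2 * w) y f := fun y => S_nonneg hw2 y f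
  have hgn : ∀ y, 0 ≤ S w y g := fun y => S_nonneg hw y g
  have hf' : ∀ Y, ∑ y ∈ range Y, S (2 * w) y f ≤ A := hf
  cases b with
  | false =>
    have hg' : ∀ y, S w y g ≤ B := hg
    show ∀ y, S w y (f * x1 * g) ≤ 2 * w * A * B
    intro y
    cases y with
    | zero =>
      rw [S_mul_x1_mul_zero]
      positivity
    | succ y =>
      refine (S_mul_x1_mul hw y f g).trans ?_
      have h1 : ∑ p ∈ antidiagonal y, S (2 * w) p.1 f * S w p.2 g
          ≤ ∑ p ∈ antidiagonal y, S (2 * w) p.1 f * B :=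
        sum_le_sum fun p _ => mul_le_mul_of_nonneg_left (hg' _) (hfn _)
      have h2 : ∑ p ∈ antidiagonal y, S (2 * w) p.1 f * B
          = (∑ i ∈ range (y + 1), S (2 * w) i f) * B := by
        rw [sum_mul, Finset.Nat.sum_antidiagonal_eq_sum_range_succ_mk]
      have h3 := mul_le_mul_of_nonneg_right (hf' (y + 1)) hB
      calc 2 * w * ∑ p ∈ antidiagonal y, S (2 * w) p.1 f * S w p.2 g
          ≤ 2 * w * (A * B) := mul_le_mul_of_nonneg_left ((h1.trans_eq h2).trans h3) hw2
        _ = 2 * w * A * B := by ring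
  | true =>
    have hg' : ∀ Y, ∑ y ∈ range Y, S w y g ≤ B := hg
    show ∀ Y, ∑ y ∈ range Y, S w y (f * x1 * g) ≤ 2 * w * A * B
    intro Y
    cases Y with
    | zero =>
      rw [sum_range_zero]
      positivity
    | succ Y =>
      rw [sum_range_succ', S_mul_x1_mul_zero, add_zero]
      calc ∑ y ∈ range Y, S w (y + 1) (f * x1 * g)
          ≤ ∑ y ∈ range Y, 2 * w * ∑ p ∈ antidiagonal y, S (2 * w) p.1 f * S w p.2 g :=
            sum_le_sum fun y _ => S_mul_x1_mul hw y f g
        _ = 2 * w * ∑ y ∈ range Y, ∑ p ∈ antidiagonal y, S (2 * w) p.1 f * S w p.2 g := by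
            rw [mul_sum]
        _ ≤ 2 * w * ((∑ i ∈ range Y, S (2 * w) i f) * ∑ j ∈ range Y, S w j g) :=
            mul_le_mul_of_nonneg_left (sum_antidiag_le hfn hgn Y) hw2
        _ ≤ 2 * w * (A * B) := by
            refine mul_le_mul_of_nonneg_left ?_ hw2
            exact mul_le_mul (hf' Y) (hg' Y) (sum_nonneg fun _ _ => hgn _) hA
        _ = 2 * w * A * B := by ring

end P321
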