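import Vale.Agent.TR321.SiteBounds
import Vale.Agent.TR321.Alg
import Vale.Agent.TR321.NCb

/-! # P321 module Orders: bounds for edge terms and second order terms

All three: insert `Jn_eq`, `Qn`, write the term as a combination of products
`Z0 * x1 * Z1 * x1 * Z2` and use `SB_mul_x1_mul` twice with the bounds of `SiteBounds`. -/

namespace P321

open Polynomial NC Finset

/-! ### Auxiliary lemmas -/

theorem orders_two {w A0 A1 A2 : ℝ} (hw : 0 ≤ w) {Z0 Z1 Z2 : NC} (h0 : SB true (2 * w) Z0 A0)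
    (h1 : SB true (2 * w) Z1 A1) (h2 : SB false w Z2 A2) :
    SB false w (Z0 * x1 * (Z1 * x1 * Z2)) (2 * w * A0 * (2 * w * A1 * A2)) :=
  SB_mul_x1_mul hw h0 (SB_mul_x1_mul hw h1 h2)

theorem orders_three {w C0 C1 C2 : ℝ} (hw : 0 ≤ w) (hC0 : 0 ≤ C0) (hC1 : 0 ≤ C1) (hC2 : 0 ≤ C2)
    {L : ℕ} (hL : 1 ≤ L) {a b c m : ℕ} (hm : m ≤ a + b + c) {Z0 Z1 Z2 : NC}
    (h0 : SB true (2 * w) Z0 (C0 / (L : ℝ) ^ a)) (h1 : SB true (2 * w) Z1 (C1 / (L : ℝ) ^ b))
    (h2 : SB false w Z2 (C2 / (L : ℝ) ^ c)) :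
    SB false w (Z0 * x1 * (Z1 * x1 * Z2)) (4 * w ^ 2 * (C0 * C1 * C2) / (L : ℝ) ^ m) := by
  refine SB_mono (orders_two hw h0 h1 h2) ?_
  have hL1 : (1 : ℝ) ≤ L := by exact_mod_cast hL
  have hL0 : (0 : ℝ) < L := by linarith
  have e1 : 2 * w * (C0 / (L : ℝ) ^ a) * (2 * w * (C1 / (L : ℝ) ^ b) * (C2 / (L : ℝ) ^ c))
      = 4 * w ^ 2 * (C0 * C1 * C2) / (L : ℝ) ^ (a + b + c) := by
    rw [pow_add, pow_add]
    field_simp
    ring
  rw [e1]
  exact div_le_div_of_nonneg_left (by positivity) (by positivity) (pow_le_pow_right₀ hL1 hm)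

/-- scalar combination of two terms -/
theorem orders_comb {w q A B : ℝ} (hw : 0 ≤ w) {Y Z : NC} (hq : q ^ 2 ≤ 1) (hA : SB false w Y A)
    (hB : SB false w Z B) : SB false w (q • (Y - Z)) (2 * A + 2 * B) := by
  refine SB_mono (SB_smul (SB_sub hw hA hB) q) ?_
  have h1 := SB_nonneg hw hA
  have h2 := SB_nonneg hw hB
  nlinarith

theorem orders_sqrt_ge {L k v : ℕ} (hv : L ^ (2 * k) ≤ v) : (L : ℝ) ^ k ≤ √((v : ℝ) + 1) := by
  refine Real.le_sqrt_of_sq_le ?_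
  have h : ((L : ℝ) ^ k) ^ 2 = ((L ^ (2 * k) : ℕ) : ℝ) := by
    push_cast
    rw [← pow_mul, mul_comm]
  rw [h]
  have : ((L ^ (2 * k) : ℕ) : ℝ) ≤ v := by exact_mod_cast hv
  linarith

theorem orders_one_le_sqrt (v : ℕ) : (1 : ℝ) ≤ √((v : ℝ) + 1) := by
  refine Real.le_sqrt_of_sq_le ?_
  have : (0 : ℝ) ≤ v := Nat.cast_nonneg v
  linarith

theorem orders_bA {C : ℝ} (hC : 0 ≤ C) {L k v : ℕ} (hL : 1 ≤ L) (hk : 1 ≤ k)
    (hv : L ^ (2 * k) ≤ v) :
    C / ((L : ℝ) ^ (3 * k + 3) * (((v : ℝ) + 1) * √((v : ℝ) + 1))) +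
      C / ((L : ℝ) ^ (4 * k + 4) * √((v : ℝ) + 1)) ≤ 2 * C / (L : ℝ) ^ (5 * k + 4) := by
  have hL1 : (1 : ℝ) ≤ L := by exact_mod_cast hL
  have hL0 : (0 : ℝ) < L := by linarith
  have hs := orders_sqrt_ge hv
  have hs1 := orders_one_le_sqrt v
  have hv1 : (L : ℝ) ^ (2 * k) ≤ (v : ℝ) + 1 := by
    have : ((L ^ (2 * k) : ℕ) : ℝ) ≤ v := by exact_mod_cast hv
    push_cast at this
    linarith
  have h1 : (L : ℝ) ^ (5 * k + 4) ≤ (L : ℝ) ^ (3 * k + 3) * (((v : ℝ) + 1) * √((v : ℝ) + 1)) := by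
    have h2 : (L : ℝ) ^ (2 * k) * (L : ℝ) ^ k ≤ ((v : ℝ) + 1) * √((v : ℝ) + 1) :=
      mul_le_mul hv1 hs (by positivity) (by positivity)
    have h3 : (L : ℝ) ^ (3 * k + 3) * ((L : ℝ) ^ (2 * k) * (L : ℝ) ^ k)
        ≤ (L : ℝ) ^ (3 * k + 3) * (((v : ℝ) + 1) * √((v : ℝ) + 1)) :=
      mul_le_mul_of_nonneg_left h2 (by positivity)
    refine le_trans ?_ h3
    rw [← pow_add, ← pow_add]
    exact pow_le_pow_right₀ hL1 (by omega)
  have h2 : (L : ℝ) ^ (5 * k + 4) ≤ (L : ℝ) ^ (4 * k + 4) * √((v : ℝ) + 1) := by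
    have h3 : (L : ℝ) ^ (4 * k + 4) * (L : ℝ) ^ k ≤ (L : ℝ) ^ (4 * k + 4) * √((v : ℝ) + 1) :=
      mul_le_mul_of_nonneg_left hs (by positivity)
    refine le_trans ?_ h3
    rw [← pow_add]
    exact pow_le_pow_right₀ hL1 (by omega)
  have h3 := div_le_div_of_nonneg_left hC (by positivity : (0 : ℝ) < (L : ℝ) ^ (5 * k + 4)) h1
  have h4 := div_le_div_of_nonneg_left hC (by positivity : (0 : ℝ) < (L : ℝ) ^ (5 * k + 4)) h2
  refine (add_le_add h3 h4).trans (le_of_eq ?_)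
  ring

theorem orders_bB {C : ℝ} (hC : 0 ≤ C) {L k : ℕ} (hL : 1 ≤ L) (v : ℕ) :
    C / ((L : ℝ) ^ (3 * k + 3) * (((v : ℝ) + 1) * √((v : ℝ) + 1))) +
      C / ((L : ℝ) ^ (4 * k + 4) * √((v : ℝ) + 1)) ≤ 2 * C / (L : ℝ) ^ (3 * k + 3) := by
  have hL1 : (1 : ℝ) ≤ L := by exact_mod_cast hL
  have hL0 : (0 : ℝ) < L := by linarith
  have hs1 := orders_one_le_sqrt v
  have hv1 : (1 : ℝ) ≤ (v : ℝ) + 1 := by
    have : (0 : ℝ) ≤ v := Nat.cast_nonneg v
    linarith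
  have h1 : (L : ℝ) ^ (3 * k + 3) ≤ (L : ℝ) ^ (3 * k + 3) * (((v : ℝ) + 1) * √((v : ℝ) + 1)) :=
    le_mul_of_one_le_right (by positivity) (one_le_mul_of_one_le_of_one_le hv1 hs1)
  have h2 : (L : ℝ) ^ (3 * k + 3) ≤ (L : ℝ) ^ (4 * k + 4) * √((v : ℝ) + 1) :=
    (pow_le_pow_right₀ hL1 (by omega)).trans (le_mul_of_one_le_right (by positivity) hs1)
  have h3 := div_le_div_of_nonneg_left hC (by positivity : (0 : ℝ) < (L : ℝ) ^ (3 * k + 3)) h1
  have h4 := div_le_div_of_nonneg_left hC (by positivity : (0 : ℝ) < (L : ℝ) ^ (3 * k + 3)) h2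
  refine (add_le_add h3 h4).trans (le_of_eq ?_)
  ring

theorem orders_bC {C : ℝ} (hC : 0 ≤ C) {L k v : ℕ} (hL : 1 ≤ L) (hv : L ^ (2 * k) ≤ v) :
    C / ((L : ℝ) ^ (k + 1) * √((v : ℝ) + 1)) ≤ C / (L : ℝ) ^ (2 * k + 1) := by
  have hL1 : (1 : ℝ) ≤ L := by exact_mod_cast hL
  have hL0 : (0 : ℝ) < L := by linarith
  refine div_le_div_of_nonneg_left hC (by positivity) ?_
  refine le_trans (le_of_eq ?_) (mul_le_mul_of_nonneg_left (orders_sqrt_ge hv) (by positivity))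
  rw [← pow_add]
  congr 1
  omega

theorem orders_bD {C : ℝ} (hC : 0 ≤ C) {L k : ℕ} (hL : 1 ≤ L) (v : ℕ) :
    C / ((L : ℝ) ^ (k + 1) * √((v : ℝ) + 1)) ≤ C / (L : ℝ) ^ (k + 1) := by
  have hL1 : (1 : ℝ) ≤ L := by exact_mod_cast hL
  have hL0 : (0 : ℝ) < L := by linarith
  exact div_le_div_of_nonneg_left hC (by positivity)
    (le_mul_of_one_le_right (by positivity) (orders_one_le_sqrt v))

theorem orders_alg_left {R : Type*} [Ring R] [Algebra ℝ R] (p q : ℝ)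
    (P E E' E1 E1' x S T B : R) :
    P * (p • (E * x * E)) * S * (q • (E' * x * E1 - E * x * E1')) * T * B
      = (p * q) • ((P * E) * x * ((E * S * E') * x * (E1 * T * B)) -
        (P * E) * x * ((E * S * E) * x * (E1' * T * B))) := by
  simp only [mul_smul_comm, smul_mul_assoc, mul_sub, sub_mul, mul_assoc, smul_sub, smul_smul,
    mul_comm q p]

theorem orders_alg_right {R : Type*} [Ring R] [Algebra ℝ R] (p q : ℝ)
    (P E E' E1 E1' x S T H B U : R) :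
    P * S * (q • (E' * x * E1 - E * x * E1')) * T * H * (p • (E * x * E)) * U * B
      = (p * q) • ((P * S * E') * x * ((E1 * T * (H * E)) * x * (E * U * B)) -
        (P * S * E) * x * ((E1' * T * (H * E)) * x * (E * U * B))) := by
  simp only [mul_smul_comm, smul_mul_assoc, mul_sub, sub_mul, mul_assoc, smul_sub, smul_smul]

theorem orders_alg_second {R : Type*} [Ring R] [Algebra ℝ R] (q : ℝ)
    (P E E' E1 E1' x S T U B : R) :
    P * S * (q • (E' * x * E1 - E * x * E1')) * T * (q • (E' * x * E1 - E * x * E1')) * U * B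
      = (q * q) • (((P * S * E') * x * ((E1 * T * E') * x * (E1 * U * B)) -
        (P * S * E) * x * ((E1' * T * E') * x * (E1 * U * B))) -
        ((P * S * E') * x * ((E1 * T * E) * x * (E1' * U * B)) -
        (P * S * E) * x * ((E1' * T * E) * x * (E1' * U * B)))) := by
  simp only [mul_smul_comm, smul_mul_assoc, mul_sub, sub_mul, mul_assoc, smul_sub, smul_smul]

theorem orders_sq_le {c s f : ℝ} (hc : 0 < c) (h : Good c s f) :
    (f * (f * s)) ^ 2 ≤ 1 ∧ ((f * s) * (f * s)) ^ 2 ≤ 1 ∧ (f * s) ^ 2 ≤ 1 := by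
  obtain ⟨h1, h2, h3, h4⟩ := h
  have hs0 : 0 ≤ s := by linarith
  have hs1 : s ≤ 1 := by linarith
  have hf0 : 0 ≤ f := by linarith
  have hf1 : f ≤ 1 := by linarith
  have hfs : f * s ≤ 1 := mul_le_one₀ hf1 hs0 hs1
  have hfs0 : 0 ≤ f * s := mul_nonneg hf0 hs0
  refine ⟨?_, ?_, ?_⟩
  · exact pow_le_one₀ (mul_nonneg hf0 hfs0) (mul_le_one₀ hf1 hfs0 hfs)
  · exact pow_le_one₀ (mul_nonneg hfs0 hfs0) (mul_le_one₀ hfs hfs0 hfs)
  · exact pow_le_one₀ hfs0 hfs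

theorem orders_pow_G (s f : ℝ) (e a i m : ℕ) :
    ι (Kp s ^ a) * ι (Gp s f e) ^ i * ι (Kp s ^ m) = ι (Kp s ^ (a + 2 * e * i + m) * Kp f ^ i) := by
  rw [← map_pow, ← map_mul, ← map_mul]
  congr 1
  rw [Gp, mul_pow, ← pow_mul, pow_add, pow_add]
  ring

theorem orders_pow_G' (s f : ℝ) (e a i : ℕ) :
    ι (Kp s ^ a) * ι (Gp s f e) ^ i = ι (Kp s ^ (a + 2 * e * i) * Kp f ^ i) := by
  have := orders_pow_G s f e a i 0
  simpa using this

theorem orders_G_pow (s f : ℝ) (e i m : ℕ) :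
    ι (Gp s f e) ^ i * ι (Kp s ^ m) = ι (Kp s ^ (2 * e * i + m) * Kp f ^ i) := by
  have := orders_pow_G s f e 0 i m
  simpa using this

/-! ### The bounds -/

theorem bound_left {c : ℝ} (hc : 0 < c) (k C0 : ℕ) (hk : 1 ≤ k) {w : ℝ} (hw : 0 ≤ w) :
    ∃ C : ℝ, 0 < C ∧ ∃ L0 : ℕ, ∀ L ≥ L0, ∀ s f : ℝ, Good c s f →
      ∀ a b : ℕ, L ^ (4 * k + 6) ≤ C0 * a → a ≤ C0 * L ^ (4 * k + 6) →
      L ^ (4 * k + 6) ≤ C0 * b →
      ∀ i v u : ℕ, L ^ (2 * k) ≤ v → v ≤ 3 * L ^ (2 * k) → u ≤ 3 * L ^ (2 * k) →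
      SB false w
        (ι (Kp s ^ a) * ι (Gp s f (L ^ (2 * k + 2))) ^ i * Qn s f (L ^ (2 * k + 2)) *
          An s f (L ^ (2 * k + 2)) ^ v * Jn s f (L ^ (2 * k + 2)) *
          An s f (L ^ (2 * k + 2)) ^ u * ι (Kp s ^ b))
        (C / (L : ℝ) ^ (11 * k + 11)) := by
  have hw2 : 0 ≤ 2 * w := by linarith
  obtain ⟨Ca, hCa, La, ha⟩ := ob0 hc k C0 (2 * w)
  obtain ⟨Cb, hCb, Lb, hb⟩ := sb3 hc k hw2
  obtain ⟨Cc, hCc, Lc, hcc⟩ := sb1 hc k C0 hw
  obtain ⟨Cd, hCd, Ld, hd⟩ := sb2 hc k hw2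
  obtain ⟨Ce, hCe, Le, he⟩ := sb1' hc k C0 hw
  refine ⟨2 * (4 * w ^ 2 * (Ca * (2 * Cb) * Cc)) + 2 * (4 * w ^ 2 * (Ca * Cd * Ce)) + 1,
    by positivity, 1 + La + Lb + Lc + Ld + Le, ?_⟩
  intro L hL s f hg a b haL haU hbL i v u hv hv3 hu
  have hL1 : 1 ≤ L := by omega
  have hLr : (1 : ℝ) ≤ L := by exact_mod_cast hL1
  have hL0 : (0 : ℝ) < L := by linarith
  set e := L ^ (2 * k + 2) with hedef
  have he1 : 1 ≤ e := Nat.one_le_pow _ _ hL1
  have hvl : (List.replicate v false).length = v := List.length_replicate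
  have hul : (List.replicate u false).length = u := List.length_replicate
  have h0 : SB true (2 * w) (ι (Kp s ^ a) * ι (Gp s f e) ^ i * ι (Kp s ^ e))
      (Ca / (L : ℝ) ^ (2 * k + 3)) := by
    rw [orders_pow_G]
    refine ha L (by omega) s f hg _ i (haL.trans ?_)
    exact Nat.mul_le_mul_left _ (by omega)
  have h1 : SB true (2 * w) (ι (Kp s ^ e) * An s f e ^ v * ι (Kp s ^ e * (X - 1)))
      (2 * Cb / (L : ℝ) ^ (5 * k + 4)) := by
    have h := hb L (by omega) s f hg (List.replicate v false) (by rw [hvl]; exact hv3) e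
      (by omega) e le_rfl
    rw [hvl, sites_replicate] at h
    exact SB_mono h (orders_bA hCb.le hL1 hk hv)
  have h2 : SB false w (ι (Kp s ^ (e - 1)) * An s f e ^ u * ι (Kp s ^ b))
      (Cc / (L : ℝ) ^ (4 * k + 6)) := by
    have h := hcc L (by omega) s f hg (List.replicate u false) (by rw [hul]; exact hu) (e - 1)
      (by omega) b hbL
    rw [sites_replicate] at h
    exact h
  have h1' : SB true (2 * w) (ι (Kp s ^ e) * An s f e ^ v * ι (Kp s ^ e))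
      (Cd / (L : ℝ) ^ (2 * k + 1)) := by
    have h := hd L (by omega) s f hg (List.replicate v false) (by rw [hvl]; exact hv3) e
      (by omega) e 0 le_rfl
    rw [hvl, sites_replicate, pow_zero, mul_one] at h
    exact SB_mono h (orders_bC hCd.le hL1 hv)
  have h2' : SB false w (ι ((X - 1) * Kp s ^ (e - 1)) * An s f e ^ u * ι (Kp s ^ b))
      (Ce / (L : ℝ) ^ (7 * k + 9)) := by
    have h := he L (by omega) s f hg (List.replicate u false) (by rw [hul]; exact hu) (e - 1)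
      (by omega) b hbL
    rw [sites_replicate] at h
    exact h
  have t1 := orders_three hw hCa.le (by positivity : 0 ≤ 2 * Cb) hCc.le hL1
    (by omega : 11 * k + 11 ≤ (2 * k + 3) + (5 * k + 4) + (4 * k + 6)) h0 h1 h2
  have t2 := orders_three hw hCa.le hCd.le hCe.le hL1
    (by omega : 11 * k + 11 ≤ (2 * k + 3) + (2 * k + 1) + (7 * k + 9)) h0 h1' h2'
  have t3 := orders_comb hw (orders_sq_le hc hg).1 t1 t2
  rw [Jn_eq s f he1, Qn, orders_alg_left]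
  refine SB_mono t3 ?_
  rw [← mul_div_assoc, ← mul_div_assoc, ← add_div]
  refine div_le_div_of_nonneg_right ?_ (by positivity)
  linarith

theorem bound_right {c : ℝ} (hc : 0 < c) (k C0 : ℕ) (hk : 1 ≤ k) {w : ℝ} (hw : 0 ≤ w) :
    ∃ C : ℝ, 0 < C ∧ ∃ L0 : ℕ, ∀ L ≥ L0, ∀ s f : ℝ, Good c s f →
      ∀ a b : ℕ, L ^ (4 * k + 6) ≤ C0 * a → a ≤ C0 * L ^ (4 * k + 6) →
      L ^ (4 * k + 6) ≤ C0 * b →
      ∀ i j u : ℕ, j ≤ L ^ (2 * k) → u ≤ 3 * L ^ (2 * k) →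
      SB false w
        (ι (Kp s ^ a) * ι (Gp s f (L ^ (2 * k + 2))) ^ j *
          An s f (L ^ (2 * k + 2)) ^ (L ^ (2 * k)) * Jn s f (L ^ (2 * k + 2)) *
          An s f (L ^ (2 * k + 2)) ^ (L ^ (2 * k)) * ι (Gp s f (L ^ (2 * k + 2))) ^ i *
          Qn s f (L ^ (2 * k + 2)) *
          An s f (L ^ (2 * k + 2)) ^ u * ι (Kp s ^ b))
        (C / (L : ℝ) ^ (11 * k + 11)) := by
  have hw2 : 0 ≤ 2 * w := by linarith
  obtain ⟨Ca, hCa, La, ha⟩ := ob3 hc k (C0 + 2) hw2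
  obtain ⟨Cb, hCb, Lb, hb⟩ := sb2 hc k hw2
  obtain ⟨Cc, hCc, Lc, hcc⟩ := sb1 hc k C0 hw
  obtain ⟨Cd, hCd, Ld, hd⟩ := ob2 hc k (C0 + 2) hw2
  obtain ⟨Ce, hCe, Le, he⟩ := sb2' hc k hw2
  refine ⟨2 * (4 * w ^ 2 * (Ca * Cb * Cc)) + 2 * (4 * w ^ 2 * (Cd * (2 * Ce) * Cc)) + 1,
    by positivity, 1 + La + Lb + Lc + Ld + Le, ?_⟩
  intro L hL s f hg a b haL haU hbL i j u hj hu
  have hL1 : 1 ≤ L := by omega
  have hLr : (1 : ℝ) ≤ L := by exact_mod_cast hL1
  have hL0 : (0 : ℝ) < L := by linarith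
  have hM1 : 1 ≤ L ^ (2 * k) := Nat.one_le_pow _ _ hL1
  have hL46 : 1 ≤ L ^ (4 * k + 6) := Nat.one_le_pow _ _ hL1
  have heM : L ^ (2 * k + 2) * L ^ (2 * k) ≤ L ^ (4 * k + 6) := by
    rw [← pow_add]
    exact Nat.pow_le_pow_right hL1 (by omega)
  have hML : L ^ (2 * k) ≤ L ^ (4 * k + 6) := Nat.pow_le_pow_right hL1 (by omega)
  set e := L ^ (2 * k + 2) with hedef
  set M := L ^ (2 * k) with hMdef
  have he1 : 1 ≤ e := Nat.one_le_pow _ _ hL1
  have hMl : (List.replicate M false).length = M := List.length_replicate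
  have hul : (List.replicate u false).length = u := List.length_replicate
  have hej : e * j ≤ L ^ (4 * k + 6) := (Nat.mul_le_mul_left _ hj).trans heM
  have ha1 : L ^ (4 * k + 6) ≤ (C0 + 2) * (a + 2 * e * j) :=
    haL.trans (Nat.mul_le_mul (Nat.le_add_right _ _) (Nat.le_add_right _ _))
  have ha2 : a + 2 * e * j ≤ (C0 + 2) * L ^ (4 * k + 6) := by
    rw [add_mul, mul_assoc]
    exact add_le_add haU (Nat.mul_le_mul_left _ hej)
  have h0 : SB true (2 * w) (ι (Kp s ^ a) * ι (Gp s f e) ^ j * An s f e ^ M *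
      ι (Kp s ^ e * (X - 1))) (Ca / (L : ℝ) ^ (5 * k + 4)) := by
    have h := ha L (by omega) s f hg (List.replicate M false) (by rw [hMl]; omega)
      (a + 2 * e * j) j ha1 ha2 (hj.trans hML) e le_rfl
    rw [← hedef, sites_replicate] at h
    rw [orders_pow_G']
    exact h
  have h1 : SB true (2 * w) (ι (Kp s ^ (e - 1)) * An s f e ^ M *
      (ι (Gp s f e) ^ i * ι (Kp s ^ e))) (Cb / (L : ℝ) ^ (2 * k + 1)) := by
    have h := hb L (by omega) s f hg (List.replicate M false) (by rw [hMl]; omega) (e - 1)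
      (by omega) (2 * e * i + e) i (by omega)
    rw [hMl, ← hedef, sites_replicate] at h
    rw [orders_G_pow]
    exact SB_mono h (orders_bC hCb.le hL1 (le_of_eq hMdef.symm))
  have h2 : SB false w (ι (Kp s ^ e) * An s f e ^ u * ι (Kp s ^ b))
      (Cc / (L : ℝ) ^ (4 * k + 6)) := by
    have h := hcc L (by omega) s f hg (List.replicate u false) (by rw [hul]; exact hu) e
      (by omega) b hbL
    rw [← hedef, sites_replicate] at h
    exact h
  have h0' : SB true (2 * w) (ι (Kp s ^ a) * ι (Gp s f e) ^ j * An s f e ^ M *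
      ι (Kp s ^ e)) (Cd / (L : ℝ) ^ (2 * k + 2)) := by
    have h := hd L (by omega) s f hg (List.replicate M false) (by rw [hMl]; omega)
      (a + 2 * e * j) j ha1 ha2 (hj.trans hML) e le_rfl
    rw [← hedef, sites_replicate] at h
    rw [orders_pow_G']
    exact h
  have h1' : SB true (2 * w) (ι ((X - 1) * Kp s ^ (e - 1)) * An s f e ^ M *
      (ι (Gp s f e) ^ i * ι (Kp s ^ e))) (2 * Ce / (L : ℝ) ^ (5 * k + 4)) := by
    have h := he L (by omega) s f hg (List.replicate M false) (by rw [hMl]; omega) (e - 1)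
      (by omega) (2 * e * i + e) i (by omega)
    rw [hMl, ← hedef, sites_replicate] at h
    rw [orders_G_pow]
    exact SB_mono h (orders_bA hCe.le hL1 hk (le_of_eq hMdef.symm))
  have t1 := orders_three hw hCa.le hCb.le hCc.le hL1
    (by omega : 11 * k + 11 ≤ (5 * k + 4) + (2 * k + 1) + (4 * k + 6)) h0 h1 h2
  have t2 := orders_three hw hCd.le (by positivity : 0 ≤ 2 * Ce) hCc.le hL1
    (by omega : 11 * k + 11 ≤ (2 * k + 2) + (5 * k + 4) + (4 * k + 6)) h0' h1' h2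
  have t3 := orders_comb hw (orders_sq_le hc hg).1 t1 t2
  rw [Jn_eq s f he1, Qn, orders_alg_right]
  refine SB_mono t3 ?_
  rw [← mul_div_assoc, ← mul_div_assoc, ← add_div]
  refine div_le_div_of_nonneg_right ?_ (by positivity)
  linarith

theorem bound_second {c : ℝ} (hc : 0 < c) (k C0 : ℕ) (hk : 1 ≤ k) {w : ℝ} (hw : 0 ≤ w) :
    ∃ C : ℝ, 0 < C ∧ ∃ L0 : ℕ, ∀ L ≥ L0, ∀ s f : ℝ, Good c s f →
      ∀ a b : ℕ, L ^ (4 * k + 6) ≤ C0 * a → a ≤ C0 * L ^ (4 * k + 6) →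
      L ^ (4 * k + 6) ≤ C0 * b →
      ∀ u v : ℕ, u ≤ 3 * L ^ (2 * k) → v ≤ 3 * L ^ (2 * k) →
      ∀ as : List Bool, as.length ≤ 3 * L ^ (2 * k) →
      SB false w
        (ι (Kp s ^ a) * An s f (L ^ (2 * k + 2)) ^ u * Jn s f (L ^ (2 * k + 2)) *
          An s f (L ^ (2 * k + 2)) ^ v * Jn s f (L ^ (2 * k + 2)) *
          sites s f (L ^ (2 * k + 2)) as * ι (Kp s ^ b))
        (C / (L : ℝ) ^ (11 * k + 11)) := by
  have hw2 : 0 ≤ 2 * w := by linarith
  obtain ⟨Ca, hCa, La, ha⟩ := ob3 hc k C0 hw2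
  obtain ⟨Cb, hCb, Lb, hb⟩ := ob2 hc k C0 hw2
  obtain ⟨Cc, hCc, Lc, hcc⟩ := sb3 hc k hw2
  obtain ⟨Cd, hCd, Ld, hd⟩ := sb2 hc k hw2
  obtain ⟨Ce, hCe, Le, he⟩ := sb3' hc k hw2
  obtain ⟨Cf, hCf, Lf, hf⟩ := sb2' hc k hw2
  obtain ⟨Cg, hCg, Lg, hgg⟩ := sb1 hc k C0 hw
  obtain ⟨Ch, hCh, Lh, hh⟩ := sb1' hc k C0 hw
  refine ⟨2 * (2 * (4 * w ^ 2 * (Ca * (2 * Cc) * Cg)) + 2 * (4 * w ^ 2 * (Cb * Ce * Cg))) +
      2 * (2 * (4 * w ^ 2 * (Ca * Cd * Ch)) + 2 * (4 * w ^ 2 * (Cb * (2 * Cf) * Ch))) + 1,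
    by positivity, 1 + La + Lb + Lc + Ld + Le + Lf + Lg + Lh, ?_⟩
  intro L hL s f hg a b haL haU hbL u v hu hv as has
  have hL1 : 1 ≤ L := by omega
  have hLr : (1 : ℝ) ≤ L := by exact_mod_cast hL1
  have hL0 : (0 : ℝ) < L := by linarith
  set e := L ^ (2 * k + 2) with hedef
  have he1 : 1 ≤ e := Nat.one_le_pow _ _ hL1
  have hvl : (List.replicate v false).length = v := List.length_replicate
  have hul : (List.replicate u false).length = u := List.length_replicate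
  have z0 : SB true (2 * w) (ι (Kp s ^ a) * An s f e ^ u * ι (Kp s ^ e * (X - 1)))
      (Ca / (L : ℝ) ^ (5 * k + 4)) := by
    have h := ha L (by omega) s f hg (List.replicate u false) (by rw [hul]; exact hu)
      a 0 haL haU (Nat.zero_le _) e le_rfl
    rw [← hedef, sites_replicate, pow_zero, mul_one] at h
    exact h
  have z0' : SB true (2 * w) (ι (Kp s ^ a) * An s f e ^ u * ι (Kp s ^ e))
      (Cb / (L : ℝ) ^ (2 * k + 2)) := by
    have h := hb L (by omega) s f hg (List.replicate u false) (by rw [hul]; exact hu)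
      a 0 haL haU (Nat.zero_le _) e le_rfl
    rw [← hedef, sites_replicate, pow_zero, mul_one] at h
    exact h
  have m11 : SB true (2 * w) (ι (Kp s ^ (e - 1)) * An s f e ^ v * ι (Kp s ^ e * (X - 1)))
      (2 * Cc / (L : ℝ) ^ (3 * k + 3)) := by
    have h := hcc L (by omega) s f hg (List.replicate v false) (by rw [hvl]; exact hv) (e - 1)
      (by omega) e le_rfl
    rw [hvl, ← hedef, sites_replicate] at h
    exact SB_mono h (orders_bB hCc.le hL1 v)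
  have m12 : SB true (2 * w) (ι (Kp s ^ (e - 1)) * An s f e ^ v * ι (Kp s ^ e))
      (Cd / (L : ℝ) ^ (k + 1)) := by
    have h := hd L (by omega) s f hg (List.replicate v false) (by rw [hvl]; exact hv) (e - 1)
      (by omega) e 0 le_rfl
    rw [hvl, ← hedef, sites_replicate, pow_zero, mul_one] at h
    exact SB_mono h (orders_bD hCd.le hL1 v)
  have m21 : SB true (2 * w) (ι ((X - 1) * Kp s ^ (e - 1)) * An s f e ^ v *
      ι (Kp s ^ e * (X - 1))) (Ce / (L : ℝ) ^ (5 * k + 5)) := by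
    have h := he L (by omega) s f hg (List.replicate v false) (by rw [hvl]; exact hv) (e - 1)
      (by omega) e le_rfl
    rw [← hedef, sites_replicate] at h
    exact h
  have m22 : SB true (2 * w) (ι ((X - 1) * Kp s ^ (e - 1)) * An s f e ^ v *
      ι (Kp s ^ e)) (2 * Cf / (L : ℝ) ^ (3 * k + 3)) := by
    have h := hf L (by omega) s f hg (List.replicate v false) (by rw [hvl]; exact hv) (e - 1)
      (by omega) e 0 le_rfl
    rw [hvl, ← hedef, sites_replicate, pow_zero, mul_one] at h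
    exact SB_mono h (orders_bB hCf.le hL1 v)
  have r1 : SB false w (ι (Kp s ^ (e - 1)) * sites s f e as * ι (Kp s ^ b))
      (Cg / (L : ℝ) ^ (4 * k + 6)) :=
    hgg L (by omega) s f hg as has (e - 1) (by omega) b hbL
  have r2 : SB false w (ι ((X - 1) * Kp s ^ (e - 1)) * sites s f e as * ι (Kp s ^ b))
      (Ch / (L : ℝ) ^ (7 * k + 9)) :=
    hh L (by omega) s f hg as has (e - 1) (by omega) b hbL
  have t11 := orders_three hw hCa.le (by positivity : 0 ≤ 2 * Cc) hCg.le hL1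
    (by omega : 11 * k + 11 ≤ (5 * k + 4) + (3 * k + 3) + (4 * k + 6)) z0 m11 r1
  have t21 := orders_three hw hCb.le hCe.le hCg.le hL1
    (by omega : 11 * k + 11 ≤ (2 * k + 2) + (5 * k + 5) + (4 * k + 6)) z0' m21 r1
  have t12 := orders_three hw hCa.le hCd.le hCh.le hL1
    (by omega : 11 * k + 11 ≤ (5 * k + 4) + (k + 1) + (7 * k + 9)) z0 m12 r2
  have t22 := orders_three hw hCb.le (by positivity : 0 ≤ 2 * Cf) hCh.le hL1
    (by omega : 11 * k + 11 ≤ (2 * k + 2) + (3 * k + 3) + (7 * k + 9)) z0' m22 r2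
  have t3 := orders_comb hw (orders_sq_le hc hg).2.1 (SB_sub hw t11 t21) (SB_sub hw t12 t22)
  rw [Jn_eq s f he1, orders_alg_second]
  refine SB_mono t3 ?_
  simp only [← mul_div_assoc, ← add_div]
  refine div_le_div_of_nonneg_right ?_ (by positivity)
  linarith

/-- the dressed defect has bounded norm -/
theorem bound_Y {c : ℝ} (hc : 0 < c) (k : ℕ) {w : ℝ} (hw : 0 ≤ w) :
    ∃ C : ℝ, 0 < C ∧ ∃ L0 : ℕ, ∀ L ≥ L0, ∀ s f : ℝ, Good c s f →
      SB false w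
        (An s f (L ^ (2 * k + 2)) ^ (L ^ (2 * k)) * Jn s f (L ^ (2 * k + 2)) *
          An s f (L ^ (2 * k + 2)) ^ (L ^ (2 * k))) C := by
  have hw2 : 0 ≤ 2 * w := by linarith
  obtain ⟨Ca, hCa, La, ha⟩ := sb0 hc k hw2
  obtain ⟨Cb, hCb, Lb, hb⟩ := sb0' hc k hw
  obtain ⟨Cc, hCc, Lc, hcc⟩ := sb0 hc k hw
  refine ⟨2 * (2 * w * Ca * Cc) + 2 * (2 * w * Ca * Cb) + 1,
    by positivity, 1 + La + Lb + Lc, ?_⟩
  intro L hL s f hg
  have hL1 : 1 ≤ L := by omega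
  obtain ⟨g1, g2, g3, g4⟩ := hg
  have hs0 : 0 ≤ s := by linarith
  have hs1 : s ≤ 1 := by linarith
  set e := L ^ (2 * k + 2) with hedef
  set M := L ^ (2 * k) with hMdef
  have he1 : 1 ≤ e := Nat.one_le_pow _ _ hL1
  have hMl : (List.replicate M false).length = M := List.length_replicate
  have hl1a : l1 (Kp s ^ e * (X - 1)) ≤ 2 := by
    refine (l1_mul_le _ _).trans ?_
    have h1 := l1_Kp_pow_le hs0 hs1 e
    have h2 := l1_X_sub_one
    have h3 := l1_nonneg (Kp s ^ e)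
    have h4 := l1_nonneg (X - 1 : ℝ[X])
    nlinarith
  have hl1b : l1 (Kp s ^ e) ≤ 2 := (l1_Kp_pow_le hs0 hs1 e).trans (by norm_num)
  have hl1c : l1 (1 : ℝ[X]) ≤ 2 := by
    rw [l1_one]
    norm_num
  have z1 : SB true (2 * w) (An s f e ^ M * ι (Kp s ^ e * (X - 1))) Ca := by
    have h := ha L (by omega) s f ⟨g1, g2, g3, g4⟩ (List.replicate M false)
      (by rw [hMl]; omega) 0 (Nat.zero_le _) _ hl1a
    rw [← hedef, sites_replicate, pow_zero, map_one, one_mul] at h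
    exact h
  have z2 : SB true (2 * w) (An s f e ^ M * ι (Kp s ^ e)) Ca := by
    have h := ha L (by omega) s f ⟨g1, g2, g3, g4⟩ (List.replicate M false)
      (by rw [hMl]; omega) 0 (Nat.zero_le _) _ hl1b
    rw [← hedef, sites_replicate, pow_zero, map_one, one_mul] at h
    exact h
  have r1 : SB false w (ι (Kp s ^ (e - 1)) * An s f e ^ M) Cc := by
    have h := hcc L (by omega) s f ⟨g1, g2, g3, g4⟩ (List.replicate M false)
      (by rw [hMl]; omega) (e - 1) (by omega) _ hl1c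
    rw [← hedef, sites_replicate, map_one, mul_one] at h
    exact SB_true_to hw h
  have r2 : SB false w (ι ((X - 1) * Kp s ^ (e - 1)) * An s f e ^ M) Cb := by
    have h := hb L (by omega) s f ⟨g1, g2, g3, g4⟩ (List.replicate M false)
      (by rw [hMl]; omega) (e - 1) (by omega) _ hl1c
    rw [← hedef, sites_replicate, map_one, mul_one] at h
    exact SB_true_to hw h
  have t1 := SB_mul_x1_mul hw z1 r1
  have t2 := SB_mul_x1_mul hw z2 r2
  have t3 := orders_comb hw (orders_sq_le hc ⟨g1, g2, g3, g4⟩).2.2 t1 t2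
  have e1 : An s f e ^ M * Jn s f e * An s f e ^ M = (f * s) •
      ((An s f e ^ M * ι (Kp s ^ e * (X - 1))) * x1 * (ι (Kp s ^ (e - 1)) * An s f e ^ M) -
      (An s f e ^ M * ι (Kp s ^ e)) * x1 * (ι ((X - 1) * Kp s ^ (e - 1)) * An s f e ^ M)) := by
    rw [Jn_eq s f he1]
    simp only [mul_smul_comm, smul_mul_assoc, mul_sub, sub_mul, mul_assoc]
  rw [e1]
  refine SB_mono t3 ?_
  linarith

end P321
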