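import Vale.Agent.TR321.Bulk
import Vale.Agent.TR321.Orders

/-! # P321 module Diff: the difference of the two strings -/

namespace P321

open Polynomial NC Finset

theorem SB_smul_le_one {w : ℝ} (hw : 0 ≤ w) {Z : NC} {B δ : ℝ} (hδ : |δ| ≤ 1)
    (h : SB false w Z B) : SB false w (δ • Z) B := by
  have hB : 0 ≤ B := SB_nonneg hw h
  refine SB_mono (SB_smul h δ) ?_
  have : δ ^ 2 ≤ 1 := by
    rw [← sq_abs]; exact pow_le_one₀ (abs_nonneg _) hδ
  nlinarith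

theorem SB_sum_false' {w : ℝ} (hw : 0 ≤ w) (n R : ℕ) (hn : n ≤ R) (F : ℕ → NC) (B : ℝ)
    (hB : 0 ≤ B) (h : ∀ i < n, SB false w (F i) B) :
    SB false w (∑ i ∈ range n, F i) ((R : ℝ) ^ 2 * B) := by
  refine SB_mono (SB_sum_false hw (range n) F B (fun i hi => h i (mem_range.mp hi))) ?_
  rw [card_range]
  have : (n : ℝ) ^ 2 ≤ (R : ℝ) ^ 2 := by
    have : (n : ℝ) ≤ R := by exact_mod_cast hn
    gcongr
  nlinarith

theorem Xn_arr (s f : ℝ) (e a b M : ℕ) (as : List Bool) :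
    Xn s f e a b (arr M as) =
      ι (Kp s ^ a) * (An s f e ^ M * sites s f e as * An s f e ^ M) * ι (Kp s ^ b) := by
  simp only [Xn, arr, sites_append, sites_replicate]

theorem Xn_diff (s f : ℝ) (e a b M r : ℕ) :
    Xn s f e a b (arr M (tm r)) - Xn s f e a b (arr M ((tm r).map not)) =
      ι (Kp s ^ a) * TM (An s f e) (An s f e ^ M * Jn s f e * An s f e ^ M) r * ι (Kp s ^ b) +
      (ι (Kp s ^ a) * (An s f e ^ M * R2 s f e (tm r) * An s f e ^ M) * ι (Kp s ^ b) -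
       ι (Kp s ^ a) * (An s f e ^ M * R2 s f e ((tm r).map not) * An s f e ^ M) *
        ι (Kp s ^ b)) := by
  rw [Xn_arr, Xn_arr, sites_eq_D1_R2 s f e (tm r), sites_eq_D1_R2 s f e ((tm r).map not),
    List.length_map, ← TM_conj, ← D1_tm]
  noncomm_ring

theorem second_term {c : ℝ} (hc : 0 < c) (k C0 : ℕ) (hk : 1 ≤ k) (r : ℕ) {w : ℝ} (hw : 0 ≤ w) :
    ∃ C : ℝ, 0 < C ∧ ∃ L0 : ℕ, ∀ L ≥ L0, ∀ s f : ℝ, Good c s f →
      ∀ a b : ℕ, L ^ (4 * k + 6) ≤ C0 * a → a ≤ C0 * L ^ (4 * k + 6) →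
      L ^ (4 * k + 6) ≤ C0 * b → ∀ as : List Bool, as.length = 2 ^ r →
      SB false w
        (ι (Kp s ^ a) * (An s f (L ^ (2 * k + 2)) ^ (L ^ (2 * k)) *
          R2 s f (L ^ (2 * k + 2)) as * An s f (L ^ (2 * k + 2)) ^ (L ^ (2 * k))) *
          ι (Kp s ^ b))
        (C / (L : ℝ) ^ (11 * k + 11)) := by
  obtain ⟨C, hC, L1, hL1⟩ := bound_second hc k C0 hk hw
  refine ⟨((2 ^ r : ℕ) : ℝ) ^ 2 * (((2 ^ r : ℕ) : ℝ) ^ 2 * C), by positivity, max L1 (2 ^ r + 1),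
    ?_⟩
  intro L hL s f hsf a b ha ha' hb as has
  have hLL1 : L1 ≤ L := le_trans (le_max_left _ _) hL
  have hLr : 2 ^ r + 1 ≤ L := le_trans (le_max_right _ _) hL
  have hL0 : 0 < L := lt_of_lt_of_le (Nat.succ_pos _) hLr
  have hM : 2 ^ r ≤ L ^ (2 * k) := by
    calc 2 ^ r ≤ L := by omega
      _ = L ^ 1 := (pow_one L).symm
      _ ≤ L ^ (2 * k) := Nat.pow_le_pow_right hL0 (by omega)
  set e := L ^ (2 * k + 2) with he
  set M := L ^ (2 * k) with hMdef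
  set B : ℝ := C / (L : ℝ) ^ (11 * k + 11) with hB
  have hB0 : 0 ≤ B := by positivity
  obtain ⟨χ, hχ, hR2⟩ := R2_eq_sum s f e as
  have key : ι (Kp s ^ a) * (An s f e ^ M * R2 s f e as * An s f e ^ M) * ι (Kp s ^ b) =
      ∑ i ∈ range as.length, ∑ j ∈ range as.length, χ i j •
        (ι (Kp s ^ a) * An s f e ^ (M + i) * Jn s f e * An s f e ^ j * Jn s f e *
          sites s f e (as.drop (i + j + 2) ++ List.replicate M false) * ι (Kp s ^ b)) := by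
    rw [hR2]
    simp only [mul_sum, sum_mul, sites_append, sites_replicate, pow_add]
    refine sum_congr rfl (fun i _ => sum_congr rfl (fun j _ => ?_))
    simp only [mul_smul_comm, smul_mul_assoc, mul_assoc]
  rw [key]
  have h1 : ∀ i < 2 ^ r, SB false w (∑ j ∈ range as.length, χ i j •
        (ι (Kp s ^ a) * An s f e ^ (M + i) * Jn s f e * An s f e ^ j * Jn s f e *
          sites s f e (as.drop (i + j + 2) ++ List.replicate M false) * ι (Kp s ^ b)))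
        (((2 ^ r : ℕ) : ℝ) ^ 2 * B) := by
    intro i hi
    refine SB_sum_false' hw _ _ has.le _ B hB0 ?_
    intro j hj
    refine SB_smul_le_one hw (hχ i j) ?_
    refine hL1 L hLL1 s f hsf a b ha ha' hb (M + i) j ?_ ?_ _ ?_
    · omega
    · omega
    · simp only [List.length_append, List.length_drop, List.length_replicate]
      omega
  have h2 := SB_sum_false' hw as.length (2 ^ r) has.le (fun i => ∑ j ∈ range as.length, χ i j •
        (ι (Kp s ^ a) * An s f e ^ (M + i) * Jn s f e * An s f e ^ j * Jn s f e *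
          sites s f e (as.drop (i + j + 2) ++ List.replicate M false) * ι (Kp s ^ b)))
        (((2 ^ r : ℕ) : ℝ) ^ 2 * B) (by positivity) (fun i hi => h1 i (by omega))
  refine SB_mono h2 (le_of_eq ?_)
  rw [hB]; ring

theorem edge_term {c : ℝ} (hc : 0 < c) (k C0 : ℕ) (hk : 1 ≤ k) (r : ℕ) {w : ℝ} (hw : 0 ≤ w) :
    ∃ C : ℝ, 0 < C ∧ ∃ L0 : ℕ, ∀ L ≥ L0, ∀ s f : ℝ, Good c s f →
      ∀ a b : ℕ, L ^ (4 * k + 6) ≤ C0 * a → a ≤ C0 * L ^ (4 * k + 6) →
      L ^ (4 * k + 6) ≤ C0 * b →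
      ∀ Y : NC, Y = An s f (L ^ (2 * k + 2)) ^ (L ^ (2 * k)) * Jn s f (L ^ (2 * k + 2)) *
          An s f (L ^ (2 * k + 2)) ^ (L ^ (2 * k)) →
      SB false w
        (ι (Kp s ^ a) * (TM (An s f (L ^ (2 * k + 2))) Y r -
          TM (ι (Gp s f (L ^ (2 * k + 2)))) Y r) * ι (Kp s ^ b))
        (C / (L : ℝ) ^ (11 * k + 11)) := by
  obtain ⟨C1, hC1, L1, hL1⟩ := bound_left hc k C0 hk hw
  obtain ⟨C2, hC2, L2, hL2⟩ := bound_right hc k C0 hk hw
  refine ⟨((2 ^ r : ℕ) : ℝ) ^ 2 * (2 * (((2 ^ r : ℕ) : ℝ) ^ 2 * C1) +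
      2 * (((2 ^ r : ℕ) : ℝ) ^ 2 * C2)), by positivity, max (max L1 L2) (2 ^ r + 1), ?_⟩
  intro L hL s f hsf a b ha ha' hb Y hY
  have hLL1 : L1 ≤ L := le_trans (le_trans (le_max_left _ _) (le_max_left _ _)) hL
  have hLL2 : L2 ≤ L := le_trans (le_trans (le_max_right _ _) (le_max_left _ _)) hL
  have hLr : 2 ^ r + 1 ≤ L := le_trans (le_max_right _ _) hL
  have hL0 : 0 < L := lt_of_lt_of_le (Nat.succ_pos _) hLr
  have hM : 2 ^ r ≤ L ^ (2 * k) := by
    calc 2 ^ r ≤ L := by omega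
      _ = L ^ 1 := (pow_one L).symm
      _ ≤ L ^ (2 * k) := Nat.pow_le_pow_right hL0 (by omega)
  set e := L ^ (2 * k + 2) with he
  set M := L ^ (2 * k) with hMdef
  set B1 : ℝ := C1 / (L : ℝ) ^ (11 * k + 11) with hB1
  set B2 : ℝ := C2 / (L : ℝ) ^ (11 * k + 11) with hB2
  have hB10 : 0 ≤ B1 := by positivity
  have hB20 : 0 ≤ B2 := by positivity
  obtain ⟨δ, hδ, hT⟩ := TM_sub s f e r
  have key : ι (Kp s ^ a) * (TM (An s f e) Y r - TM (ι (Gp s f e)) Y r) * ι (Kp s ^ b) =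
      ∑ j ∈ range (2 ^ r), δ j •
        ((∑ i ∈ range j, ι (Kp s ^ a) * ι (Gp s f e) ^ i * Qn s f e *
            An s f e ^ ((j - 1 - i) + M) * Jn s f e * An s f e ^ (M + (2 ^ r - 1 - j)) *
            ι (Kp s ^ b)) +
         (∑ i ∈ range (2 ^ r - 1 - j), ι (Kp s ^ a) * ι (Gp s f e) ^ j *
            An s f e ^ M * Jn s f e * An s f e ^ M * ι (Gp s f e) ^ i * Qn s f e *
            An s f e ^ (2 ^ r - 1 - j - 1 - i) * ι (Kp s ^ b))) := by
    rw [hT Y, hY]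
    simp only [mul_sum, sum_mul]
    refine sum_congr rfl (fun j _ => ?_)
    rw [mul_smul_comm, smul_mul_assoc, mul_add, add_mul, mul_sum, sum_mul, mul_sum, sum_mul]
    congr 2
    · refine sum_congr rfl (fun i _ => ?_)
      simp only [pow_add, mul_assoc]
    · refine sum_congr rfl (fun i _ => ?_)
      simp only [mul_assoc]
  rw [key]
  have h1 : ∀ j < 2 ^ r, SB false w (δ j •
        ((∑ i ∈ range j, ι (Kp s ^ a) * ι (Gp s f e) ^ i * Qn s f e *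
            An s f e ^ ((j - 1 - i) + M) * Jn s f e * An s f e ^ (M + (2 ^ r - 1 - j)) *
            ι (Kp s ^ b)) +
         (∑ i ∈ range (2 ^ r - 1 - j), ι (Kp s ^ a) * ι (Gp s f e) ^ j *
            An s f e ^ M * Jn s f e * An s f e ^ M * ι (Gp s f e) ^ i * Qn s f e *
            An s f e ^ (2 ^ r - 1 - j - 1 - i) * ι (Kp s ^ b))))
        (2 * (((2 ^ r : ℕ) : ℝ) ^ 2 * B1) + 2 * (((2 ^ r : ℕ) : ℝ) ^ 2 * B2)) := by
    intro j hj
    refine SB_smul_le_one hw (hδ j) (SB_add hw ?_ ?_)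
    · refine SB_sum_false' hw _ _ hj.le _ B1 hB10 ?_
      intro i hi
      refine hL1 L hLL1 s f hsf a b ha ha' hb i _ _ ?_ ?_ ?_
      · omega
      · omega
      · omega
    · refine SB_sum_false' hw _ _ (by omega) _ B2 hB20 ?_
      intro i hi
      refine hL2 L hLL2 s f hsf a b ha ha' hb i j _ ?_ ?_
      · omega
      · omega
  have h2 := SB_sum_false' hw (2 ^ r) (2 ^ r) le_rfl _ _ (by positivity) h1
  refine SB_mono h2 (le_of_eq ?_)
  rw [hB1, hB2]; ring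

theorem S_diff {c : ℝ} (hc : 0 < c) (k C0 : ℕ) (hk : 1 ≤ k) {w : ℝ} (hw : 0 ≤ w) :
    ∃ C : ℝ, 0 < C ∧ ∃ L0 : ℕ, ∀ L ≥ L0, ∀ s f : ℝ, Good c s f →
      ∀ a b : ℕ, L ^ (4 * k + 6) ≤ C0 * a → a ≤ C0 * L ^ (4 * k + 6) →
      L ^ (4 * k + 6) ≤ C0 * b →
      SB false w
        (Xn s f (L ^ (2 * k + 2)) a b (arr (L ^ (2 * k)) (tm (6 * k + 6))) -
          Xn s f (L ^ (2 * k + 2)) a b (arr (L ^ (2 * k)) ((tm (6 * k + 6)).map not)))
        (C / (L : ℝ) ^ (11 * k + 11)) := by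
  set r := 6 * k + 6 with hr
  obtain ⟨C1, hC1, L1, hL1⟩ := edge_term hc k C0 hk r hw
  obtain ⟨C2, hC2, L2, hL2⟩ := second_term hc k C0 hk r hw
  obtain ⟨C3, hC3, L3, hL3⟩ := bound_Y hc k hw
  obtain ⟨C4, hC4, hL4⟩ := bulk_bound hc k C0 r hw
  refine ⟨2 * (2 * (C4 * C3) + 2 * C1) + 2 * (2 * C2 + 2 * C2), by positivity,
    max (max L1 L2) (max L3 1), ?_⟩
  intro L hL s f hsf a b ha ha' hb
  have hLL1 : L1 ≤ L := le_trans (le_trans (le_max_left _ _) (le_max_left _ _)) hL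
  have hLL2 : L2 ≤ L := le_trans (le_trans (le_max_right _ _) (le_max_left _ _)) hL
  have hLL3 : L3 ≤ L := le_trans (le_trans (le_max_left _ _) (le_max_right _ _)) hL
  have hL0 : 1 ≤ L := le_trans (le_trans (le_max_right _ _) (le_max_right _ _)) hL
  set e := L ^ (2 * k + 2) with he
  set M := L ^ (2 * k) with hMdef
  rw [Xn_diff]
  have hY := hL3 L hLL3 s f hsf
  have hbulk := hL4 L hL0 s f hsf a b ha hb _ _ hY
  have hedge := hL1 L hLL1 s f hsf a b ha ha' hb _ rfl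
  have hlen : (tm r).length = 2 ^ r := tm_length r
  have hsec1 := hL2 L hLL2 s f hsf a b ha ha' hb (tm r) hlen
  have hsec2 := hL2 L hLL2 s f hsf a b ha ha' hb ((tm r).map not) (by rw [List.length_map, hlen])
  have hsplit : ι (Kp s ^ a) * TM (An s f e) (An s f e ^ M * Jn s f e * An s f e ^ M) r *
        ι (Kp s ^ b) =
      ι (Kp s ^ a) * TM (ι (Gp s f e)) (An s f e ^ M * Jn s f e * An s f e ^ M) r *
        ι (Kp s ^ b) +
      ι (Kp s ^ a) * (TM (An s f e) (An s f e ^ M * Jn s f e * An s f e ^ M) r -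
        TM (ι (Gp s f e)) (An s f e ^ M * Jn s f e * An s f e ^ M) r) * ι (Kp s ^ b) := by
    noncomm_ring
  rw [hsplit]
  have hLr : (1 : ℝ) ≤ (L : ℝ) := by exact_mod_cast hL0
  have hbulk' : SB false w (ι (Kp s ^ a) *
      TM (ι (Gp s f e)) (An s f e ^ M * Jn s f e * An s f e ^ M) r * ι (Kp s ^ b))
      (C4 * C3 / (L : ℝ) ^ (11 * k + 11)) := by
    refine SB_mono hbulk ?_
    have : (L : ℝ) ^ (11 * k + 11) ≤ (L : ℝ) ^ (2 * r) :=
      pow_le_pow_right₀ hLr (by omega)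
    gcongr
  refine SB_mono (SB_add hw (SB_add hw hbulk' hedge) (SB_sub hw hsec1 hsec2)) (le_of_eq ?_)
  ring

end P321
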