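import Vale.Agent.TR321.Model

/-!
# P321: reconstruction is always possible with finitely many traces
-/

namespace P321

/-- the full pattern -/
def fullPat (n : ℕ) : Fin n → Bool := fun _ => true

theorem trace_full {n : ℕ} (x : Fin n → Bool) : trace x (fullPat n) = List.ofFn x := by
  unfold trace fullPat
  rw [List.filter_true, List.ofFn_eq_map]

theorem eq_of_trace_eq_ofFn {n : ℕ} {x y : Fin n → Bool} {keep : Fin n → Bool}
    (h : trace x keep = List.ofFn y) : y = x := by
  have hlen : ((List.finRange n).filter keep).length = (List.finRange n).length := by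
    have h2 := congrArg List.length h
    rw [List.length_ofFn] at h2
    unfold trace at h2
    rw [List.length_map] at h2
    rw [List.length_finRange]
    exact h2
  have hfil : (List.finRange n).filter keep = List.finRange n := by
    rw [List.filter_eq_self]
    exact List.length_filter_eq_length_iff.1 hlen
  unfold trace at h
  rw [hfil, ← List.ofFn_eq_map] at h
  exact (List.ofFn_injective h).symm

open Classical in
/-- the decoder -/
noncomputable def dec (n m : ℕ) (t : Fin m → List Bool) : Fin n → Bool :=
  if h : ∃ x : Fin n → Bool, ∃ j, t j = List.ofFn x then Classical.choose h else fun _ => false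

theorem dec_eq {n m : ℕ} (x : Fin n → Bool) (K : Fin m → Fin n → Bool) (j : Fin m)
    (hj : K j = fullPat n) : dec n m (fun j => trace x (K j)) = x := by
  have h : ∃ y : Fin n → Bool, ∃ i, (fun j => trace x (K j)) i = List.ofFn y :=
    ⟨x, j, by simp only; rw [hj, trace_full]⟩
  unfold dec
  rw [dif_pos h]
  obtain ⟨i, hi⟩ := Classical.choose_spec h
  exact eq_of_trace_eq_ofFn hi

theorem sum_prod_fun {n m : ℕ} (f : (Fin n → Bool) → ℝ) :
    ∑ K : Fin m → Fin n → Bool, ∏ j, f (K j) = (∑ k, f k) ^ m := by
  have h := Finset.prod_univ_sum (fun _ : Fin m => (Finset.univ : Finset (Fin n → Bool)))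
    (fun _ k => f k)
  rw [Fintype.piFinset_univ, Finset.prod_const, Finset.card_univ, Fintype.card_fin] at h
  exact h.symm

theorem sum_patProb (q : ℝ) (n : ℕ) : ∑ k : Fin n → Bool, patProb q k = 1 := by
  unfold patProb
  have h := Finset.prod_univ_sum (fun _ : Fin n => (Finset.univ : Finset Bool))
    (fun _ b => if b = true then 1 - q else q)
  rw [Fintype.piFinset_univ] at h
  rw [← h]
  simp

theorem patProb_nonneg' {q : ℝ} (h0 : 0 < q) (h1 : q < 1) {n : ℕ} (k : Fin n → Bool) :
    0 ≤ patProb q k := by
  unfold patProb
  apply Finset.prod_nonneg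
  intro i _
  split_ifs <;> linarith

theorem patProb_full (q : ℝ) (n : ℕ) : patProb q (fullPat n) = (1 - q) ^ n := by
  unfold patProb fullPat
  simp

/-- finitely many traces suffice, whatever `q` in `(0,1)` and `n` -/
theorem exists_reconstructible {q : ℝ} (h0 : 0 < q) (h1 : q < 1) (n : ℕ) :
    ∃ m, Reconstructible q n m := by
  classical
  have hpos : 0 < (1 - q) ^ n := pow_pos (by linarith) n
  have hle : (1 - q) ^ n ≤ 1 := pow_le_one₀ (by linarith) (by linarith)
  obtain ⟨m, hm⟩ := exists_pow_lt_of_lt_one (show (0 : ℝ) < 1 / 3 by norm_num)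
    (show 1 - (1 - q) ^ n < 1 by linarith)
  refine ⟨m, fun t x => if x = dec n m t then 1 else 0, ⟨?_, ?_⟩, ?_⟩
  · intro t x
    simp only
    split_ifs <;> norm_num
  · intro t
    simp
  · intro x
    have hbad : ∑ K : Fin m → Fin n → Bool,
        ∏ j, (if K j = fullPat n then 0 else patProb q (K j)) = (1 - (1 - q) ^ n) ^ m := by
      rw [sum_prod_fun (fun k => if k = fullPat n then 0 else patProb q k)]
      congr 1
      have h2 : ∀ k : Fin n → Bool, (if k = fullPat n then (0:ℝ) else patProb q k)
          = patProb q k - (if k = fullPat n then patProb q (fullPat n) else 0) := by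
        intro k
        split_ifs with h
        · rw [h]; ring
        · ring
      rw [Finset.sum_congr rfl (fun k _ => h2 k), Finset.sum_sub_distrib, sum_patProb,
        Finset.sum_ite_eq', if_pos (Finset.mem_univ _), patProb_full]
    have hall : ∑ K : Fin m → Fin n → Bool, ∏ j, patProb q (K j) = 1 := by
      rw [sum_prod_fun (fun k => patProb q k), sum_patProb, one_pow]
    have hterm : ∀ K : Fin m → Fin n → Bool,
        (∏ j, patProb q (K j)) - ∏ j, (if K j = fullPat n then 0 else patProb q (K j)) ≤
        (∏ j, patProb q (K j)) * (if x = dec n m (fun j => trace x (K j)) then 1 else 0) := by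
      intro K
      have hnn : 0 ≤ ∏ j, patProb q (K j) :=
        Finset.prod_nonneg fun j _ => patProb_nonneg' h0 h1 _
      by_cases hK : ∃ j, K j = fullPat n
      · obtain ⟨j, hj⟩ := hK
        rw [dec_eq x K j hj, if_pos rfl]
        have : ∏ j, (if K j = fullPat n then 0 else patProb q (K j)) = 0 :=
          Finset.prod_eq_zero (Finset.mem_univ j) (if_pos hj)
        rw [this]
        linarith
      · have : ∏ j, (if K j = fullPat n then 0 else patProb q (K j))
            = ∏ j, patProb q (K j) := by
          apply Finset.prod_congr rfl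
          intro j _
          rw [if_neg (fun h => hK ⟨j, h⟩)]
        rw [this, sub_self]
        apply mul_nonneg hnn
        split_ifs <;> norm_num
    have hsum := Finset.sum_le_sum (fun K (_ : K ∈ Finset.univ) => hterm K)
    rw [Finset.sum_sub_distrib, hall, hbad] at hsum
    unfold successProb
    have : (2:ℝ) / 3 ≤ 1 - (1 - (1 - q) ^ n) ^ m := by linarith
    exact this.trans hsum

end P321
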