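import Vale.Agent.TR321.Defs

/-! # P321 module Hyper: evaluation of mask series on biased bits, second and higher moments -/

namespace P321

open Polynomial NC Finset

/-- expectation over `m` independent bits, `true` with probability `a` -/
noncomputable def Ex (a : ℝ) : ℕ → (List Bool → ℝ) → ℝ
  | 0, g => g []
  | (m + 1), g => a * Ex a m (fun u => g (true :: u)) + (1 - a) * Ex a m (fun u => g (false :: u))

/-- the centred variable: `ψ(true) = (1-a)/a`, `ψ(false) = -1` -/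
noncomputable def psi (a : ℝ) (b : Bool) : ℝ := if b then (1 - a) / a else -1

/-- `ev a Z u = ∑_{|μ| = |u|} Z μ ∏_{μ_t = true} ψ(u_t)` -/
noncomputable def ev (a : ℝ) : NC → List Bool → ℝ
  | Z, [] => Z []
  | Z, (b :: u) => ev a (d false Z) u + psi a b * ev a (d true Z) u

theorem Ex_zero (a : ℝ) (g : List Bool → ℝ) : Ex a 0 g = g [] := rfl

theorem Ex_succ (a : ℝ) (m : ℕ) (g : List Bool → ℝ) :
    Ex a (m + 1) g =
      a * Ex a m (fun u => g (true :: u)) + (1 - a) * Ex a m (fun u => g (false :: u)) := rfl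

theorem ev_nil (a : ℝ) (Z : NC) : ev a Z [] = Z [] := rfl

theorem ev_cons (a : ℝ) (Z : NC) (b : Bool) (u : List Bool) :
    ev a Z (b :: u) = ev a (d false Z) u + psi a b * ev a (d true Z) u := rfl

theorem psi_true (a : ℝ) : psi a true = (1 - a) / a := rfl

theorem psi_false (a : ℝ) : psi a false = -1 := rfl

theorem Ex_mono {a : ℝ} (ha0 : 0 ≤ a) (ha1 : a ≤ 1) (m : ℕ) {g h : List Bool → ℝ}
    (hgh : ∀ u, u.length = m → g u ≤ h u) : Ex a m g ≤ Ex a m h := by
  induction m generalizing g h with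
  | zero => exact hgh [] rfl
  | succ m ih =>
    rw [Ex_succ, Ex_succ]
    refine add_le_add (mul_le_mul_of_nonneg_left (ih fun u hu => ?_) ha0)
      (mul_le_mul_of_nonneg_left (ih fun u hu => ?_) (sub_nonneg.2 ha1))
    · exact hgh _ (by simp [hu])
    · exact hgh _ (by simp [hu])

theorem Ex_add (a : ℝ) (m : ℕ) (g h : List Bool → ℝ) :
    Ex a m (fun u => g u + h u) = Ex a m g + Ex a m h := by
  induction m generalizing g h with
  | zero => rfl
  | succ m ih =>
    rw [Ex_succ, Ex_succ, Ex_succ, ih, ih]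
    ring

theorem Ex_smul (a : ℝ) (m : ℕ) (c : ℝ) (g : List Bool → ℝ) :
    Ex a m (fun u => c * g u) = c * Ex a m g := by
  induction m generalizing g with
  | zero => rfl
  | succ m ih =>
    rw [Ex_succ, Ex_succ, ih, ih]
    ring

theorem Ex_const (a : ℝ) (m : ℕ) (c : ℝ) : Ex a m (fun _ => c) = c := by
  induction m with
  | zero => rfl
  | succ m ih =>
    rw [Ex_succ, ih]
    ring

theorem Ex_congr (a : ℝ) (m : ℕ) {g h : List Bool → ℝ} (hgh : ∀ u, u.length = m → g u = h u) :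
    Ex a m g = Ex a m h := by
  induction m generalizing g h with
  | zero => exact hgh [] rfl
  | succ m ih =>
    rw [Ex_succ, Ex_succ, ih fun u hu => hgh (true :: u) (by simp [hu]),
      ih fun u hu => hgh (false :: u) (by simp [hu])]

theorem ev_add (a : ℝ) (Y Z : NC) (u : List Bool) : ev a (Y + Z) u = ev a Y u + ev a Z u := by
  induction u generalizing Y Z with
  | nil => rfl
  | cons b u ih =>
    rw [ev_cons, ev_cons, ev_cons, d_add, d_add, ih, ih]
    ring

theorem ev_smul (a c : ℝ) (Z : NC) (u : List Bool) : ev a (c • Z) u = c * ev a Z u := by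
  induction u generalizing Z with
  | nil => rfl
  | cons b u ih =>
    rw [ev_cons, ev_cons, d_smul, d_smul, ih, ih]
    ring

theorem ev_sub (a : ℝ) (Y Z : NC) (u : List Bool) : ev a (Y - Z) u = ev a Y u - ev a Z u := by
  have h : Y - Z = Y + (-1 : ℝ) • Z := by
    rw [neg_one_smul, sub_eq_add_neg]
  rw [h, ev_add, ev_smul]
  ring

theorem ev_zero (a : ℝ) (u : List Bool) : ev a 0 u = 0 := by
  have h := ev_smul a 0 0 u
  rwa [zero_smul, zero_mul] at h

theorem ev_ι (a : ℝ) (P : ℝ[X]) (u : List Bool) : ev a (ι P) u = P.coeff u.length := by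
  induction u generalizing P with
  | nil => exact ι_nil P
  | cons b u ih =>
    rw [ev_cons, d_false_ι, d_true_ι, ev_zero, ih, Polynomial.coeff_divX, List.length_cons]
    ring

theorem psi_mean {a : ℝ} (ha0 : 0 < a) : a * psi a true + (1 - a) * psi a false = 0 := by
  rw [psi_true, psi_false]
  field_simp
  ring

theorem psi_var {a : ℝ} (ha0 : 0 < a) :
    a * psi a true ^ 2 + (1 - a) * psi a false ^ 2 = (1 - a) / a := by
  rw [psi_true, psi_false]
  field_simp
  ring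

/-- the mean is the coefficient of the mask `0^m` -/
theorem Ex_ev {a : ℝ} (ha0 : 0 < a) (ha1 : a < 1) (m : ℕ) (Z : NC) :
    Ex a m (ev a Z) = Z (List.replicate m false) := by
  have _ := ha1
  induction m generalizing Z with
  | zero => rfl
  | succ m ih =>
    have h1 : ∀ b, Ex a m (fun u => ev a Z (b :: u)) =
        Ex a m (ev a (d false Z)) + psi a b * Ex a m (ev a (d true Z)) := by
      intro b
      have h2 : (fun u => ev a Z (b :: u)) =
          fun u => ev a (d false Z) u + psi a b * ev a (d true Z) u := rfl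
      rw [h2, Ex_add, Ex_smul]
    rw [Ex_succ, h1, h1, ih, ih, List.replicate_succ]
    have h3 := psi_mean ha0
    have h4 : a * ((d false Z) (List.replicate m false) +
        psi a true * (d true Z) (List.replicate m false)) +
        (1 - a) * ((d false Z) (List.replicate m false) +
        psi a false * (d true Z) (List.replicate m false)) =
        (d false Z) (List.replicate m false) + (a * psi a true + (1 - a) * psi a false) *
        (d true Z) (List.replicate m false) := by ring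
    rw [h4, h3, zero_mul, add_zero]
    rfl

theorem Ex_ev_sq {a : ℝ} (ha0 : 0 < a) (ha1 : a < 1) (m : ℕ) (Z : NC) :
    Ex a m (fun u => (ev a Z u) ^ 2) = S ((1 - a) / a) m Z := by
  have _ := ha1
  induction m generalizing Z with
  | zero => rfl
  | succ m ih =>
    rw [Ex_succ, S_succ, ← ih, ← ih, ← Ex_smul, ← Ex_smul, ← Ex_add, ← Ex_smul, ← Ex_add]
    congr 1
    funext u
    rw [ev_cons, ev_cons]
    have h3 := psi_mean ha0
    have h4 := psi_var ha0
    set x := ev a (d false Z) u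
    set y := ev a (d true Z) u
    have h5 : a * (x + psi a true * y) ^ 2 + (1 - a) * (x + psi a false * y) ^ 2 =
        x ^ 2 + 2 * x * y * (a * psi a true + (1 - a) * psi a false) +
        (a * psi a true ^ 2 + (1 - a) * psi a false ^ 2) * y ^ 2 := by ring
    rw [h5, h3, h4]
    ring

/-! ### the two-point inequality -/

theorem mixed_le (x s : ℝ) {m j : ℕ} (hj : j ≤ m) :
    x ^ (m - j) * s ^ (j + 2) ≤ |x| ^ m * s ^ 2 + |s| ^ (m + 2) := by
  have h1 : x ^ (m - j) * s ^ (j + 2) ≤ |x| ^ (m - j) * |s| ^ (j + 2) := by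
    refine (le_abs_self _).trans ?_
    rw [abs_mul, abs_pow, abs_pow]
  refine h1.trans ?_
  have hx := abs_nonneg x
  have hs := abs_nonneg s
  rcases le_total |s| |x| with h | h
  · have h2 : |x| ^ (m - j) * |s| ^ (j + 2) ≤ |x| ^ m * s ^ 2 := by
      calc |x| ^ (m - j) * |s| ^ (j + 2) = |x| ^ (m - j) * (|s| ^ j * s ^ 2) := by
            rw [pow_add, sq_abs]
        _ ≤ |x| ^ (m - j) * (|x| ^ j * s ^ 2) := by gcongr
        _ = |x| ^ m * s ^ 2 := by
            rw [← mul_assoc, ← pow_add]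
            congr 2
            omega
    have h3 : 0 ≤ |s| ^ (m + 2) := by positivity
    linarith
  · have h2 : |x| ^ (m - j) * |s| ^ (j + 2) ≤ |s| ^ (m + 2) := by
      calc |x| ^ (m - j) * |s| ^ (j + 2) ≤ |s| ^ (m - j) * |s| ^ (j + 2) := by gcongr
        _ = |s| ^ (m + 2) := by
            rw [← pow_add]
            congr 1
            omega
    have h3 : 0 ≤ |x| ^ m * s ^ 2 := by positivity
    linarith

theorem binom_le (x s : ℝ) (m : ℕ) :
    (x + s) ^ (m + 2) ≤ x ^ (m + 2) + (m + 2) * x ^ (m + 1) * s +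
      2 ^ (m + 2) * (|x| ^ m * s ^ 2 + |s| ^ (m + 2)) := by
  have h0 : (x + s) ^ (m + 2) = (s + x) ^ (m + 2) := by rw [add_comm]
  rw [h0, add_pow, Finset.sum_range_succ', Finset.sum_range_succ']
  have h1 : ∑ j ∈ Finset.range (m + 1), s ^ (j + 1 + 1) * x ^ (m + 2 - (j + 1 + 1)) *
      ((m + 2).choose (j + 1 + 1) : ℝ) ≤
      ∑ j ∈ Finset.range (m + 1), (|x| ^ m * s ^ 2 + |s| ^ (m + 2)) *
        ((m + 2).choose (j + 1 + 1) : ℝ) := by
    refine Finset.sum_le_sum fun j hj => ?_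
    rw [Finset.mem_range] at hj
    refine mul_le_mul_of_nonneg_right ?_ (Nat.cast_nonneg _)
    have h2 := mixed_le x s (m := m) (j := j) (by omega)
    have h3 : m + 2 - (j + 1 + 1) = m - j := by omega
    rw [h3, mul_comm]
    exact h2
  have h2 : ∑ j ∈ Finset.range (m + 1), ((m + 2).choose (j + 1 + 1) : ℝ) ≤ 2 ^ (m + 2) := by
    have h3 : ∑ j ∈ Finset.range (m + 2 + 1), ((m + 2).choose j : ℝ) = 2 ^ (m + 2) := by
      have := Nat.sum_range_choose (m + 2)
      exact_mod_cast this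
    rw [Finset.sum_range_succ', Finset.sum_range_succ'] at h3
    have h4 : (0 : ℝ) ≤ ((m + 2).choose (0 + 1) : ℝ) := Nat.cast_nonneg _
    have h5 : (0 : ℝ) ≤ ((m + 2).choose 0 : ℝ) := Nat.cast_nonneg _
    linarith
  rw [← Finset.mul_sum] at h1
  have h6 : 0 ≤ |x| ^ m * s ^ 2 + |s| ^ (m + 2) := by positivity
  have h7 := mul_le_mul_of_nonneg_left h2 h6
  have h8 : s ^ (0 + 1) * x ^ (m + 2 - (0 + 1)) * ((m + 2).choose (0 + 1) : ℝ) =
      (m + 2) * x ^ (m + 1) * s := by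
    rw [zero_add, Nat.choose_one_right, pow_one]
    have : m + 2 - 1 = m + 1 := by omega
    rw [this]
    push_cast
    ring
  have h9 : s ^ 0 * x ^ (m + 2 - 0) * ((m + 2).choose 0 : ℝ) = x ^ (m + 2) := by
    simp
  rw [h8, h9]
  linarith

theorem add_pow_ge {A B C : ℝ} (hA : 0 ≤ A) (hB : 0 ≤ B) (hC : 0 ≤ C) (k : ℕ) :
    A ^ (k + 1) + A ^ k * B + C ^ (k + 1) ≤ (A + B + C) ^ (k + 1) := by
  induction k with
  | zero => simp
  | succ k ih =>
    have h1 : (A + B + C) ^ (k + 1 + 1) = (A + B + C) ^ (k + 1) * (A + B + C) := pow_succ _ _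
    rw [h1]
    have h2 : (A ^ (k + 1) + A ^ k * B + C ^ (k + 1)) * (A + B + C) ≤
        (A + B + C) ^ (k + 1) * (A + B + C) := mul_le_mul_of_nonneg_right ih (by positivity)
    refine le_trans ?_ h2
    have h3 : (A ^ (k + 1) + A ^ k * B + C ^ (k + 1)) * (A + B + C) =
        A ^ (k + 1 + 1) + A ^ (k + 1) * B + C ^ (k + 1 + 1) +
        (A ^ (k + 1) * C + A ^ k * B * (A + B + C) + C ^ (k + 1) * (A + B)) := by ring
    rw [h3]
    have h4 : 0 ≤ A ^ (k + 1) * C + A ^ k * B * (A + B + C) + C ^ (k + 1) * (A + B) := by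
      positivity
    linarith

/-- two-point inequality -/
theorem two_point {a : ℝ} (ha0 : 0 < a) (ha1 : a < 1) {K : ℕ} (hK : 1 ≤ K) :
    ∃ w : ℝ, 0 < w ∧ ∀ x y : ℝ,
      a * (x + psi a true * y) ^ (2 * K) + (1 - a) * (x + psi a false * y) ^ (2 * K) ≤
        (x ^ 2 + w * y ^ 2) ^ K := by
  obtain ⟨k, rfl⟩ : ∃ k, K = k + 1 := ⟨K - 1, by omega⟩
  have ha1' : 0 < 1 - a := sub_pos.2 ha1
  set m2 : ℝ := a * psi a true ^ 2 + (1 - a) * psi a false ^ 2 with hm2
  set mK : ℝ := a * |psi a true| ^ (2 * k + 2) + (1 - a) * |psi a false| ^ (2 * k + 2) with hmK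
  have hm2' : 0 ≤ m2 := by positivity
  have hmK' : 0 ≤ mK := by positivity
  refine ⟨2 ^ (2 * k + 2) * m2 + 4 * (1 + mK), by positivity, fun x y => ?_⟩
  have h2k : 2 * (k + 1) = 2 * k + 2 := by ring
  rw [h2k]
  have e1 := binom_le x (psi a true * y) (2 * k)
  have e2 := binom_le x (psi a false * y) (2 * k)
  have hmean := psi_mean ha0
  have hxk : |x| ^ (2 * k) = (x ^ 2) ^ k := by
    rw [pow_mul, sq_abs]
  have hyk : |y| ^ (2 * k + 2) = (y ^ 2) ^ (k + 1) := by
    rw [← h2k, pow_mul, sq_abs]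
  have h1 : a * (x + psi a true * y) ^ (2 * k + 2) +
      (1 - a) * (x + psi a false * y) ^ (2 * k + 2) ≤
      x ^ (2 * k + 2) + 2 ^ (2 * k + 2) * ((x ^ 2) ^ k * y ^ 2 * m2 + (y ^ 2) ^ (k + 1) * mK) := by
    have f1 := mul_le_mul_of_nonneg_left e1 ha0.le
    have f2 := mul_le_mul_of_nonneg_left e2 ha1'.le
    refine (add_le_add f1 f2).trans (le_of_eq ?_)
    have g1 : ∀ t : ℝ, |t * y| ^ (2 * k + 2) = |t| ^ (2 * k + 2) * (y ^ 2) ^ (k + 1) := by
      intro t
      rw [abs_mul, mul_pow, hyk]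
    rw [g1, g1, hxk]
    have g2 : a * (x ^ (2 * k + 2) + ((2 * k : ℕ) + 2) * x ^ (2 * k + 1) * (psi a true * y) +
        2 ^ (2 * k + 2) * ((x ^ 2) ^ k * (psi a true * y) ^ 2 +
          |psi a true| ^ (2 * k + 2) * (y ^ 2) ^ (k + 1))) +
        (1 - a) * (x ^ (2 * k + 2) + ((2 * k : ℕ) + 2) * x ^ (2 * k + 1) * (psi a false * y) +
        2 ^ (2 * k + 2) * ((x ^ 2) ^ k * (psi a false * y) ^ 2 +
          |psi a false| ^ (2 * k + 2) * (y ^ 2) ^ (k + 1))) =
        x ^ (2 * k + 2) + ((2 * k : ℕ) + 2) * x ^ (2 * k + 1) * y *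
          (a * psi a true + (1 - a) * psi a false) +
        2 ^ (2 * k + 2) * ((x ^ 2) ^ k * y ^ 2 * m2 + (y ^ 2) ^ (k + 1) * mK) := by
      rw [hm2, hmK]
      ring
    rw [g2, hmean, mul_zero, add_zero]
  refine h1.trans ?_
  have h3 := add_pow_ge (A := x ^ 2) (B := 2 ^ (2 * k + 2) * m2 * y ^ 2)
    (C := 4 * (1 + mK) * y ^ 2) (by positivity) (by positivity) (by positivity) k
  have h4 : x ^ 2 + (2 ^ (2 * k + 2) * m2 + 4 * (1 + mK)) * y ^ 2 =
      x ^ 2 + 2 ^ (2 * k + 2) * m2 * y ^ 2 + 4 * (1 + mK) * y ^ 2 := by ring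
  rw [h4]
  refine le_trans ?_ h3
  have h5 : x ^ (2 * k + 2) = (x ^ 2) ^ (k + 1) := by
    rw [← h2k, pow_mul]
  have h6 : 2 ^ (2 * k + 2) * mK * (y ^ 2) ^ (k + 1) ≤ (4 * (1 + mK) * y ^ 2) ^ (k + 1) := by
    rw [mul_pow, mul_pow]
    have h7 : (2 : ℝ) ^ (2 * k + 2) = 4 ^ (k + 1) := by
      rw [← h2k, pow_mul]
      norm_num
    rw [h7]
    have h8 : mK ≤ (1 + mK) ^ (k + 1) := by
      have h9 : 1 + mK ≤ (1 + mK) ^ (k + 1) := by
        have := pow_le_pow_right₀ (a := 1 + mK) (by linarith) (show 1 ≤ k + 1 by omega)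
        rwa [pow_one] at this
      linarith
    gcongr
  rw [h5]
  have h10 : 2 ^ (2 * k + 2) * ((x ^ 2) ^ k * y ^ 2 * m2 + (y ^ 2) ^ (k + 1) * mK) =
      (x ^ 2) ^ k * (2 ^ (2 * k + 2) * m2 * y ^ 2) +
        2 ^ (2 * k + 2) * mK * (y ^ 2) ^ (k + 1) := by ring
  rw [h10]
  linarith

/-! ### hypercontractivity -/

theorem S_nonneg {w : ℝ} (hw : 0 ≤ w) (m : ℕ) (Z : NC) : 0 ≤ S w m Z := by
  induction m generalizing Z with
  | zero => exact sq_nonneg _
  | succ m ih =>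
    rw [S_succ]
    exact add_nonneg (ih _) (mul_nonneg hw (ih _))

theorem minkowski_pos {a : ℝ} (ha0 : 0 ≤ a) (ha1 : a ≤ 1) (m K : ℕ) {g h : List Bool → ℝ}
    (hg : ∀ u, 0 ≤ g u) (hh : ∀ u, 0 ≤ h u) {A B : ℝ} (hA : 0 < A) (hB : 0 < B)
    (hgA : Ex a m (fun u => g u ^ K) ≤ A ^ K) (hhB : Ex a m (fun u => h u ^ K) ≤ B ^ K) :
    Ex a m (fun u => (g u + h u) ^ K) ≤ (A + B) ^ K := by
  have hAB : 0 < A + B := add_pos hA hB
  have hpt : ∀ u, (g u + h u) ^ K ≤ (A + B) ^ K * (A / (A + B) / A ^ K) * g u ^ K +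
      (A + B) ^ K * (B / (A + B) / B ^ K) * h u ^ K := by
    intro u
    have hc1 : (0 : ℝ) ≤ A / (A + B) := by positivity
    have hc2 : (0 : ℝ) ≤ B / (A + B) := by positivity
    have hc3 : A / (A + B) + B / (A + B) = 1 := by field_simp
    have hconv := (convexOn_pow (𝕜 := ℝ) K).2 (Set.mem_Ici.2 (div_nonneg (hg u) hA.le))
      (Set.mem_Ici.2 (div_nonneg (hh u) hB.le)) hc1 hc2 hc3
    simp only [smul_eq_mul] at hconv
    have h1 : A / (A + B) * (g u / A) + B / (A + B) * (h u / B) = (g u + h u) / (A + B) := by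
      field_simp
    rw [h1, div_pow, div_pow, div_pow] at hconv
    have h2 := mul_le_mul_of_nonneg_left hconv (pow_nonneg hAB.le K)
    rw [mul_div_cancel₀ _ (pow_ne_zero K hAB.ne')] at h2
    refine h2.trans (le_of_eq ?_)
    ring
  refine (Ex_mono ha0 ha1 m fun u _ => hpt u).trans ?_
  rw [Ex_add, Ex_smul, Ex_smul]
  have h3 : (A + B) ^ K * (A / (A + B) / A ^ K) * Ex a m (fun u => g u ^ K) ≤
      (A + B) ^ K * (A / (A + B) / A ^ K) * A ^ K :=
    mul_le_mul_of_nonneg_left hgA (by positivity)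
  have h4 : (A + B) ^ K * (B / (A + B) / B ^ K) * Ex a m (fun u => h u ^ K) ≤
      (A + B) ^ K * (B / (A + B) / B ^ K) * B ^ K :=
    mul_le_mul_of_nonneg_left hhB (by positivity)
  refine (add_le_add h3 h4).trans (le_of_eq ?_)
  have h5 : (A + B) ^ K * (A / (A + B) / A ^ K) * A ^ K = (A + B) ^ K * (A / (A + B)) := by
    field_simp
  have h6 : (A + B) ^ K * (B / (A + B) / B ^ K) * B ^ K = (A + B) ^ K * (B / (A + B)) := by
    field_simp
  rw [h5, h6, ← mul_add, ← add_div, div_self hAB.ne', mul_one]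

theorem minkowski {a : ℝ} (ha0 : 0 ≤ a) (ha1 : a ≤ 1) (m K : ℕ) {g h : List Bool → ℝ}
    (hg : ∀ u, 0 ≤ g u) (hh : ∀ u, 0 ≤ h u) {A B : ℝ} (hA : 0 ≤ A) (hB : 0 ≤ B)
    (hgA : Ex a m (fun u => g u ^ K) ≤ A ^ K) (hhB : Ex a m (fun u => h u ^ K) ≤ B ^ K) :
    Ex a m (fun u => (g u + h u) ^ K) ≤ (A + B) ^ K := by
  have h1 : ∀ ε : ℝ, 0 < ε → Ex a m (fun u => (g u + h u) ^ K) ≤ (A + ε + (B + ε)) ^ K := by
    intro ε hε
    refine minkowski_pos ha0 ha1 m K hg hh (by linarith) (by linarith) (hgA.trans ?_)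
      (hhB.trans ?_)
    · exact pow_le_pow_left₀ hA (by linarith) K
    · exact pow_le_pow_left₀ hB (by linarith) K
  have h2 : Filter.Tendsto (fun ε : ℝ => (A + ε + (B + ε)) ^ K) (nhdsWithin 0 (Set.Ioi 0))
      (nhds ((A + 0 + (B + 0)) ^ K)) := by
    apply tendsto_nhdsWithin_of_tendsto_nhds
    have : Continuous fun ε : ℝ => (A + ε + (B + ε)) ^ K := by fun_prop
    exact this.tendsto 0
  have h3 := ge_of_tendsto h2 (by
    filter_upwards [self_mem_nhdsWithin] with ε hε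
    exact h1 ε hε)
  simpa using h3

/-- hypercontractivity: `E (ev Z)^{2K} ≤ (S w m Z)^K`.  Induction on `m` from the two-point
inequality and Minkowski's inequality in `L^K` for nonnegative functions. -/
theorem hyper {a : ℝ} (ha0 : 0 < a) (ha1 : a < 1) {K : ℕ} (hK : 1 ≤ K) :
    ∃ w : ℝ, 0 < w ∧ ∀ (m : ℕ) (Z : NC),
      Ex a m (fun u => (ev a Z u) ^ (2 * K)) ≤ (S w m Z) ^ K := by
  obtain ⟨w, hw, hw2⟩ := two_point ha0 ha1 hK
  refine ⟨w, hw, fun m => ?_⟩
  induction m with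
  | zero =>
    intro Z
    rw [Ex_zero, ev_nil, S_zero_left, pow_mul]
  | succ m ih =>
    intro Z
    rw [Ex_succ, S_succ, ← Ex_smul, ← Ex_smul, ← Ex_add]
    have h1 : Ex a m (fun u => a * ev a Z (true :: u) ^ (2 * K) +
        (1 - a) * ev a Z (false :: u) ^ (2 * K)) ≤
        Ex a m (fun u => (ev a (d false Z) u ^ 2 + w * ev a (d true Z) u ^ 2) ^ K) := by
      refine Ex_mono ha0.le ha1.le m fun u _ => ?_
      rw [ev_cons, ev_cons]
      exact hw2 _ _
    refine h1.trans ?_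
    apply minkowski ha0.le ha1.le m K (g := fun u => ev a (d false Z) u ^ 2)
      (h := fun u => w * ev a (d true Z) u ^ 2) (fun u => sq_nonneg _)
      (fun u => mul_nonneg hw.le (sq_nonneg _)) (S_nonneg hw.le _ _)
      (mul_nonneg hw.le (S_nonneg hw.le _ _))
    · refine le_trans (le_of_eq ?_) (ih (d false Z))
      congr 1
      funext u
      rw [← pow_mul]
    · have h2 : Ex a m (fun u => (w * ev a (d true Z) u ^ 2) ^ K) =
          w ^ K * Ex a m (fun u => ev a (d true Z) u ^ (2 * K)) := by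
        rw [← Ex_smul]
        congr 1
        funext u
        rw [mul_pow, ← pow_mul]
      rw [h2, mul_pow]
      exact mul_le_mul_of_nonneg_left (ih _) (pow_nonneg hw.le K)

/-- pointwise Hellinger bound -/
theorem hell_pointwise {lam x y : ℝ} (hlam : 0 < lam) (hx : 0 ≤ x) (hy : 0 ≤ y) (K : ℕ) :
    (√x - √y) ^ 2 ≤ 2 / lam * (x - y) ^ 2 + lam / 2 * (2 * (x - lam) / lam) ^ (2 * K) := by
  have hsx := Real.sqrt_nonneg x
  have hsy := Real.sqrt_nonneg y
  have hxx := Real.sq_sqrt hx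
  have hyy := Real.sq_sqrt hy
  have hpow : 0 ≤ (2 * (x - lam) / lam) ^ (2 * K) := by
    rw [pow_mul]
    positivity
  rcases le_or_gt (lam / 2) x with h | h
  · have h1 : (√x - √y) ^ 2 ≤ 2 / lam * (x - y) ^ 2 := by
      have h2 : (x - y) ^ 2 = (√x - √y) ^ 2 * (√x + √y) ^ 2 := by
        have : x - y = (√x - √y) * (√x + √y) := by
          nlinarith
        rw [this, mul_pow]
      have h3 : lam / 2 ≤ (√x + √y) ^ 2 := by nlinarith [mul_nonneg hsx hsy]
      rw [h2]
      have h4 : 1 ≤ 2 / lam * (√x + √y) ^ 2 := by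
        have h5 : 2 / lam * (lam / 2) = 1 := by field_simp
        calc (1 : ℝ) = 2 / lam * (lam / 2) := h5.symm
          _ ≤ _ := mul_le_mul_of_nonneg_left h3 (by positivity)
      have h6 : 2 / lam * ((√x - √y) ^ 2 * (√x + √y) ^ 2) =
          (√x - √y) ^ 2 * (2 / lam * (√x + √y) ^ 2) := by ring
      rw [h6]
      exact le_mul_of_one_le_right (sq_nonneg _) h4
    have h7 : 0 ≤ lam / 2 * (2 * (x - lam) / lam) ^ (2 * K) := by positivity
    linarith
  · have h1 : 1 ≤ (2 * (x - lam) / lam) ^ (2 * K) := by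
      rw [pow_mul]
      apply one_le_pow₀
      have h2 : 2 * (x - lam) / lam < -1 := by
        rw [div_lt_iff₀ hlam]
        linarith
      nlinarith
    have h2 : (√x - √y) ^ 2 ≤ |x - y| := by
      have h3 : |x - y| = |√x - √y| * (√x + √y) := by
        have h4 : x - y = (√x - √y) * (√x + √y) := by nlinarith
        rw [h4, abs_mul, abs_of_nonneg (add_nonneg hsx hsy)]
      rw [h3, ← sq_abs, pow_two]
      refine mul_le_mul_of_nonneg_left ?_ (abs_nonneg _)
      rw [abs_le]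
      constructor <;> linarith
    have h3 : |x - y| ≤ 2 / lam * (x - y) ^ 2 + lam / 2 := by
      have h4 : 0 ≤ 2 / lam * (|x - y| - lam / 2) ^ 2 := by positivity
      have h5 : 2 / lam * (|x - y| - lam / 2) ^ 2 =
          2 / lam * (x - y) ^ 2 - 2 * |x - y| + lam / 2 := by
        have h6 : |x - y| ^ 2 = (x - y) ^ 2 := sq_abs _
        have h7 : 2 / lam * (|x - y| - lam / 2) ^ 2 =
            2 / lam * |x - y| ^ 2 - 2 * |x - y| + lam / 2 := by
          field_simp
          ring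
        rw [h7, h6]
      have h8 := abs_nonneg (x - y)
      linarith
    have h4 : lam / 2 ≤ lam / 2 * (2 * (x - lam) / lam) ^ (2 * K) :=
      le_mul_of_one_le_right (by positivity) h1
    linarith

/-- the slice bound -/
theorem slice_bound {a : ℝ} (ha0 : 0 < a) (ha1 : a < 1) {K : ℕ} (hK : 1 ≤ K) :
    ∃ w : ℝ, 0 < w ∧ ∀ (m : ℕ) (Y Z : NC) (lam : ℝ), 0 < lam →
      (∀ u, u.length = m → 0 ≤ ev a Y u) → (∀ u, u.length = m → 0 ≤ ev a Z u) →
      ∀ P : ℝ[X], P.coeff m = lam → ∀ B1 B2 : ℝ,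
      S ((1 - a) / a) m (Y - Z) ≤ B1 * lam ^ 2 → S w m (Y - ι P) ≤ B2 * lam ^ 2 →
      Ex a m (fun u => (√(ev a Y u) - √(ev a Z u)) ^ 2) ≤
        lam * (2 * B1 + 4 ^ K * B2 ^ K) := by
  obtain ⟨w, hw, hw2⟩ := hyper ha0 ha1 hK
  refine ⟨w, hw, fun m Y Z lam hlam hY hZ P hP B1 B2 hB1 hB2 => ?_⟩
  have hB2' : 0 ≤ B2 := by
    have h1 : 0 ≤ B2 * lam ^ 2 := (S_nonneg hw.le _ _).trans hB2
    by_contra hcon
    push Not at hcon
    have : B2 * lam ^ 2 < 0 := mul_neg_of_neg_of_pos hcon (by positivity)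
    linarith
  have h1 : Ex a m (fun u => (√(ev a Y u) - √(ev a Z u)) ^ 2) ≤
      Ex a m (fun u => 2 / lam * (ev a (Y - Z) u) ^ 2 +
        lam / 2 * (2 / lam) ^ (2 * K) * (ev a (Y - ι P) u) ^ (2 * K)) := by
    refine Ex_mono ha0.le ha1.le m fun u hu => ?_
    refine (hell_pointwise hlam (hY u hu) (hZ u hu) K).trans (le_of_eq ?_)
    rw [ev_sub, ev_sub, ev_ι, hu, hP]
    have h2 : 2 * (ev a Y u - lam) / lam = 2 / lam * (ev a Y u - lam) := by ring
    rw [h2, mul_pow]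
    ring
  refine h1.trans ?_
  rw [Ex_add, Ex_smul, Ex_smul, Ex_ev_sq ha0 ha1]
  have h3 : 2 / lam * S ((1 - a) / a) m (Y - Z) ≤ 2 / lam * (B1 * lam ^ 2) :=
    mul_le_mul_of_nonneg_left hB1 (by positivity)
  have h4 : lam / 2 * (2 / lam) ^ (2 * K) * Ex a m (fun u => (ev a (Y - ι P) u) ^ (2 * K)) ≤
      lam / 2 * (2 / lam) ^ (2 * K) * (B2 * lam ^ 2) ^ K := by
    refine mul_le_mul_of_nonneg_left ((hw2 m _).trans ?_) (by positivity)
    exact pow_le_pow_left₀ (S_nonneg hw.le _ _) hB2 K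
  have h5 : 2 / lam * (B1 * lam ^ 2) = lam * (2 * B1) := by
    field_simp
  have h6 : lam / 2 * (2 / lam) ^ (2 * K) * (B2 * lam ^ 2) ^ K = lam / 2 * (4 ^ K * B2 ^ K) := by
    have h7 : (2 / lam) ^ (2 * K) * (B2 * lam ^ 2) ^ K = 4 ^ K * B2 ^ K := by
      rw [pow_mul, ← mul_pow, ← mul_pow]
      congr 1
      field_simp
      ring
    rw [mul_assoc, h7]
  have h8 : 0 ≤ 4 ^ K * B2 ^ K := by positivity
  rw [h5] at h3
  rw [h6] at h4
  nlinarith [mul_nonneg hlam.le h8]

end P321
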