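import Vale.Agent.TR321.Chern

/-! # P321 module Lam: lower bound for the length distribution at its mean -/

namespace P321

open Polynomial

/-- the coefficients of the binomial polynomial -/
theorem coeff_Kp_pow' (s : ℝ) (N k : ℕ) :
    (Kp s ^ N).coeff k = (N.choose k : ℝ) * s ^ k * (1 - s) ^ (N - k) := by
  have h1 : Kp s ^ N = ∑ i ∈ Finset.range (N + 1),
      C ((N.choose i : ℝ) * s ^ i * (1 - s) ^ (N - i)) * X ^ i := by
    unfold Kp
    rw [add_comm, add_pow]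
    refine Finset.sum_congr rfl (fun i _ => ?_)
    rw [mul_pow, ← C_pow, ← C_pow, ← C_eq_natCast, C_mul, C_mul]
    ring
  rw [h1, Polynomial.finsetSum_coeff]
  simp only [coeff_C_mul_X_pow]
  rw [Finset.sum_ite_eq]
  split
  · rfl
  · rename_i h
    rw [Finset.mem_range, not_lt] at h
    rw [Nat.choose_eq_zero_of_lt (by omega)]
    simp

/-- the binomial mass at `k` for the parameter `m / N` -/
noncomputable def bm (N m k : ℕ) : ℝ :=
  (N.choose k : ℝ) * ((m : ℝ) / N) ^ k * (1 - (m : ℝ) / N) ^ (N - k)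

theorem bm_nonneg {N m : ℕ} (hm : m ≤ N) (k : ℕ) : 0 ≤ bm N m k := by
  have h1 : (0 : ℝ) ≤ 1 - (m : ℝ) / N := by
    rw [sub_nonneg]
    exact div_le_one_of_le₀ (by exact_mod_cast hm) (by positivity)
  unfold bm
  positivity

/-- the ratio of neighbouring masses -/
theorem bm_ratio {N m k : ℕ} (hm : m < N) (hk : k < m) :
    bm N m k * ((N - k : ℕ) * m : ℝ) = bm N m (k + 1) * ((k + 1 : ℕ) * (N - m : ℕ) : ℝ) := by
  have hN : (N : ℝ) ≠ 0 := by
    have : 0 < N := by omega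
    positivity
  have e1 : (N.choose (k + 1) : ℝ) * ((k + 1 : ℕ) : ℝ) = (N.choose k : ℝ) * ((N - k : ℕ) : ℝ) := by
    exact_mod_cast Nat.choose_succ_right_eq N k
  have e2 : N - k = (N - (k + 1)) + 1 := by omega
  have e3 : (1 : ℝ) - (m : ℝ) / N = ((N - m : ℕ) : ℝ) / N := by
    rw [Nat.cast_sub hm.le, sub_div, div_self hN]
  unfold bm
  rw [e3]
  have e4 : (((N - m : ℕ) : ℝ) / N) ^ (N - k) =
      (((N - m : ℕ) : ℝ) / N) ^ (N - (k + 1)) * (((N - m : ℕ) : ℝ) / N) := by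
    conv_lhs => rw [e2]
    rw [pow_succ]
  rw [e4, pow_succ]
  have ha : (m : ℝ) = (m : ℝ) / N * N := by field_simp
  have hb : ((N - m : ℕ) : ℝ) = ((N - m : ℕ) : ℝ) / N * N := by field_simp
  generalize (m : ℝ) / N = a at *
  generalize ((N - m : ℕ) : ℝ) / N = b at *
  rw [ha, hb]
  linear_combination (-(a ^ k * a * b ^ (N - (k + 1)) * b * N)) * e1

theorem bm_step {c : ℝ} (hc : 0 < c) {N m k : ℕ} (hm : m < N) (hk : k < m)
    (h1 : c * N ≤ m) (h2 : (m : ℝ) ≤ (1 - c) * N) :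
    (1 - 2 * ((m : ℝ) - k) / (c * N)) * bm N m (k + 1) ≤ bm N m k := by
  have hb := bm_nonneg hm.le (k + 1)
  have hN : (0 : ℝ) < N := by
    have : 0 < N := by omega
    positivity
  have hcN : 0 < c * N := by positivity
  have hNk : ((N - k : ℕ) : ℝ) = N - k := Nat.cast_sub (by omega)
  have hNm : ((N - m : ℕ) : ℝ) = N - m := Nat.cast_sub hm.le
  have hkm : (k : ℝ) + 1 ≤ m := by exact_mod_cast hk
  have hm0 : (0 : ℝ) < m := by
    have : (0 : ℝ) ≤ k := by positivity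
    linarith
  have hNk0 : (0 : ℝ) < N - k := by
    have : (m : ℝ) < N := by exact_mod_cast hm
    linarith
  have hr := bm_ratio hm hk
  rw [hNk, hNm] at hr
  push_cast at hr
  have e : bm N m k = bm N m (k + 1) * (((k : ℝ) + 1) / m * ((N - m) / (N - k))) := by
    have : (N - k : ℝ) * m ≠ 0 := by positivity
    field_simp
    linear_combination hr
  rw [e, mul_comm]
  refine mul_le_mul_of_nonneg_left ?_ hb
  have a1 : ((k : ℝ) + 1) / m = 1 - (m - k - 1) / m := by field_simp; ring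
  have a2 : ((N : ℝ) - m) / (N - k) = 1 - (m - k) / (N - k) := by
    have : (N : ℝ) - k ≠ 0 := hNk0.ne'
    field_simp; ring
  have a3 : ((m : ℝ) - k - 1) / m ≤ (m - k) / (c * N) :=
    div_le_div₀ (by linarith) (by linarith) hcN h1
  have a4 : ((m : ℝ) - k) / (N - k) ≤ (m - k) / (c * N) :=
    div_le_div_of_nonneg_left (by linarith) hcN (by nlinarith)
  have a5 : 0 ≤ ((m : ℝ) - k - 1) / m := div_nonneg (by linarith) hm0.le
  have a6 : 0 ≤ ((m : ℝ) - k) / (N - k) := div_nonneg (by linarith) hNk0.le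
  rw [a1, a2]
  have a7 : 2 * ((m : ℝ) - k) / (c * N) = (m - k) / (c * N) + (m - k) / (c * N) := by ring
  rw [a7]
  nlinarith [mul_nonneg a5 a6]

theorem bm_shift {c : ℝ} (hc : 0 < c) {N m : ℕ} (hm : m < N)
    (h1 : c * N ≤ m) (h2 : (m : ℝ) ≤ (1 - c) * N) (j : ℕ) (hj : j ≤ m) :
    (1 - (j : ℝ) * (j + 1) / (c * N)) * bm N m m ≤ bm N m (m - j) := by
  have hN : (0 : ℝ) < N := by
    have : 0 < N := by omega
    positivity
  have hcN : 0 < c * N := by positivity
  have hb := bm_nonneg hm.le m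
  induction j with
  | zero => simp
  | succ j ih =>
    have ih' := ih (by omega)
    have hs := bm_step hc hm (k := m - (j + 1)) (by omega) h1 h2
    have e1 : m - (j + 1) + 1 = m - j := by omega
    have e2 : (m : ℝ) - ((m - (j + 1) : ℕ) : ℝ) = j + 1 := by
      rw [Nat.cast_sub hj]; push_cast; ring
    rw [e1, e2] at hs
    have hbj := bm_nonneg hm.le (m - j)
    have hbj1 := bm_nonneg hm.le (m - (j + 1))
    push_cast
    set A : ℝ := 2 * ((j : ℝ) + 1) / (c * N) with hA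
    set B : ℝ := (j : ℝ) * (j + 1) / (c * N) with hB
    have hA0 : 0 ≤ A := by positivity
    have hB0 : 0 ≤ B := by positivity
    have e3 : ((j : ℝ) + 1) * (j + 1 + 1) / (c * N) = A + B := by
      rw [hA, hB]; ring
    rw [e3]
    by_cases hneg : 1 - A < 0
    · have : (1 - (A + B)) * bm N m m ≤ 0 :=
        mul_nonpos_of_nonpos_of_nonneg (by linarith) hb
      exact this.trans hbj1
    · push Not at hneg
      calc (1 - (A + B)) * bm N m m ≤ ((1 - A) * (1 - B)) * bm N m m := by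
            refine mul_le_mul_of_nonneg_right ?_ hb
            nlinarith [mul_nonneg hA0 hB0]
        _ = (1 - A) * ((1 - B) * bm N m m) := by ring
        _ ≤ (1 - A) * bm N m (m - j) := mul_le_mul_of_nonneg_left ih' hneg
        _ ≤ bm N m (m - (j + 1)) := hs

/-- an upper bound for factorials -/
theorem factorial_le_stirling' {n : ℕ} (hn : n ≠ 0) :
    (n.factorial : ℝ) ≤ Real.exp 1 * √(n : ℝ) * ((n : ℝ) / Real.exp 1) ^ n := by
  obtain ⟨k, rfl⟩ := Nat.exists_eq_succ_of_ne_zero hn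
  have h1 : Stirling.stirlingSeq (k + 1) ≤ Stirling.stirlingSeq 1 :=
    Stirling.stirlingSeq'_antitone (Nat.zero_le k)
  rw [Stirling.stirlingSeq_one] at h1
  unfold Stirling.stirlingSeq at h1
  have h2 : 0 < √(2 * ((k + 1 : ℕ) : ℝ)) * (((k + 1 : ℕ) : ℝ) / Real.exp 1) ^ (k + 1) := by
    positivity
  rw [div_le_iff₀ h2] at h1
  refine h1.trans (le_of_eq ?_)
  rw [Real.sqrt_mul (by norm_num)]
  have h3 : √2 ≠ 0 := by positivity
  field_simp

theorem le_factorial' (n : ℕ) :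
    √(n : ℝ) * ((n : ℝ) / Real.exp 1) ^ n ≤ (n.factorial : ℝ) := by
  refine le_trans ?_ (Stirling.le_factorial_stirling n)
  refine mul_le_mul_of_nonneg_right ?_ (by positivity)
  apply Real.sqrt_le_sqrt
  have : (0 : ℝ) ≤ n := by positivity
  nlinarith [Real.pi_gt_three]

/-- the mass at the mode -/
theorem bm_mode {N m : ℕ} (hm0 : 0 < m) (hm : m < N) : 1 / (9 * √(N : ℝ)) ≤ bm N m m := by
  obtain ⟨r, rfl⟩ : ∃ r, N = m + r := ⟨N - m, by omega⟩
  have hr0 : 0 < r := by omega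
  have hE := Real.exp_pos 1
  have hmR : (0 : ℝ) < m := by exact_mod_cast hm0
  have hrR : (0 : ℝ) < r := by exact_mod_cast hr0
  have hfm : (0 : ℝ) < m.factorial := by exact_mod_cast m.factorial_pos
  have hfr : (0 : ℝ) < r.factorial := by exact_mod_cast r.factorial_pos
  have hch : ((m + r).choose m : ℝ) * (m.factorial * r.factorial) = (m + r).factorial := by
    have := Nat.choose_mul_factorial_mul_factorial (Nat.le_add_right m r)
    rw [Nat.add_sub_cancel_left] at this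
    rw [← mul_assoc]
    exact_mod_cast this
  have h1 : ((1 : ℝ) - (m : ℝ) / ((m + r : ℕ) : ℝ)) = (r : ℝ) / ((m + r : ℕ) : ℝ) := by
    push_cast
    have : (m : ℝ) + r ≠ 0 := by positivity
    field_simp
    ring
  have hsub : m + r - m = r := by omega
  unfold bm
  rw [h1, hsub]
  set n : ℕ := m + r with hn
  have hnR : (0 : ℝ) < n := by rw [hn]; push_cast; positivity
  have hsn : 0 < √(n : ℝ) := Real.sqrt_pos.mpr hnR
  have hup1 := factorial_le_stirling' hm0.ne'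
  have hup2 := factorial_le_stirling' hr0.ne'
  have hlow := le_factorial' n
  have hch' : (n.choose m : ℝ) = n.factorial / (m.factorial * r.factorial) := by
    rw [eq_div_iff (by positivity)]; exact hch
  rw [hch']
  -- the key inequality
  have key : √(n : ℝ) * (m.factorial * r.factorial : ℝ) ≤
      Real.exp 1 ^ 2 * (√(n : ℝ) * √(n : ℝ)) * ((n.factorial : ℝ) *
        ((m : ℝ) / n) ^ m * ((r : ℝ) / n) ^ r) := by
    have hA : (m.factorial * r.factorial : ℝ) ≤
        (Real.exp 1 * √(m : ℝ) * ((m : ℝ) / Real.exp 1) ^ m) *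
        (Real.exp 1 * √(r : ℝ) * ((r : ℝ) / Real.exp 1) ^ r) :=
      mul_le_mul hup1 hup2 hfr.le (by positivity)
    have hmn : √(m : ℝ) ≤ √(n : ℝ) := Real.sqrt_le_sqrt (by rw [hn]; push_cast; linarith)
    have hrn : √(r : ℝ) ≤ √(n : ℝ) := Real.sqrt_le_sqrt (by rw [hn]; push_cast; linarith)
    have hB : (Real.exp 1 * √(m : ℝ) * ((m : ℝ) / Real.exp 1) ^ m) *
        (Real.exp 1 * √(r : ℝ) * ((r : ℝ) / Real.exp 1) ^ r) ≤
        Real.exp 1 ^ 2 * (√(n : ℝ) * √(n : ℝ)) *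
          (((m : ℝ) / Real.exp 1) ^ m * ((r : ℝ) / Real.exp 1) ^ r) := by
      have : √(m : ℝ) * √(r : ℝ) ≤ √(n : ℝ) * √(n : ℝ) :=
        mul_le_mul hmn hrn (by positivity) (by positivity)
      calc _ = Real.exp 1 ^ 2 * (√(m : ℝ) * √(r : ℝ)) *
          (((m : ℝ) / Real.exp 1) ^ m * ((r : ℝ) / Real.exp 1) ^ r) := by ring
        _ ≤ _ := by gcongr
    have hC : ((m : ℝ) / Real.exp 1) ^ m * ((r : ℝ) / Real.exp 1) ^ r =
        ((n : ℝ) / Real.exp 1) ^ n * (((m : ℝ) / n) ^ m * ((r : ℝ) / n) ^ r) := by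
      rw [hn, pow_add, ← hn]
      rw [div_pow, div_pow, div_pow, div_pow, div_pow, div_pow]
      field_simp
    calc √(n : ℝ) * (m.factorial * r.factorial : ℝ)
        ≤ √(n : ℝ) * (Real.exp 1 ^ 2 * (√(n : ℝ) * √(n : ℝ)) *
          (((m : ℝ) / Real.exp 1) ^ m * ((r : ℝ) / Real.exp 1) ^ r)) :=
          mul_le_mul_of_nonneg_left (hA.trans hB) hsn.le
      _ = Real.exp 1 ^ 2 * (√(n : ℝ) * √(n : ℝ)) *
          ((√(n : ℝ) * ((n : ℝ) / Real.exp 1) ^ n) * (((m : ℝ) / n) ^ m * ((r : ℝ) / n) ^ r)) := by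
          rw [hC]; ring
      _ ≤ Real.exp 1 ^ 2 * (√(n : ℝ) * √(n : ℝ)) *
          ((n.factorial : ℝ) * (((m : ℝ) / n) ^ m * ((r : ℝ) / n) ^ r)) := by gcongr
      _ = _ := by ring
  have he9 : Real.exp 1 ^ 2 ≤ 9 := by
    have h3 : Real.exp 1 ≤ 3 := by
      have := Real.exp_one_lt_d9
      linarith
    nlinarith
  set Y : ℝ := (n.factorial : ℝ) * ((m : ℝ) / n) ^ m * ((r : ℝ) / n) ^ r with hY
  have hY0 : 0 ≤ Y := by rw [hY]; positivity
  have goal1 : (m.factorial * r.factorial : ℝ) ≤ 9 * √(n : ℝ) * Y := by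
    have k2 : √(n : ℝ) * (m.factorial * r.factorial : ℝ) ≤ √(n : ℝ) * (9 * √(n : ℝ) * Y) := by
      refine key.trans ?_
      calc Real.exp 1 ^ 2 * (√(n : ℝ) * √(n : ℝ)) * Y ≤ 9 * (√(n : ℝ) * √(n : ℝ)) * Y := by
            gcongr
        _ = √(n : ℝ) * (9 * √(n : ℝ) * Y) := by ring
    exact le_of_mul_le_mul_left k2 hsn
  have e4 : (n.factorial : ℝ) / (m.factorial * r.factorial) * ((m : ℝ) / n) ^ m *
      ((r : ℝ) / n) ^ r = Y / (m.factorial * r.factorial) := by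
    rw [hY]; ring
  rw [e4, div_le_div_iff₀ (by positivity) (by positivity)]
  linarith

theorem sum_coeff_Kp_pow {f : ℝ} {v m : ℕ} (hv : v ≤ m) :
    ∑ j ∈ Finset.range (m + 1), (Kp f ^ v).coeff j = 1 := by
  have h1 : (Kp f ^ v).natDegree < m + 1 := by
    have h2 : (Kp f).natDegree ≤ 1 := by
      unfold Kp
      refine (natDegree_add_le _ _).trans ?_
      simp only [natDegree_C]
      refine max_le (Nat.zero_le _) ((natDegree_C_mul_le _ _).trans natDegree_X_le)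
    have h3 : (Kp f ^ v).natDegree ≤ v * 1 := natDegree_pow_le_of_le v h2
    omega
  have h4 := Polynomial.eval_eq_sum_range' h1 (1 : ℝ)
  simp only [one_pow, mul_one] at h4
  rw [← h4]
  simp [Kp]

/-- `m = N s`; the binomial mode has mass `≥ c/√N` (Chebyshev with `bernsteinPolynomial.variance`),
neighbouring masses have ratio `≥ 1 - C (i+1)/N`, and `coeff_m (K^N Φ^v) = ∑_j Φ^v_j K^N_{m-j}`. -/
theorem lam_lower {c : ℝ} (hc : 0 < c) :
    ∃ c1 : ℝ, 0 < c1 ∧ ∃ N0 : ℕ, ∀ N : ℕ, N0 ≤ N → ∀ v : ℕ, (v : ℝ) ^ 2 ≤ c1 * N →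
      ∀ m : ℕ, c * N ≤ m → (m : ℝ) ≤ (1 - c) * N → ∀ f : ℝ, 0 ≤ f → f ≤ 1 →
      c1 / √(N : ℝ) ≤ (Kp ((m : ℝ) / N) ^ N * Kp f ^ v).coeff m := by
  refine ⟨min (c / 4) (1 / 18), by positivity, ⌈1 / c⌉₊ + 1, ?_⟩
  intro N hN0 v hv m h1 h2 f hf0 hf1
  set c1 : ℝ := min (c / 4) (1 / 18) with hc1
  have hc1a : c1 ≤ c / 4 := min_le_left _ _
  have hc1b : c1 ≤ 1 / 18 := min_le_right _ _
  have hc10 : 0 < c1 := by rw [hc1]; positivity
  have hNr : 1 / c < N := by
    have a : 1 / c ≤ ⌈1 / c⌉₊ := Nat.le_ceil _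
    have b : ((⌈1 / c⌉₊ : ℕ) : ℝ) + 1 ≤ N := by exact_mod_cast hN0
    linarith
  have hN : (0 : ℝ) < N := lt_trans (by positivity) hNr
  have hcN : 1 < c * N := by
    rw [div_lt_iff₀ hc] at hNr
    linarith
  have hm0 : 0 < m := by
    have : (0 : ℝ) < m := by linarith
    exact_mod_cast this
  have hmN : m < N := by
    have : (m : ℝ) < N := by nlinarith
    exact_mod_cast this
  have hvm : v ≤ m := by
    by_contra hcon
    push Not at hcon
    have h3 : (m : ℝ) < v := by exact_mod_cast hcon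
    have h4 : (m : ℝ) ^ 2 < (v : ℝ) ^ 2 := by
      have : (0 : ℝ) < m := by exact_mod_cast hm0
      nlinarith
    have h5 : (c * N) ≤ (m : ℝ) ^ 2 := by nlinarith
    nlinarith
  have hsN : 0 < √(N : ℝ) := Real.sqrt_pos.mpr hN
  -- the bound for each term
  have hterm : ∀ j ≤ v, c1 / √(N : ℝ) ≤ (Kp ((m : ℝ) / N) ^ N).coeff (m - j) := by
    intro j hj
    rw [coeff_Kp_pow']
    change c1 / √(N : ℝ) ≤ bm N m (m - j)
    have hb := bm_shift hc hmN h1 h2 j (hj.trans hvm)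
    have hmode := bm_mode hm0 hmN
    have hjv : (j : ℝ) * (j + 1) ≤ 2 * (v : ℝ) ^ 2 := by
      rcases Nat.eq_zero_or_pos j with h0 | h0
      · subst h0; simp
      · have a : (1 : ℝ) ≤ j := by exact_mod_cast h0
        have b : (j : ℝ) ≤ v := by exact_mod_cast hj
        nlinarith
    have hhalf : (j : ℝ) * (j + 1) / (c * N) ≤ 1 / 2 := by
      rw [div_le_iff₀ (by positivity)]
      have : c1 * N ≤ c / 4 * N := mul_le_mul_of_nonneg_right hc1a hN.le
      nlinarith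
    have hbm0 := bm_nonneg hmN.le m
    calc c1 / √(N : ℝ) ≤ (1 / 18) / √(N : ℝ) := by gcongr
      _ = 1 / 2 * (1 / (9 * √(N : ℝ))) := by field_simp; norm_num
      _ ≤ 1 / 2 * bm N m m := by gcongr
      _ ≤ (1 - (j : ℝ) * (j + 1) / (c * N)) * bm N m m :=
          mul_le_mul_of_nonneg_right (by linarith) hbm0
      _ ≤ bm N m (m - j) := hb
  have hQ0 : ∀ j, 0 ≤ (Kp f ^ v).coeff j := by
    intro j
    rw [coeff_Kp_pow']
    have : 0 ≤ 1 - f := by linarith
    positivity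
  have hQv : ∀ j, v < j → (Kp f ^ v).coeff j = 0 := by
    intro j hj
    rw [coeff_Kp_pow', Nat.choose_eq_zero_of_lt hj]
    simp
  rw [mul_comm, Polynomial.coeff_mul,
    Finset.Nat.sum_antidiagonal_eq_sum_range_succ_mk]
  calc c1 / √(N : ℝ) = ∑ j ∈ Finset.range (m + 1), (Kp f ^ v).coeff j * (c1 / √(N : ℝ)) := by
        rw [← Finset.sum_mul, sum_coeff_Kp_pow hvm, one_mul]
    _ ≤ ∑ j ∈ Finset.range (m + 1), (Kp f ^ v).coeff j * (Kp ((m : ℝ) / N) ^ N).coeff (m - j) := by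
        refine Finset.sum_le_sum (fun j _ => ?_)
        by_cases hj : j ≤ v
        · exact mul_le_mul_of_nonneg_left (hterm j hj) (hQ0 j)
        · rw [hQv j (not_le.mp hj)]; simp

/-- Exponential smallness away from the mean. -/
theorem lam_tail {s f : ℝ} (hs0 : 0 < s) (hs1 : s < 1) (hf0 : 0 < f) (hf1 : f < 1) {η : ℝ}
    (hη : 0 < η) :
    ∃ c2 : ℝ, 0 < c2 ∧ ∀ N v m : ℕ, v ≤ N → η * N ≤ |(m : ℝ) - (N * s + v * f)| →
      (Kp s ^ N * Kp f ^ v).coeff m ≤ Real.exp (-c2 * N) := by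
  set x0 : ℝ := min 1 (η / 4) with hx0
  have hx00 : 0 < x0 := by rw [hx0]; positivity
  have hx01 : x0 ≤ 1 := min_le_left _ _
  have hx0η : x0 ≤ η / 4 := min_le_right _ _
  refine ⟨x0 * η / 2, by positivity, ?_⟩
  intro N v m hv h
  have hvN : (v : ℝ) ≤ N := by exact_mod_cast hv
  have hN : (0 : ℝ) ≤ N := by positivity
  have hv0 : (0 : ℝ) ≤ v := by positivity
  have hμ : (N * s + v * f : ℝ) ≤ 2 * N := by nlinarith
  have hμ0 : (0 : ℝ) ≤ N * s + v * f := by positivity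
  have main : ∀ x : ℝ, |x| = x0 → x0 * (η * N) ≤ x * ((m : ℝ) - (N * s + v * f)) →
      (Kp s ^ N * Kp f ^ v).coeff m ≤ Real.exp (-(x0 * η / 2) * N) := by
    intro x hx hx2
    refine (chernoff hs0.le hs1.le hf0.le hf1.le N v m (x := x) (by rw [hx]; exact hx01)).trans ?_
    apply Real.exp_le_exp.mpr
    have hxx : x ^ 2 = x0 ^ 2 := by rw [← sq_abs, hx]
    rw [hxx]
    have h5 : (N * s + v * f) * x0 ^ 2 ≤ 2 * N * (x0 * (η / 4)) := by
      refine mul_le_mul hμ ?_ (by positivity) (by positivity)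
      rw [pow_two]
      exact mul_le_mul_of_nonneg_left hx0η hx00.le
    nlinarith
  rcases abs_cases ((m : ℝ) - (N * s + v * f)) with ⟨ha, _⟩ | ⟨ha, _⟩
  · rw [ha] at h
    exact main x0 (abs_of_pos hx00) (mul_le_mul_of_nonneg_left h hx00.le)
  · rw [ha] at h
    refine main (-x0) (by rw [abs_neg, abs_of_pos hx00]) ?_
    have := mul_le_mul_of_nonneg_left h hx00.le
    linarith

end P321
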