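import Vale.Agent.TR321.Hyper

/-! # P321 module TraceNC: trace laws as noncommutative power series, data processing

Here the two letters of `NC` are the bits `false = 0`, `true = 1` (for trace laws) or the symbols
`true = A` (a lone `1`), `false = B` (the `0` of a block, possibly followed by its `1`) (for symbol
laws). -/

namespace P321

open Polynomial NC Finset

/-- sum over words of length `m` -/
noncomputable def sumL : ℕ → (List Bool → ℝ) → ℝ
  | 0, g => g []
  | (m + 1), g => sumL m (fun u => g (true :: u)) + sumL m (fun u => g (false :: u))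

/-- sum over words of length `≤ Y` -/
noncomputable def tot (Y : ℕ) (g : List Bool → ℝ) : ℝ := ∑ m ∈ range (Y + 1), sumL m g

/-- affinity restricted to words of length `≤ Y` -/
noncomputable def aff (Y : ℕ) (P Q : NC) : ℝ := tot Y (fun u => √(P u * Q u))

/-- law of the trace of `x` as a function on words -/
noncomputable def tr (q : ℝ) : List Bool → NC
  | [] => 1
  | (b :: x) => (q • (1 : NC) + (1 - q) • ltr b) * tr q x

theorem tr_append (q : ℝ) (x y : List Bool) : tr q (x ++ y) = tr q x * tr q y := by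
  induction x with
  | nil => simp [tr]
  | cons b x ih => rw [List.cons_append, tr, tr, ih, mul_assoc]

theorem sumL_add (m : ℕ) (g h : List Bool → ℝ) :
    sumL m (fun u => g u + h u) = sumL m g + sumL m h := by
  induction m generalizing g h with
  | zero => rfl
  | succ m ih => simp only [sumL, ih]; ring

theorem sumL_smul (m : ℕ) (c : ℝ) (g : List Bool → ℝ) :
    sumL m (fun u => c * g u) = c * sumL m g := by
  induction m generalizing g with
  | zero => rfl
  | succ m ih => simp only [sumL, ih]; ring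

theorem sumL_mono (m : ℕ) {g h : List Bool → ℝ} (hgh : ∀ u, g u ≤ h u) :
    sumL m g ≤ sumL m h := by
  induction m generalizing g h with
  | zero => exact hgh _
  | succ m ih => exact add_le_add (ih fun u => hgh _) (ih fun u => hgh _)

theorem sumL_nonneg (m : ℕ) {g : List Bool → ℝ} (hg : ∀ u, 0 ≤ g u) : 0 ≤ sumL m g := by
  induction m generalizing g with
  | zero => exact hg _
  | succ m ih => exact add_nonneg (ih fun u => hg _) (ih fun u => hg _)

theorem tot_zero_eq (g : List Bool → ℝ) : tot 0 g = g [] := by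
  simp [tot, sumL]

theorem tot_succ (Y : ℕ) (g : List Bool → ℝ) :
    tot (Y + 1) g = g [] + tot Y (fun u => g (true :: u)) + tot Y (fun u => g (false :: u)) := by
  unfold tot
  rw [sum_range_succ']
  simp only [sumL, sum_add_distrib]
  ring

theorem tot_mono {Y : ℕ} {g h : List Bool → ℝ} (hgh : ∀ u, g u ≤ h u) : tot Y g ≤ tot Y h :=
  sum_le_sum fun m _ => sumL_mono m hgh

theorem tot_le_tot {Y Y' : ℕ} (h : Y ≤ Y') {g : List Bool → ℝ} (hg : ∀ u, 0 ≤ g u) :
    tot Y g ≤ tot Y' g := by
  unfold tot
  apply sum_le_sum_of_subset_of_nonneg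
  · intro m hm
    simp only [mem_range] at hm ⊢
    omega
  · intro m _ _
    exact sumL_nonneg m hg

theorem tot_add (Y : ℕ) (g h : List Bool → ℝ) :
    tot Y (fun u => g u + h u) = tot Y g + tot Y h := by
  unfold tot
  rw [← sum_add_distrib]
  exact sum_congr rfl fun m _ => sumL_add m g h

theorem tot_smul (Y : ℕ) (c : ℝ) (g : List Bool → ℝ) :
    tot Y (fun u => c * g u) = c * tot Y g := by
  unfold tot
  rw [mul_sum]
  exact sum_congr rfl fun m _ => sumL_smul m c g

theorem tot_lin (Y : ℕ) (c c' : ℝ) (g h : List Bool → ℝ) :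
    tot Y (fun u => c * g u + c' * h u) = c * tot Y g + c' * tot Y h := by
  rw [tot_add Y (fun u => c * g u) (fun u => c' * h u), tot_smul, tot_smul]

theorem tot_zero_fun (Y : ℕ) : tot Y (fun _ => (0 : ℝ)) = 0 := by
  have := tot_smul Y 0 (fun _ => (0 : ℝ))
  simpa using this

/-- the general one letter operator applied to `Z` -/
theorem op_nil (c0 c1 c2 : ℝ) (Z : NC) :
    ((c0 • (1 : NC) + c1 • ltr true + c2 • ltr false) * Z) [] = c0 * Z [] := by
  simp

theorem op_true (c0 c1 c2 : ℝ) (Z : NC) (u : List Bool) :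
    ((c0 • (1 : NC) + c1 • ltr true + c2 • ltr false) * Z) (true :: u) =
      c0 * Z (true :: u) + c1 * Z u := by
  simp [mul_cons]

theorem op_false (c0 c1 c2 : ℝ) (Z : NC) (u : List Bool) :
    ((c0 • (1 : NC) + c1 • ltr true + c2 • ltr false) * Z) (false :: u) =
      c0 * Z (false :: u) + c2 * Z u := by
  simp [mul_cons]

theorem ltrOp_eq (q : ℝ) (b : Bool) :
    q • (1 : NC) + (1 - q) • ltr b =
      q • (1 : NC) + (if b then 1 - q else 0) • ltr true + (if b then 0 else 1 - q) • ltr false := by
  cases b <;> simp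

theorem op_nonneg {c0 c1 c2 : ℝ} (h0 : 0 ≤ c0) (h1 : 0 ≤ c1) (h2 : 0 ≤ c2) {Z : NC}
    (hZ : ∀ u, 0 ≤ Z u) (u : List Bool) :
    0 ≤ ((c0 • (1 : NC) + c1 • ltr true + c2 • ltr false) * Z) u := by
  rcases u with _ | ⟨b, u⟩
  · rw [op_nil]; exact mul_nonneg h0 (hZ _)
  · cases b
    · rw [op_false]; exact add_nonneg (mul_nonneg h0 (hZ _)) (mul_nonneg h2 (hZ _))
    · rw [op_true]; exact add_nonneg (mul_nonneg h0 (hZ _)) (mul_nonneg h1 (hZ _))

theorem tot_op (c0 c1 c2 : ℝ) (Z : NC) (Y : ℕ) :
    tot (Y + 1) ((c0 • (1 : NC) + c1 • ltr true + c2 • ltr false) * Z) =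
      c0 * tot (Y + 1) Z + (c1 + c2) * tot Y Z := by
  change tot (Y + 1) (fun u => ((c0 • (1 : NC) + c1 • ltr true + c2 • ltr false) * Z) u) =
    c0 * tot (Y + 1) (fun u => Z u) + (c1 + c2) * tot Y (fun u => Z u)
  rw [tot_succ, tot_succ Y (fun u => Z u)]
  simp only [op_nil, op_true, op_false]
  have e1 := tot_lin Y c0 c1 (fun u => Z (true :: u)) (fun u => Z u)
  have e2 := tot_lin Y c0 c2 (fun u => Z (false :: u)) (fun u => Z u)
  rw [e1, e2]
  ring

theorem tr_nonneg {q : ℝ} (h0 : 0 ≤ q) (h1 : q ≤ 1) (x u : List Bool) : 0 ≤ tr q x u := by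
  induction x generalizing u with
  | nil =>
    rcases u with _ | ⟨b, u⟩
    · simp [tr]
    · simp [tr]
  | cons b x ih =>
    rw [tr, ltrOp_eq]
    apply op_nonneg h0 _ _ ih
    · split_ifs <;> linarith
    · split_ifs <;> linarith

theorem tr_eq_zero (q : ℝ) {x u : List Bool} (h : x.length < u.length) : tr q x u = 0 := by
  induction x generalizing u with
  | nil =>
    rcases u with _ | ⟨b, u⟩
    · simp at h
    · simp [tr]
  | cons b x ih =>
    rcases u with _ | ⟨c, u⟩
    · simp at h
    · rw [tr, ltrOp_eq]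
      simp only [List.length_cons] at h
      have e1 : tr q x (c :: u) = 0 := ih (by simp only [List.length_cons]; omega)
      have e2 : tr q x u = 0 := ih (by omega)
      cases c
      · rw [op_false, e1, e2]; simp
      · rw [op_true, e1, e2]; simp

theorem tot_one (Y : ℕ) : tot Y (1 : NC) = 1 := by
  change tot Y (fun u => (1 : NC) u) = 1
  cases Y with
  | zero => rw [tot_zero_eq]; rfl
  | succ Y =>
    rw [tot_succ]
    simp only [one_nil, one_cons, tot_zero_fun]
    norm_num

theorem tot_tr (q : ℝ) {x : List Bool} {Y : ℕ} (h : x.length ≤ Y) : tot Y (tr q x) = 1 := by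
  induction x generalizing Y with
  | nil => exact tot_one Y
  | cons b x ih =>
    rcases Y with _ | Y
    · simp at h
    · simp only [List.length_cons] at h
      rw [tr, ltrOp_eq, tot_op, ih (by omega), ih (by omega)]
      split_ifs <;> ring

theorem sqrt_mix {c1 c2 x y x' y' : ℝ} (h1 : 0 ≤ c1) (h2 : 0 ≤ c2) (hx : 0 ≤ x) (hy : 0 ≤ y)
    (hx' : 0 ≤ x') (hy' : 0 ≤ y') :
    c1 * √(x * x') + c2 * √(y * y') ≤ √((c1 * x + c2 * y) * (c1 * x' + c2 * y')) := by
  apply Real.le_sqrt_of_sq_le
  have e1 : √(x * x') ^ 2 = x * x' := Real.sq_sqrt (mul_nonneg hx hx')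
  have e2 : √(y * y') ^ 2 = y * y' := Real.sq_sqrt (mul_nonneg hy hy')
  have e3 : √(x * x') * √(y * y') ≤ (x * y' + y * x') / 2 := by
    rw [← Real.sqrt_mul (mul_nonneg hx hx')]
    rw [Real.sqrt_le_left (by positivity)]
    nlinarith [sq_nonneg (x * y' - y * x')]
  have h12 : 0 ≤ c1 * c2 := mul_nonneg h1 h2
  have e4 := mul_le_mul_of_nonneg_left e3 h12
  have e5 : (c1 * √(x * x') + c2 * √(y * y')) ^ 2 =
      c1 ^ 2 * (x * x') + c2 ^ 2 * (y * y') + 2 * (c1 * c2 * (√(x * x') * √(y * y'))) := by
    have e6 : (c1 * √(x * x') + c2 * √(y * y')) ^ 2 =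
      c1 ^ 2 * √(x * x') ^ 2 + c2 ^ 2 * √(y * y') ^ 2 +
        2 * (c1 * c2 * (√(x * x') * √(y * y'))) := by ring
    rw [e6, e1, e2]
  rw [e5]
  nlinarith [e4]

/-- prefixing a letter does not decrease the affinity -/
theorem aff_letter {q : ℝ} (h0 : 0 ≤ q) (h1 : q ≤ 1) (b : Bool) (Y : ℕ) {P Q : NC}
    (hP : ∀ u, 0 ≤ P u) (hQ : ∀ u, 0 ≤ Q u) :
    aff Y P Q ≤ aff (Y + 1) ((q • (1 : NC) + (1 - q) • ltr b) * P)
      ((q • (1 : NC) + (1 - q) • ltr b) * Q) := by
  have hq : 0 ≤ 1 - q := by linarith
  set c1 : ℝ := if b then 1 - q else 0 with hc1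
  set c2 : ℝ := if b then 0 else 1 - q with hc2
  have hc1' : 0 ≤ c1 := by rw [hc1]; split_ifs <;> linarith
  have hc2' : 0 ≤ c2 := by rw [hc2]; split_ifs <;> linarith
  have hsum : c1 + c2 = 1 - q := by rw [hc1, hc2]; split_ifs <;> ring
  rw [ltrOp_eq, ← hc1, ← hc2]
  let R : NC := fun u => √(P u * Q u)
  have key : tot (Y + 1) ((q • (1 : NC) + c1 • ltr true + c2 • ltr false) * R) ≤
      aff (Y + 1) ((q • (1 : NC) + c1 • ltr true + c2 • ltr false) * P)
        ((q • (1 : NC) + c1 • ltr true + c2 • ltr false) * Q) := by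
    apply tot_mono
    intro u
    rcases u with _ | ⟨c, u⟩
    · rw [op_nil, op_nil, op_nil]
      have := sqrt_mix h0 le_rfl (hP []) (le_refl (0 : ℝ)) (hQ []) (le_refl (0 : ℝ))
      simpa using this
    · cases c
      · rw [op_false, op_false, op_false]
        exact sqrt_mix h0 hc2' (hP _) (hP _) (hQ _) (hQ _)
      · rw [op_true, op_true, op_true]
        exact sqrt_mix h0 hc1' (hP _) (hP _) (hQ _) (hQ _)
  refine le_trans ?_ key
  rw [tot_op, hsum]
  change tot Y (fun u => √(P u * Q u)) ≤ q * tot (Y + 1) (fun u => √(P u * Q u)) +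
    (1 - q) * tot Y (fun u => √(P u * Q u))
  have hmono : tot Y (fun u => √(P u * Q u)) ≤ tot (Y + 1) (fun u => √(P u * Q u)) :=
    tot_le_tot (Nat.le_succ Y) fun u => Real.sqrt_nonneg _
  have := mul_le_mul_of_nonneg_left hmono h0
  linarith [this]

/-- The substitution `A ↦ [1]`, `B ↦ q [0] + (1-q) [0,1]`. -/
noncomputable def Sub (q : ℝ) : List Bool → NC → ℝ
  | [], Z => Z []
  | (true :: u), Z => Sub q u (d true Z)
  | [false], Z => q * Sub q [] (d false Z)
  | (false :: false :: u), Z => q * Sub q (false :: u) (d false Z)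
  | (false :: true :: u), Z => q * Sub q (true :: u) (d false Z) + (1 - q) * Sub q u (d false Z)

noncomputable def SubNC (q : ℝ) (Z : NC) : NC := fun u => Sub q u Z

theorem SubNC_nil (q : ℝ) (Z : NC) : SubNC q Z [] = Z [] := by
  simp [SubNC, Sub]

theorem d_true_SubNC (q : ℝ) (Z : NC) : d true (SubNC q Z) = SubNC q (d true Z) := by
  ext u
  simp [SubNC, Sub]

theorem d_false_SubNC (q : ℝ) (Z : NC) :
    d false (SubNC q Z) = (q • (1 : NC) + (1 - q) • ltr true) * SubNC q (d false Z) := by
  ext u
  rcases u with _ | ⟨c, u⟩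
  · simp [SubNC, Sub]
  · cases c
    · simp [SubNC, Sub, mul_cons]
    · simp [SubNC, Sub, mul_cons]

theorem Sub_add (q : ℝ) (u : List Bool) (Y Z : NC) :
    Sub q u (Y + Z) = Sub q u Y + Sub q u Z := by
  induction h : u.length using Nat.strong_induction_on generalizing u Y Z with
  | _ n ih =>
    match u, h with
    | [], _ => simp [Sub]
    | (true :: u), h => 
      simp only [Sub, d_add]
      exact ih _ (by rw [← h]; simp) _ _ _ rfl
    | [false], _ => simp only [Sub, d_add, NC.add_apply]; ring
    | (false :: false :: u), h =>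
      simp only [Sub, d_add]
      rw [ih _ (by rw [← h]; simp) (false :: u) _ _ rfl]; ring
    | (false :: true :: u), h => 
      simp only [Sub, d_add]
      rw [ih u.length (by rw [← h]; simp) u (d true (d false Y)) _ rfl,
        ih u.length (by rw [← h]; simp) u (d false Y) _ rfl]; ring

theorem Sub_smul (q c : ℝ) (u : List Bool) (Z : NC) :
    Sub q u (c • Z) = c * Sub q u Z := by
  induction h : u.length using Nat.strong_induction_on generalizing u Z with
  | _ n ih =>
    match u, h with
    | [], _ => simp [Sub]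
    | (true :: u), h =>
      simp only [Sub, d_smul]
      exact ih _ (by rw [← h]; simp) _ _ rfl
    | [false], _ => simp only [Sub, d_smul, NC.smul_apply]; ring
    | (false :: false :: u), h =>
      simp only [Sub, d_smul]
      rw [ih _ (by rw [← h]; simp) (false :: u) _ rfl]; ring
    | (false :: true :: u), h =>
      simp only [Sub, d_smul]
      rw [ih u.length (by rw [← h]; simp) u (d true (d false Z)) rfl,
        ih u.length (by rw [← h]; simp) u (d false Z) rfl]; ring

theorem SubNC_add (q : ℝ) (Y Z : NC) : SubNC q (Y + Z) = SubNC q Y + SubNC q Z := by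
  ext u; exact Sub_add q u Y Z

theorem SubNC_smul (q c : ℝ) (Z : NC) : SubNC q (c • Z) = c • SubNC q Z := by
  ext u; exact Sub_smul q c u Z

theorem SubNC_zero (q : ℝ) : SubNC q 0 = 0 := by
  have := SubNC_smul q 0 0
  simpa using this

theorem ltrTrue_congr (q : ℝ) {A B : NC} {n : ℕ} (h : ∀ u : List Bool, u.length ≤ n → A u = B u)
    (u : List Bool) (hu : u.length ≤ n) :
    ((q • (1 : NC) + (1 - q) • ltr true) * A) u = ((q • (1 : NC) + (1 - q) • ltr true) * B) u := by
  rw [ltrOp_eq]
  rcases u with _ | ⟨b, u⟩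
  · rw [op_nil, op_nil, h _ hu]
  · have hu' : u.length ≤ n := le_trans (by simp) hu
    cases b
    · rw [op_false, op_false, h _ hu, h _ hu']
    · rw [op_true, op_true, h _ hu, h _ hu']

theorem SubNC_mul (q : ℝ) (Y Z : NC) : SubNC q (Y * Z) = SubNC q Y * SubNC q Z := by
  have key : ∀ n : ℕ, ∀ Y : NC, ∀ u : List Bool, u.length ≤ n →
      SubNC q (Y * Z) u = (SubNC q Y * SubNC q Z) u := by
    intro n
    induction n with
    | zero =>
      intro Y u hu
      have : u = [] := by simpa using hu
      subst this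
      simp [SubNC_nil]
    | succ n ih =>
      intro Y u hu
      rcases u with _ | ⟨b, u⟩
      · simp [SubNC_nil]
      · have hu' : u.length ≤ n := by simpa using hu
        rw [← d_apply b (SubNC q (Y * Z)) u, ← d_apply b (SubNC q Y * SubNC q Z) u]
        cases b
        · rw [d_false_SubNC, d_mul, d_mul, d_false_SubNC, d_false_SubNC, SubNC_add, SubNC_smul,
            SubNC_nil, mul_add, mul_smul_comm, NC.add_apply, NC.add_apply, mul_assoc]
          rw [ltrTrue_congr q (ih (d false Y)) u hu']
        · rw [d_true_SubNC, d_mul, d_mul, d_true_SubNC, d_true_SubNC, SubNC_add, SubNC_smul,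
            SubNC_nil, NC.add_apply, NC.add_apply, ih (d true Y) u hu']
  ext u
  exact key u.length Y u le_rfl

theorem SubNC_one (q : ℝ) : SubNC q 1 = 1 := by
  ext u
  rcases u with _ | ⟨b, u⟩
  · simp [SubNC_nil]
  · rw [← d_apply b (SubNC q 1) u]
    cases b
    · rw [d_false_SubNC, d_one, SubNC_zero]; simp
    · rw [d_true_SubNC, d_one, SubNC_zero]; simp

theorem SubNC_nonneg {q : ℝ} (h0 : 0 ≤ q) (h1 : q ≤ 1) {Z : NC} (hZ : ∀ u, 0 ≤ Z u)
    (u : List Bool) : 0 ≤ SubNC q Z u := by
  have key : ∀ n : ℕ, ∀ Z : NC, (∀ u, 0 ≤ Z u) → ∀ u : List Bool, u.length ≤ n →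
      0 ≤ SubNC q Z u := by
    intro n
    induction n with
    | zero =>
      intro Z hZ u hu
      have : u = [] := by simpa using hu
      subst this
      rw [SubNC_nil]; exact hZ _
    | succ n ih =>
      intro Z hZ u hu
      rcases u with _ | ⟨b, u⟩
      · rw [SubNC_nil]; exact hZ _
      · have hu' : u.length ≤ n := by simpa using hu
        rw [← d_apply b (SubNC q Z) u]
        cases b
        · rw [d_false_SubNC, ltrOp_eq]
          rcases u with _ | ⟨c, u⟩
          · rw [op_nil]
            exact mul_nonneg h0 (ih (d false Z) (fun u => hZ _) _ hu')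
          · have hu'' : u.length ≤ n := le_trans (by simp) hu'
            have a1 := ih (d false Z) (fun u => hZ _) _ hu'
            have a2 := ih (d false Z) (fun u => hZ _) _ hu''
            cases c
            · rw [op_false]
              apply add_nonneg (mul_nonneg h0 a1) (mul_nonneg _ a2)
              simp
            · rw [op_true]
              apply add_nonneg (mul_nonneg h0 a1) (mul_nonneg _ a2)
              simpa using h1
        · rw [d_true_SubNC]
          exact ih (d true Z) (fun u => hZ _) u hu'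
  exact key u.length Z hZ u le_rfl

theorem aff_succ (Y : ℕ) (P Q : NC) :
    aff (Y + 1) P Q = √(P [] * Q []) + aff Y (d true P) (d true Q) +
      aff Y (d false P) (d false Q) := by
  unfold aff
  rw [tot_succ]
  rfl

theorem aff_mono_len {Y Y' : ℕ} (h : Y ≤ Y') (P Q : NC) : aff Y P Q ≤ aff Y' P Q :=
  tot_le_tot h fun _ => Real.sqrt_nonneg _

/-- data processing for the substitution -/
theorem aff_SubNC {q : ℝ} (h0 : 0 ≤ q) (h1 : q ≤ 1) (Y : ℕ) {P Q : NC}
    (hP : ∀ u, 0 ≤ P u) (hQ : ∀ u, 0 ≤ Q u) :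
    aff Y P Q ≤ aff (2 * Y) (SubNC q P) (SubNC q Q) := by
  induction Y generalizing P Q with
  | zero =>
    unfold aff
    rw [mul_zero, tot_zero_eq, tot_zero_eq, SubNC_nil, SubNC_nil]
  | succ Y ih =>
    have e : 2 * (Y + 1) = (2 * Y + 1) + 1 := by ring
    rw [e, aff_succ, aff_succ, SubNC_nil, SubNC_nil, d_true_SubNC, d_true_SubNC, d_false_SubNC,
      d_false_SubNC]
    have i1 := ih (P := d true P) (Q := d true Q) (fun u => hP _) (fun u => hQ _)
    have i2 := ih (P := d false P) (Q := d false Q) (fun u => hP _) (fun u => hQ _)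
    have i3 := aff_mono_len (Nat.le_succ (2 * Y)) (SubNC q (d true P)) (SubNC q (d true Q))
    have i4 := aff_letter h0 h1 true (2 * Y) (P := SubNC q (d false P))
      (Q := SubNC q (d false Q)) (SubNC_nonneg h0 h1 fun u => hP _)
      (SubNC_nonneg h0 h1 fun u => hQ _)
    have i3' : aff (2 * Y) (SubNC q (d true P)) (SubNC q (d true Q)) ≤
        aff (2 * Y + 1) (SubNC q (d true P)) (SubNC q (d true Q)) := i3
    linarith

/-- symbol law of a background block `K = 01` -/
noncomputable def symK (q : ℝ) : NC :=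
  q ^ 2 • (1 : NC) + (q * (1 - q)) • ltr true + (1 - q) • ltr false

/-- symbol law of a planted block `F = 1` -/
noncomputable def symF (q : ℝ) : NC := q • (1 : NC) + (1 - q) • ltr true

theorem nc_ext_d {f g : NC} (h0 : f [] = g []) (ht : d true f = d true g)
    (hf : d false f = d false g) : f = g := by
  ext u
  rcases u with _ | ⟨b, u⟩
  · exact h0
  · cases b
    · exact congrFun hf u
    · exact congrFun ht u

theorem SubNC_ltr_true (q : ℝ) : SubNC q (ltr true) = ltr true := by
  apply nc_ext_d
  · rw [SubNC_nil]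
  · rw [d_true_SubNC, d_true_x1, SubNC_one]
  · rw [d_false_SubNC, d_false_x1, SubNC_zero, mul_zero]

theorem SubNC_ltr_false (q : ℝ) :
    SubNC q (ltr false) = ltr false * (q • (1 : NC) + (1 - q) • ltr true) := by
  apply nc_ext_d
  · rw [SubNC_nil]; simp
  · rw [d_true_SubNC, d_true_x0, SubNC_zero, d_true_x0_mul]
  · rw [d_false_SubNC, d_false_x0, SubNC_one, mul_one, d_false_x0_mul]

theorem SubNC_symK (q : ℝ) : SubNC q (symK q) = tr q [false, true] := by
  unfold symK
  rw [SubNC_add, SubNC_add, SubNC_smul, SubNC_smul, SubNC_smul, SubNC_one, SubNC_ltr_true,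
    SubNC_ltr_false]
  simp only [tr, mul_one, add_mul, mul_add, smul_mul_assoc, mul_smul_comm, one_mul, smul_add,
    smul_smul]
  rw [pow_two]
  module

theorem SubNC_symF (q : ℝ) : SubNC q (symF q) = tr q [true] := by
  unfold symF
  rw [SubNC_add, SubNC_smul, SubNC_smul, SubNC_one, SubNC_ltr_true]
  simp only [tr, mul_one]

/-- the bit string of a block word (`false = K`, `true = F`) -/
def bits (W : List Bool) : List Bool := W.flatMap (fun b => if b then [true] else [false, true])

/-- the symbol law of a block word -/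
noncomputable def symLaw (q : ℝ) (W : List Bool) : NC :=
  (W.map (fun b => if b then symF q else symK q)).prod

theorem symLaw_cons (q : ℝ) (b : Bool) (W : List Bool) :
    symLaw q (b :: W) = (if b then symF q else symK q) * symLaw q W := by
  simp [symLaw]

theorem SubNC_symLaw (q : ℝ) (W : List Bool) : SubNC q (symLaw q W) = tr q (bits W) := by
  induction W with
  | nil => simp only [symLaw, bits, List.map_nil, List.prod_nil, List.flatMap_nil, tr, SubNC_one]
  | cons b W ih =>
    rw [symLaw_cons, SubNC_mul, ih]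
    have : bits (b :: W) = (if b then [true] else [false, true]) ++ bits W := by
      simp [bits]
    rw [this, tr_append]
    cases b
    · simp only [Bool.false_eq_true, if_false]
      rw [SubNC_symK]
    · simp only [if_true]
      rw [SubNC_symF]

theorem symOp_eq (q : ℝ) (b : Bool) :
    (if b then symF q else symK q) =
      (if b then q else q ^ 2) • (1 : NC) + (if b then 1 - q else q * (1 - q)) • ltr true +
        (if b then 0 else 1 - q) • ltr false := by
  cases b <;> simp [symF, symK]

theorem symLaw_nonneg {q : ℝ} (h0 : 0 ≤ q) (h1 : q ≤ 1) (W u : List Bool) :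
    0 ≤ symLaw q W u := by
  have hq : 0 ≤ 1 - q := by linarith
  induction W generalizing u with
  | nil =>
    rcases u with _ | ⟨b, u⟩
    · simp [symLaw]
    · simp [symLaw]
  | cons b W ih =>
    rw [symLaw_cons, symOp_eq]
    apply op_nonneg _ _ _ ih
    · split_ifs <;> positivity
    · split_ifs
      · exact hq
      · exact mul_nonneg h0 hq
    · split_ifs
      · exact le_rfl
      · exact hq

theorem tot_symLaw (q : ℝ) {W : List Bool} {Y : ℕ} (h : W.length ≤ Y) :
    tot Y (symLaw q W) = 1 := by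
  induction W generalizing Y with
  | nil =>
    have : symLaw q [] = 1 := by simp [symLaw]
    rw [this]
    exact tot_one Y
  | cons b W ih =>
    rcases Y with _ | Y
    · simp at h
    · simp only [List.length_cons] at h
      rw [symLaw_cons, symOp_eq, tot_op, ih (by omega), ih (by omega)]
      split_ifs <;> ring

/-- density weight of a word under independent bits -/
noncomputable def kap (a : ℝ) : List Bool → ℝ
  | [] => 1
  | (b :: u) => (if b then a else 1 - a) * kap a u

/-- the mask expansion of a block word -/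
noncomputable def maskLaw (s f : ℝ) (W : List Bool) : NC :=
  (W.map (fun b => if b then Fn f else ι (Kp s))).prod

/-- change of basis -/
noncomputable def TT (a : ℝ) (Z : NC) : NC := fun u => kap a u * ev a Z u

theorem TT_nil (a : ℝ) (Z : NC) : TT a Z [] = Z [] := by
  simp [TT, kap, ev]

theorem TT_add (a : ℝ) (Y Z : NC) : TT a (Y + Z) = TT a Y + TT a Z := by
  ext u
  simp only [TT, NC.add_apply, ev_add, mul_add]

theorem TT_smul (a c : ℝ) (Z : NC) : TT a (c • Z) = c • TT a Z := by
  ext u
  simp only [TT, NC.smul_apply, ev_smul]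
  ring

theorem TT_zero (a : ℝ) : TT a 0 = 0 := by
  have := TT_smul a 0 0
  simpa using this

theorem d_TT (a : ℝ) (b : Bool) (Z : NC) :
    d b (TT a Z) = (if b then a else 1 - a) • (TT a (d false Z) + psi a b • TT a (d true Z)) := by
  ext u
  simp only [TT, NC.add_apply, NC.smul_apply, d_apply, kap, ev]
  ring

theorem TT_mul (a : ℝ) (Y Z : NC) : TT a (Y * Z) = TT a Y * TT a Z := by
  ext u
  induction u generalizing Y with
  | nil => simp [TT_nil]
  | cons b u ih =>
    rw [← d_apply b (TT a (Y * Z)) u, ← d_apply b (TT a Y * TT a Z) u, d_TT, d_mul, d_mul, d_mul,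
      d_TT, d_TT, TT_add, TT_add, TT_smul, TT_smul, TT_nil]
    simp only [NC.add_apply, NC.smul_apply, ih, add_mul, smul_mul_assoc]
    ring

theorem TT_one (a : ℝ) : TT a 1 = 1 := by
  apply nc_ext_d
  · rw [TT_nil]
  · rw [d_TT, d_one, d_one, TT_zero]; simp
  · rw [d_TT, d_one, d_one, TT_zero]; simp

theorem TT_x0 (a : ℝ) : TT a x0 = a • ltr true + (1 - a) • ltr false := by
  apply nc_ext_d
  · rw [TT_nil]; simp
  · rw [d_TT, d_false_x0, d_true_x0, TT_zero, TT_one, smul_zero, add_zero]; simp
  · rw [d_TT, d_false_x0, d_true_x0, TT_zero, TT_one, smul_zero, add_zero]; simp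

theorem TT_x1 {a : ℝ} (ha : a ≠ 0) : TT a x1 = (1 - a) • ltr true - (1 - a) • ltr false := by
  apply nc_ext_d
  · rw [TT_nil]; simp
  · rw [d_TT, d_false_x1, d_true_x1, TT_zero, TT_one, zero_add]
    simp only [if_true, psi, smul_smul, d_sub, d_smul, d_true_x1, d_true_x0, smul_zero, sub_zero]
    rw [mul_div_cancel₀ _ ha]
  · rw [d_TT, d_false_x1, d_true_x1, TT_zero, TT_one, zero_add]
    simp [psi]

theorem TT_K {q : ℝ} (h0 : 0 < q) :
    TT (q / (1 + q)) (ι (Kp (1 - q ^ 2))) = symK q := by
  have hq : (1 + q) ≠ 0 := by positivity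
  unfold Kp symK
  rw [map_add, map_mul, ι_C, ι_C, ι_X, smul_mul_assoc, one_mul, TT_add, TT_smul, TT_smul, TT_one,
    TT_x0, smul_add, smul_smul, smul_smul]
  have e1 : (1 - q ^ 2) * (q / (1 + q)) = q * (1 - q) := by field_simp; ring
  have e2 : (1 - q ^ 2) * (1 - q / (1 + q)) = 1 - q := by field_simp; ring
  rw [e1, e2]
  have e3 : 1 - (1 - q ^ 2) = q ^ 2 := by ring
  rw [e3]
  abel

theorem TT_F {q : ℝ} (h0 : 0 < q) :
    TT (q / (1 + q)) (Fn (1 - q)) = symF q := by
  have hq : (1 + q) ≠ 0 := by positivity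
  have ha : q / (1 + q) ≠ 0 := by positivity
  unfold Fn Kp symF
  rw [map_add, map_mul, ι_C, ι_C, ι_X, smul_mul_assoc, one_mul, TT_add, TT_add, TT_smul, TT_smul,
    TT_smul, TT_one, TT_x0, TT_x1 ha]
  module

/-- `law = κ^{⊗m} · ev` with `a = q/(1+q)` -/
theorem symLaw_eq {q : ℝ} (h0 : 0 < q) (h1 : q < 1) (W u : List Bool) :
    symLaw q W u = kap (q / (1 + q)) u * ev (q / (1 + q)) (maskLaw (1 - q ^ 2) (1 - q) W) u := by
  have key : symLaw q W = TT (q / (1 + q)) (maskLaw (1 - q ^ 2) (1 - q) W) := by
    induction W with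
    | nil => simp [symLaw, maskLaw, TT_one]
    | cons b W ih =>
      have : maskLaw (1 - q ^ 2) (1 - q) (b :: W) =
          (if b then Fn (1 - q) else ι (Kp (1 - q ^ 2))) * maskLaw (1 - q ^ 2) (1 - q) W := by
        simp [maskLaw]
      rw [symLaw_cons, ih, this, TT_mul]
      cases b
      · simp only [Bool.false_eq_true, if_false]
        rw [TT_K h0]
      · simp only [if_true]
        rw [TT_F h0]
  rw [key]
  rfl

theorem sumL_kap (a : ℝ) (m : ℕ) (g : List Bool → ℝ) :
    sumL m (fun u => kap a u * g u) = Ex a m g := by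
  induction m generalizing g with
  | zero => simp [sumL, kap, Ex]
  | succ m ih =>
    simp only [sumL, kap, Ex, if_true, Bool.false_eq_true, if_false]
    have e1 := sumL_smul m a (fun u => kap a u * g (true :: u))
    have e2 := sumL_smul m (1 - a) (fun u => kap a u * g (false :: u))
    simp only [mul_assoc]
    rw [e1, e2, ih (fun u => g (true :: u)), ih (fun u => g (false :: u))]

end P321
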