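import Vale.Agent.TR321.Model
import Vale.Agent.TR321.TraceNC

/-! # P321 module LeCam: two-point lower bound -/

namespace P321

open Polynomial NC Finset

theorem lc_trace_cons_true {n : ℕ} (x : Fin (n + 1) → Bool) (k : Fin n → Bool) :
    trace x (Fin.cons true k) = x 0 :: trace (fun i => x i.succ) k := by
  unfold trace
  rw [List.finRange_succ, List.filter_cons_of_pos (by simp), List.filter_map, List.map_cons,
    List.map_map]
  rfl

theorem lc_trace_cons_false {n : ℕ} (x : Fin (n + 1) → Bool) (k : Fin n → Bool) :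
    trace x (Fin.cons false k) = trace (fun i => x i.succ) k := by
  unfold trace
  rw [List.finRange_succ, List.filter_cons_of_neg (by simp), List.filter_map, List.map_map]
  rfl

theorem lc_patProb_cons (q : ℝ) {n : ℕ} (b : Bool) (k : Fin n → Bool) :
    patProb q (Fin.cons b k : Fin (n + 1) → Bool) = (if b then 1 - q else q) * patProb q k := by
  unfold patProb
  rw [Fin.prod_univ_succ]
  simp

theorem lc_tr_nil (q : ℝ) (b : Bool) (x : List Bool) : tr q (b :: x) [] = q * tr q x [] := by
  change ((q • (1 : NC) + (1 - q) • ltr b) * tr q x) [] = _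
  rw [mul_nil]
  simp

theorem lc_tr_cons (q : ℝ) (b : Bool) (x : List Bool) (c : Bool) (u : List Bool) :
    tr q (b :: x) (c :: u) = q * tr q x (c :: u) + (if c = b then (1 - q) * tr q x u else 0) := by
  change ((q • (1 : NC) + (1 - q) • ltr b) * tr q x) (c :: u) = _
  rw [mul_cons]
  have h1 : (q • (1 : NC) + (1 - q) • ltr b) [] = q := by simp
  rw [h1]
  congr 1
  by_cases h : c = b
  · subst h
    have h2 : d c (q • (1 : NC) + (1 - q) • ltr c) = (1 - q) • (1 : NC) := by
      rw [d_add, d_smul, d_smul, d_one, d_ltr_self]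
      simp
    rw [h2, if_pos rfl, smul_mul_assoc, one_mul]
    rfl
  · have h2 : d c (q • (1 : NC) + (1 - q) • ltr b) = 0 := by
      rw [d_add, d_smul, d_smul, d_one, d_ltr_ne h]
      simp
    rw [h2, if_neg h, zero_mul]
    rfl

/-- the law of the trace of `x` is `tr q (List.ofFn x)` -/
theorem sum_patProb_trace (q : ℝ) {n : ℕ} (x : Fin n → Bool) (u : List Bool) :
    ∑ keep : Fin n → Bool, (if trace x keep = u then patProb q keep else 0) =
      tr q (List.ofFn x) u := by
  induction n generalizing u with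
  | zero =>
    rw [Fintype.sum_unique]
    have h1 : ∀ k : Fin 0 → Bool, trace x k = [] := fun k => rfl
    have h2 : ∀ k : Fin 0 → Bool, patProb q k = 1 := fun k => by simp [patProb]
    rw [h1, h2, List.ofFn_zero]
    cases u with
    | nil => rfl
    | cons b u => simp [tr]
  | succ n ih =>
    rw [← (Fin.consEquiv (fun _ : Fin (n + 1) => Bool)).sum_comp, Fintype.sum_prod_type,
      Fintype.sum_bool]
    have e1 : ∀ k : Fin n → Bool, (Fin.consEquiv (fun _ : Fin (n + 1) => Bool)) (true, k) =
        Fin.cons true k := fun _ => rfl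
    have e2 : ∀ k : Fin n → Bool, (Fin.consEquiv (fun _ : Fin (n + 1) => Bool)) (false, k) =
        Fin.cons false k := fun _ => rfl
    simp only [e1, e2, lc_trace_cons_true, lc_trace_cons_false, lc_patProb_cons, if_true,
      Bool.false_eq_true, if_false]
    rw [List.ofFn_succ]
    have h0 : ∑ k : Fin n → Bool, (if trace (fun i => x i.succ) k = u then q * patProb q k else 0) =
        q * tr q (List.ofFn fun i => x i.succ) u := by
      rw [← ih, Finset.mul_sum]
      refine Finset.sum_congr rfl fun k _ => ?_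
      split_ifs <;> simp
    rw [h0]
    cases u with
    | nil =>
      rw [lc_tr_nil]
      simp
    | cons c u =>
      rw [lc_tr_cons, add_comm]
      congr 1
      by_cases h : c = x 0
      · subst h
        rw [if_pos rfl, ← ih, Finset.mul_sum]
        refine Finset.sum_congr rfl fun k _ => ?_
        simp only [List.cons.injEq, true_and]
        split_ifs <;> simp
      · rw [if_neg h]
        refine Finset.sum_eq_zero fun k _ => ?_
        rw [if_neg]
        intro hcon
        exact h (List.cons.inj hcon).1.symm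

/-- words of length `m` -/
def lcW : ℕ → Finset (List Bool)
  | 0 => {[]}
  | (m + 1) => (lcW m).image (List.cons true) ∪ (lcW m).image (List.cons false)

theorem lcW_len {m : ℕ} {u : List Bool} : u ∈ lcW m ↔ u.length = m := by
  induction m generalizing u with
  | zero => simp [lcW, List.length_eq_zero_iff]
  | succ m ih =>
    simp only [lcW, Finset.mem_union, Finset.mem_image]
    constructor
    · rintro (⟨v, hv, rfl⟩ | ⟨v, hv, rfl⟩) <;> simp [ih.1 hv]
    · intro h
      cases u with
      | nil => simp at h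
      | cons b v =>
        have hv : v.length = m := by simpa using h
        cases b
        · exact Or.inr ⟨v, ih.2 hv, rfl⟩
        · exact Or.inl ⟨v, ih.2 hv, rfl⟩

theorem lcW_sum (m : ℕ) (g : List Bool → ℝ) : sumL m g = ∑ u ∈ lcW m, g u := by
  induction m generalizing g with
  | zero => simp [sumL, lcW]
  | succ m ih =>
    rw [sumL, ih, ih, lcW, Finset.sum_union, Finset.sum_image, Finset.sum_image]
    · exact fun _ _ _ _ h => (List.cons.inj h).2
    · exact fun _ _ _ _ h => (List.cons.inj h).2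
    · rw [Finset.disjoint_left]
      intro u h1 h2
      obtain ⟨v, -, rfl⟩ := Finset.mem_image.1 h1
      obtain ⟨v', -, h⟩ := Finset.mem_image.1 h2
      simp at h

/-- words of length at most `Y` -/
def lcV (Y : ℕ) : Finset (List Bool) := (range (Y + 1)).biUnion lcW

theorem mem_lcV {Y : ℕ} {u : List Bool} : u ∈ lcV Y ↔ u.length ≤ Y := by
  simp [lcV, lcW_len]

theorem lcV_sum (Y : ℕ) (g : List Bool → ℝ) : tot Y g = ∑ u ∈ lcV Y, g u := by
  unfold tot lcV
  rw [Finset.sum_biUnion]
  · exact Finset.sum_congr rfl fun m _ => lcW_sum m g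
  · intro a _ b _ hab
    rw [Function.onFun, Finset.disjoint_left]
    intro u h1 h2
    exact hab ((lcW_len.1 h1).symm.trans (lcW_len.1 h2))

theorem lc_length_trace {n : ℕ} (x : Fin n → Bool) (k : Fin n → Bool) :
    (trace x k).length ≤ n := by
  unfold trace
  rw [List.length_map]
  exact (List.length_filter_le _ _).trans (by simp)

/-- the success probability as a sum over trace values -/
theorem lc_success (q : ℝ) {n m : ℕ} (est : (Fin m → List Bool) → (Fin n → Bool) → ℝ)
    (x : Fin n → Bool) {Y : ℕ} (hY : n ≤ Y) :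
    successProb q est x = ∑ t ∈ Fintype.piFinset (fun _ : Fin m => lcV Y),
      (∏ j, tr q (List.ofFn x) (t j)) * est t x := by
  classical
  unfold successProb
  have h1 : ∀ K : Fin m → Fin n → Bool, (∏ j, patProb q (K j)) * est (fun j => trace x (K j)) x =
      ∑ t ∈ Fintype.piFinset (fun _ : Fin m => lcV Y),
        (∏ j, (if trace x (K j) = t j then patProb q (K j) else 0)) * est t x := by
    intro K
    rw [Finset.sum_eq_single (fun j => trace x (K j))]
    · simp
    · intro t _ hne
      obtain ⟨j, hj⟩ : ∃ j, trace x (K j) ≠ t j := by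
        by_contra hcon
        push Not at hcon
        exact hne (funext fun j => (hcon j).symm)
      rw [Finset.prod_eq_zero (Finset.mem_univ j) (if_neg hj), zero_mul]
    · intro hcon
      refine absurd (Fintype.mem_piFinset.2 fun j => ?_) hcon
      exact mem_lcV.2 ((lc_length_trace x (K j)).trans hY)
  rw [Finset.sum_congr rfl fun K _ => h1 K, Finset.sum_comm]
  refine Finset.sum_congr rfl fun t _ => ?_
  rw [← Finset.sum_mul]
  congr 1
  rw [← Finset.prod_congr rfl fun j _ => sum_patProb_trace q x (t j), Finset.prod_univ_sum]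
  refine Finset.sum_congr ?_ fun _ _ => rfl
  ext K
  simp

/-- Le Cam's two-point bound with the affinity: if `m` traces suffice then
`1 - 2√2/3 ≤ m (1 - ρ)`. -/
theorem leCam {q : ℝ} (h0 : 0 ≤ q) (h1 : q ≤ 1) {n m : ℕ} (hrec : Reconstructible q n m)
    {x y : Fin n → Bool} (hxy : x ≠ y) (Y : ℕ) :
    1 - 2 * √2 / 3 ≤ m * (1 - aff Y (tr q (List.ofFn x)) (tr q (List.ofFn y))) := by
  classical
  set P : List Bool → ℝ := tr q (List.ofFn x) with hP
  set R : List Bool → ℝ := tr q (List.ofFn y) with hR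
  have hP0 : ∀ u, 0 ≤ P u := tr_nonneg h0 h1 _
  have hR0 : ∀ u, 0 ≤ R u := tr_nonneg h0 h1 _
  set Z : ℕ := max Y n with hZ
  set W : Finset (List Bool) := lcV Z with hW
  have hPW : ∑ u ∈ W, P u = 1 := by
    rw [hW, ← lcV_sum]
    exact tot_tr q (by rw [List.length_ofFn]; exact le_max_right _ _)
  have hRW : ∑ u ∈ W, R u = 1 := by
    rw [hW, ← lcV_sum]
    exact tot_tr q (by rw [List.length_ofFn]; exact le_max_right _ _)
  set ρ : ℝ := ∑ u ∈ W, √(P u * R u) with hρ
  have haff : aff Y P R ≤ ρ := by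
    rw [hρ, hW, ← lcV_sum]
    exact tot_le_tot (le_max_left _ _) fun u => Real.sqrt_nonneg _
  have hρ0 : 0 ≤ ρ := Finset.sum_nonneg fun u _ => Real.sqrt_nonneg _
  obtain ⟨est, ⟨he0, he1⟩, hs⟩ := hrec
  have hsx := hs x
  have hsy := hs y
  rw [lc_success q est x (le_max_right Y n)] at hsx
  rw [lc_success q est y (le_max_right Y n)] at hsy
  set T : Finset (Fin m → List Bool) := Fintype.piFinset (fun _ : Fin m => W) with hT
  have hprod : ∀ g : List Bool → ℝ, ∑ t ∈ T, ∏ j, g (t j) = (∑ u ∈ W, g u) ^ m := by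
    intro g
    rw [hT, ← Finset.prod_univ_sum]
    simp
  have hTP : ∑ t ∈ T, ∏ j, P (t j) = 1 := by rw [hprod, hPW, one_pow]
  have hTR : ∑ t ∈ T, ∏ j, R (t j) = 1 := by rw [hprod, hRW, one_pow]
  have hTρ : ∑ t ∈ T, ∏ j, √(P (t j) * R (t j)) = ρ ^ m := hprod fun u => √(P u * R u)
  -- the pointwise inequality
  have hpt : ∀ t : Fin m → List Bool, ∏ j, √(P (t j) * R (t j)) ≤
      (√2 / 2) * (∏ j, P (t j)) - (√2 / 4) * ((∏ j, P (t j)) * est t x) +
      ((√2 / 2) * (∏ j, R (t j)) - (√2 / 4) * ((∏ j, R (t j)) * est t y)) := by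
    intro t
    have ha0 : 0 ≤ ∏ j, P (t j) := Finset.prod_nonneg fun j _ => hP0 _
    have hb0 : 0 ≤ ∏ j, R (t j) := Finset.prod_nonneg fun j _ => hR0 _
    have hab : ∏ j, √(P (t j) * R (t j)) = √(∏ j, P (t j)) * √(∏ j, R (t j)) := by
      have hPs : √(∏ j, P (t j)) = ∏ j, √(P (t j)) := by
        rw [Real.sqrt_eq_iff_mul_self_eq ha0 (Finset.prod_nonneg fun j _ => Real.sqrt_nonneg _),
          ← Finset.prod_mul_distrib]
        exact Finset.prod_congr rfl fun j _ => (Real.mul_self_sqrt (hP0 _)).symm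
      have hRs : √(∏ j, R (t j)) = ∏ j, √(R (t j)) := by
        rw [Real.sqrt_eq_iff_mul_self_eq hb0 (Finset.prod_nonneg fun j _ => Real.sqrt_nonneg _),
          ← Finset.prod_mul_distrib]
        exact Finset.prod_congr rfl fun j _ => (Real.mul_self_sqrt (hR0 _)).symm
      rw [hPs, hRs, ← Finset.prod_mul_distrib]
      exact Finset.prod_congr rfl fun j _ => Real.sqrt_mul (hP0 _) _
    rw [hab]
    set a : ℝ := ∏ j, P (t j) with ha
    set b : ℝ := ∏ j, R (t j) with hb
    have hsum : est t x + est t y ≤ 1 := by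
      rw [← he1 t, ← Finset.sum_pair (f := fun z => est t z) hxy]
      exact Finset.sum_le_sum_of_subset_of_nonneg (Finset.subset_univ _) fun z _ _ => he0 t z
    have hex := he0 t x
    have hey := he0 t y
    have hsa : √a ^ 2 = a := Real.sq_sqrt ha0
    have hsb : √b ^ 2 = b := Real.sq_sqrt hb0
    have h2 : √2 ^ 2 = (2 : ℝ) := Real.sq_sqrt (by norm_num)
    have h20 : 0 ≤ √2 := Real.sqrt_nonneg _
    have k1 : √a * √b ≤ (√2 / 4) * a + (√2 / 2) * b := by
      have e : (√2 / 4) * a + (√2 / 2) * b - √a * √b = √2 / 4 * (√a - √2 * √b) ^ 2 := by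
        have : √2 / 4 * (√a - √2 * √b) ^ 2 = √2 / 4 * √a ^ 2 - (√2 ^ 2 / 2) * (√a * √b) +
            √2 * √2 ^ 2 / 4 * √b ^ 2 := by ring
        rw [this, hsa, hsb, h2]
        ring
      have : 0 ≤ √2 / 4 * (√a - √2 * √b) ^ 2 := by positivity
      linarith
    have k2 : √a * √b ≤ (√2 / 2) * a + (√2 / 4) * b := by
      have e : (√2 / 2) * a + (√2 / 4) * b - √a * √b = √2 / 4 * (√2 * √a - √b) ^ 2 := by
        have : √2 / 4 * (√2 * √a - √b) ^ 2 = √2 * √2 ^ 2 / 4 * √a ^ 2 - (√2 ^ 2 / 2) * (√a * √b) +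
            √2 / 4 * √b ^ 2 := by ring
        rw [this, hsa, hsb, h2]
        ring
      have : 0 ≤ √2 / 4 * (√2 * √a - √b) ^ 2 := by positivity
      linarith
    have k3 := mul_le_mul_of_nonneg_left k1 hex
    have k4 := mul_le_mul_of_nonneg_left k2 (show 0 ≤ 1 - est t x by linarith)
    have k5 : √2 / 4 * b * est t x ≤ √2 / 4 * b * (1 - est t y) :=
      mul_le_mul_of_nonneg_left (by linarith) (by positivity)
    linarith
  have hsum : ρ ^ m ≤ 2 * √2 / 3 := by
    have h2 := Finset.sum_le_sum fun t (_ : t ∈ T) => hpt t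
    rw [hTρ, Finset.sum_add_distrib, Finset.sum_sub_distrib, Finset.sum_sub_distrib,
      ← Finset.mul_sum, ← Finset.mul_sum, ← Finset.mul_sum, ← Finset.mul_sum, hTP, hTR] at h2
    have h20 : 0 ≤ √2 := Real.sqrt_nonneg _
    have h3 := mul_le_mul_of_nonneg_left hsx (show 0 ≤ √2 / 4 by positivity)
    have h4 := mul_le_mul_of_nonneg_left hsy (show 0 ≤ √2 / 4 by positivity)
    linarith
  have hbern := one_add_mul_le_pow (show (-2 : ℝ) ≤ ρ - 1 by linarith) m
  rw [show (1 : ℝ) + (ρ - 1) = ρ by ring] at hbern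
  have hm : (0 : ℝ) ≤ m := Nat.cast_nonneg m
  have h5 : (m : ℝ) * (1 - ρ) ≤ m * (1 - aff Y P R) := mul_le_mul_of_nonneg_left (by linarith) hm
  linarith

end P321
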