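import Vale.Agent.TR321.MainD

/-! # P321 module Main: final theorem -/

namespace P321

open Polynomial NC Finset

/-- prefixing a fixed word does not decrease the affinity -/
theorem aff_prefix {q : ℝ} (h0 : 0 ≤ q) (h1 : q ≤ 1) (p x y : List Bool) (Y : ℕ) :
    aff Y (tr q x) (tr q y) ≤ aff (Y + p.length) (tr q (p ++ x)) (tr q (p ++ y)) := by
  induction p with
  | nil => exact le_rfl
  | cons b p ih =>
    refine ih.trans ?_
    exact aff_letter h0 h1 b (Y + p.length) (tr_nonneg h0 h1 _) (tr_nonneg h0 h1 _)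

theorem exists_ofFn {n : ℕ} (l : List Bool) (h : l.length = n) :
    ∃ x : Fin n → Bool, List.ofFn x = l := by
  subst h
  exact ⟨l.get, List.ofFn_get l⟩

theorem tm_ne (r : ℕ) : tm r ≠ (tm r).map not := by
  intro h
  have hne : ∀ l : List Bool, l ≠ [] → l ≠ l.map not := by
    intro l hl
    cases l with
    | nil => exact absurd rfl hl
    | cons b l =>
      intro h
      rw [List.map_cons, List.cons.injEq] at h
      cases b <;> simp at h
  have hlen := tm_length r
  refine hne (tm r) ?_ h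
  intro h2
  rw [h2, List.length_nil] at hlen
  exact absurd hlen.symm (by positivity)

/-- the two-point bound for large `n` -/
theorem main_large {q : ℝ} (h0 : 0 < q) (h1 : q < 1) (k : ℕ) (hk : 1 ≤ k) :
    ∃ c : ℝ, 0 < c ∧ ∃ L0 : ℕ, ∀ L ≥ L0, ∀ n : ℕ, L ^ (4 * k + 6) ≤ n →
      n < (L + 1) ^ (4 * k + 6) → ∀ m : ℕ, Reconstructible q n m →
      c * (L : ℝ) ^ (7 * k + 5) ≤ m := by
  obtain ⟨C, hC, L1, hL1⟩ := aff_main h0 h1 k hk
  have hd : 0 < 1 - 2 * √2 / 3 := by
    have h2 : √2 < 3 / 2 := by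
      rw [Real.sqrt_lt' (by norm_num)]; norm_num
    linarith
  refine ⟨(1 - 2 * √2 / 3) / C, by positivity, max (max L1 3) (2 ^ (6 * k + 6)), ?_⟩
  intro L hL n hn1 hn2 m hrec
  have hL1' : L1 ≤ L := le_trans (le_trans (le_max_left _ _) (le_max_left _ _)) hL
  have hL2' : 3 ≤ L := le_trans (le_trans (le_max_right _ _) (le_max_left _ _)) hL
  have hL3' : 2 ^ (6 * k + 6) ≤ L := le_trans (le_max_right _ _) hL
  set e := L ^ (2 * k + 2) with he
  set M := L ^ (2 * k) with hM
  set as := tm (6 * k + 6) with has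
  set v := 2 * M + 2 ^ (6 * k + 6) with hv
  have hLone : 1 ≤ L := by omega
  have hvM : v ≤ 3 * M := by
    have h3 : 2 ^ (6 * k + 6) ≤ M := by
      calc 2 ^ (6 * k + 6) ≤ L := hL3'
        _ = L ^ 1 := (pow_one L).symm
        _ ≤ L ^ (2 * k) := Nat.pow_le_pow_right hLone (by omega)
    omega
  set P := L ^ (4 * k + 2) with hP
  have heM : e * M = P := by
    rw [he, hM, hP, ← pow_add]; congr 1; ring
  have hMP : M ≤ P := Nat.pow_le_pow_right hLone (by omega)
  have hP6 : L ^ (4 * k + 6) = P * L ^ 4 := by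
    rw [hP, ← pow_add]
  have hL4 : 81 ≤ L ^ 4 := by
    calc 81 = 3 ^ 4 := by norm_num
      _ ≤ L ^ 4 := Nat.pow_le_pow_left hL2' 4
  have hPone : 1 ≤ P := Nat.one_le_pow _ _ hLone
  -- total number of bits of the sites
  have hT : v + 4 * e * v ≤ 15 * P := by
    have h4 : 4 * e * v ≤ 4 * e * (3 * M) := Nat.mul_le_mul_left _ hvM
    have h5 : 4 * e * (3 * M) = 12 * P := by rw [← heM]; ring
    omega
  have hPn : 81 * P ≤ n := by
    calc 81 * P = P * 81 := by ring
      _ ≤ P * L ^ 4 := Nat.mul_le_mul_left _ hL4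
      _ = L ^ (4 * k + 6) := hP6.symm
      _ ≤ n := hn1
  set a := (n - (v + 4 * e * v)) / 4 with ha
  set ρ := (n - (v + 4 * e * v)) % 4 with hρ
  have hdiv : n = 4 * a + ρ + (v + 4 * e * v) := by
    have h6 : v + 4 * e * v ≤ n := by omega
    have h7 := Nat.div_add_mod (n - (v + 4 * e * v)) 4
    omega
  have hρ4 : ρ < 4 := Nat.mod_lt _ (by norm_num)
  have ha1 : L ^ (4 * k + 6) ≤ 8 * a := by
    have h8 : 8 * a ≥ n := by omega
    omega
  have ha2 : a ≤ 4 ^ (4 * k + 6) * L ^ (4 * k + 6) := by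
    have h9 : a ≤ n := (Nat.div_le_self _ _).trans (Nat.sub_le _ _)
    have h10 : (L + 1) ^ (4 * k + 6) ≤ (4 * L) ^ (4 * k + 6) :=
      Nat.pow_le_pow_left (by omega) _
    rw [mul_pow] at h10
    exact h9.trans (hn2.le.trans h10)
  obtain ⟨Y, hY⟩ := hL1 L hL1' a ha1 ha2
  have heone : 1 ≤ e := Nat.one_le_pow _ _ hLone
  have haslen : as.length = 2 ^ (6 * k + 6) := tm_length _
  have hlen1 : (arr M as).length = v := by rw [arr_length, haslen]
  have hlen2 : (arr M (as.map not)).length = v := by rw [arr_length, List.length_map, haslen]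
  set W1 := strW e a a (arr M as) with hW1
  set W2 := strW e a a (arr M (as.map not)) with hW2
  have hb1 : (List.replicate ρ false ++ bits W1).length = n := by
    rw [List.length_append, List.length_replicate, bits_length, hW1, strW_count_false heone,
      strW_count_true, hlen1]
    rw [hdiv]; ring
  have hb2 : (List.replicate ρ false ++ bits W2).length = n := by
    rw [List.length_append, List.length_replicate, bits_length, hW2, strW_count_false heone,
      strW_count_true, hlen2]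
    rw [hdiv]; ring
  obtain ⟨x, hx⟩ := exists_ofFn _ hb1
  obtain ⟨y, hy⟩ := exists_ofFn _ hb2
  have hxy : x ≠ y := by
    intro h
    rw [h, hy] at hx
    have h11 := List.append_cancel_left hx
    refine bits_strW_ne heone a a (as := arr M as) (bs := arr M (as.map not)) ?_ ?_ h11.symm
    · rw [hlen1, hlen2]
    · intro h12
      have h13 := List.append_cancel_right h12
      exact tm_ne _ (List.append_cancel_left h13)
  have hle := leCam h0.le h1.le hrec hxy (2 * Y + (List.replicate ρ false).length)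
  rw [hx, hy] at hle
  have hchain : aff Y (symLaw q W1) (symLaw q W2) ≤
      aff (2 * Y + (List.replicate ρ false).length)
        (tr q (List.replicate ρ false ++ bits W1)) (tr q (List.replicate ρ false ++ bits W2)) := by
    refine (aff_SubNC h0.le h1.le Y (symLaw_nonneg h0.le h1.le W1)
      (symLaw_nonneg h0.le h1.le W2)).trans ?_
    rw [SubNC_symLaw, SubNC_symLaw]
    exact aff_prefix h0.le h1.le _ _ _ _
  have hLp : (0 : ℝ) < L := by exact_mod_cast hLone
  have hfinal : 1 - 2 * √2 / 3 ≤ m * (C / (L : ℝ) ^ (7 * k + 5)) := by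
    refine hle.trans ?_
    have hm0 : (0 : ℝ) ≤ m := Nat.cast_nonneg m
    refine mul_le_mul_of_nonneg_left ?_ hm0
    linarith
  rw [div_mul_eq_mul_div, div_le_iff₀ hC]
  have h14 : (1 - 2 * √2 / 3) * (L : ℝ) ^ (7 * k + 5) ≤
      m * (C / (L : ℝ) ^ (7 * k + 5)) * (L : ℝ) ^ (7 * k + 5) := by gcongr
  refine h14.trans (le_of_eq ?_)
  field_simp

/-- at least one trace is needed -/
theorem one_le_of_reconstructible {q : ℝ} (h0 : 0 < q) (h1 : q < 1) {n : ℕ} (hn : 1 ≤ n)
    {m : ℕ} (hrec : Reconstructible q n m) : 1 ≤ m := by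
  have hd : 0 < 1 - 2 * √2 / 3 := by
    have h2 : √2 < 3 / 2 := by
      rw [Real.sqrt_lt' (by norm_num)]; norm_num
    linarith
  rcases Nat.eq_zero_or_pos m with hm | hm
  · exfalso
    have hxy : (fun _ : Fin n => true) ≠ (fun _ => false) := by
      intro h
      have := congrFun h ⟨0, hn⟩
      simp at this
    have := leCam h0.le h1.le hrec hxy 0
    rw [hm] at this
    simp only [Nat.cast_zero, zero_mul] at this
    linarith
  · exact hm

theorem main {q : ℝ} (h0 : 0 < q) (h1 : q < 1) {ε : ℝ} (hε : 0 < ε) :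
    ∃ c : ℝ, 0 < c ∧ ∀ n : ℕ, 1 ≤ n → ∀ m : ℕ, Reconstructible q n m →
      c * (n : ℝ) ^ ((7 : ℝ) / 4 - ε) ≤ m := by
  -- choice of `k`
  obtain ⟨k, hk1, hkε⟩ : ∃ k : ℕ, 1 ≤ k ∧ (11 : ℝ) / 2 ≤ (4 * (k : ℝ) + 6) * ε := by
    obtain ⟨k, hk⟩ := exists_nat_ge (max 1 ((11 : ℝ) / (2 * ε)))
    refine ⟨k, by exact_mod_cast (le_max_left _ _).trans hk, ?_⟩
    have h2 := (le_max_right _ _).trans hk
    rw [div_le_iff₀ (by positivity)] at h2
    nlinarith [mul_nonneg (Nat.cast_nonneg (α := ℝ) k) hε.le]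
  obtain ⟨c, hc, L0, hL0⟩ := main_large h0 h1 k hk1
  set D := 4 * k + 6 with hD
  have hDne : D ≠ 0 := by omega
  set n0 := (L0 + 1) ^ D with hn0
  have hn0pos : (0 : ℝ) < n0 := by rw [hn0]; positivity
  -- constants
  refine ⟨min (c / 2 ^ (7 * k + 5)) (1 / (n0 : ℝ) ^ (2 : ℕ)), by positivity, ?_⟩
  intro n hn m hrec
  have hnr : (1 : ℝ) ≤ n := by exact_mod_cast hn
  have hm1 : (1 : ℝ) ≤ m := by exact_mod_cast one_le_of_reconstructible h0 h1 hn hrec
  rcases lt_or_ge n n0 with hsmall | hbig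
  · -- small `n`
    have h3 : (n : ℝ) ^ ((7 : ℝ) / 4 - ε) ≤ (n0 : ℝ) ^ (2 : ℕ) := by
      have h4 : (n : ℝ) ^ ((7 : ℝ) / 4 - ε) ≤ (n : ℝ) ^ (2 : ℝ) :=
        Real.rpow_le_rpow_of_exponent_le hnr (by linarith)
      rw [show (2 : ℝ) = ((2 : ℕ) : ℝ) by norm_num, Real.rpow_natCast] at h4
      refine h4.trans ?_
      have : (n : ℝ) ≤ n0 := by exact_mod_cast hsmall.le
      gcongr
    calc min (c / 2 ^ (7 * k + 5)) (1 / (n0 : ℝ) ^ (2 : ℕ)) * (n : ℝ) ^ ((7 : ℝ) / 4 - ε)
        ≤ (1 / (n0 : ℝ) ^ (2 : ℕ)) * (n0 : ℝ) ^ (2 : ℕ) := by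
          gcongr
          exact min_le_right _ _
      _ = 1 := by field_simp
      _ ≤ m := hm1
  · -- large `n`
    obtain ⟨L, hLn, hLn'⟩ : ∃ L : ℕ, L ^ D ≤ n ∧ n < (L + 1) ^ D := by
      refine ⟨Nat.findGreatest (fun L => L ^ D ≤ n) n, ?_, ?_⟩
      · have := Nat.findGreatest_spec (P := fun L => L ^ D ≤ n) (m := 0) (n := n)
          (Nat.zero_le _) (by rw [zero_pow hDne]; exact Nat.zero_le _)
        exact this
      · by_contra hcon
        rw [not_lt] at hcon
        have hle : Nat.findGreatest (fun L => L ^ D ≤ n) n + 1 ≤ n := by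
          calc Nat.findGreatest (fun L => L ^ D ≤ n) n + 1
              ≤ (Nat.findGreatest (fun L => L ^ D ≤ n) n + 1) ^ D := Nat.le_self_pow hDne _
            _ ≤ n := hcon
        have := Nat.le_findGreatest (P := fun L => L ^ D ≤ n) hle hcon
        omega
    have hLL0 : L0 ≤ L := by
      by_contra hcon
      rw [not_le] at hcon
      have : (L + 1) ^ D ≤ (L0 + 1) ^ D := Nat.pow_le_pow_left (by omega) D
      omega
    have hLone : 1 ≤ L := by
      rcases Nat.eq_zero_or_pos L with h | h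
      · rw [h, zero_add, one_pow] at hLn'; omega
      · exact h
    have hLr : (1 : ℝ) ≤ L := by exact_mod_cast hLone
    have hmain := hL0 L hLL0 n hLn hLn' m hrec
    have hnL : (n : ℝ) ≤ (2 * (L : ℝ)) ^ D := by
      have h5 : n ≤ (2 * L) ^ D := by
        refine hLn'.le.trans (Nat.pow_le_pow_left (by omega) D)
      exact_mod_cast h5
    have h2L : (1 : ℝ) ≤ 2 * L := by linarith
    have hpow : (n : ℝ) ^ ((7 : ℝ) / 4 - ε) ≤ (2 * (L : ℝ)) ^ (7 * k + 5) := by
      rcases le_or_gt 0 ((7 : ℝ) / 4 - ε) with hex | hex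
      · calc (n : ℝ) ^ ((7 : ℝ) / 4 - ε) ≤ ((2 * (L : ℝ)) ^ D) ^ ((7 : ℝ) / 4 - ε) := by
              exact Real.rpow_le_rpow (by linarith) hnL hex
          _ = (2 * (L : ℝ)) ^ ((D : ℝ) * ((7 : ℝ) / 4 - ε)) := by
              rw [← Real.rpow_natCast, ← Real.rpow_mul (by linarith)]
          _ ≤ (2 * (L : ℝ)) ^ (((7 * k + 5 : ℕ)) : ℝ) := by
              refine Real.rpow_le_rpow_of_exponent_le h2L ?_
              rw [hD]; push_cast
              nlinarith
          _ = (2 * (L : ℝ)) ^ (7 * k + 5) := Real.rpow_natCast _ _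
      · calc (n : ℝ) ^ ((7 : ℝ) / 4 - ε) ≤ (n : ℝ) ^ (0 : ℝ) :=
              Real.rpow_le_rpow_of_exponent_le hnr hex.le
          _ = 1 := Real.rpow_zero _
          _ ≤ _ := one_le_pow₀ h2L
    calc min (c / 2 ^ (7 * k + 5)) (1 / (n0 : ℝ) ^ (2 : ℕ)) * (n : ℝ) ^ ((7 : ℝ) / 4 - ε)
        ≤ (c / 2 ^ (7 * k + 5)) * (2 * (L : ℝ)) ^ (7 * k + 5) := by
          gcongr
          exact min_le_left _ _
      _ = c * (L : ℝ) ^ (7 * k + 5) := by rw [mul_pow]; field_simp
      _ ≤ m := hmain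

end P321
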