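import Vale.Agent.TR321.Tilt
import Vale.Agent.TR321.Diff
import Vale.Agent.TR321.Lam
import Vale.Agent.TR321.LeCam

/-! # P321 module MainA: auxiliary facts for the final assembly -/

namespace P321

open Polynomial NC Finset

/-! ### coefficients on background words -/

theorem mul_replicate (Y Z : NC) (m : ℕ) :
    (Y * Z) (List.replicate m false) =
      ∑ p ∈ antidiagonal m, Y (List.replicate p.1 false) * Z (List.replicate p.2 false) := by
  induction m generalizing Y with
  | zero => simp
  | succ m ih =>
    rw [List.replicate_succ, mul_cons, ih (d false Y), Finset.Nat.antidiagonal_succ]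
    simp only [sum_cons, sum_map, List.replicate_succ, List.replicate_zero]
    rfl

theorem ι_replicate (P : ℝ[X]) (m : ℕ) : ι P (List.replicate m false) = P.coeff m := by
  induction m generalizing P with
  | zero => simp
  | succ m ih =>
    have h : ι P (List.replicate (m + 1) false) = (d false (ι P)) (List.replicate m false) := rfl
    rw [h, d_false_ι, ih, coeff_divX]

theorem Fn_replicate (f : ℝ) (m : ℕ) : Fn f (List.replicate m false) = (Kp f).coeff m := by
  rw [Fn, add_apply, ι_replicate, smul_apply]
  have : x1 (List.replicate m false) = 0 := by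
    cases m with
    | zero => simp
    | succ m =>
      have : x1 (List.replicate (m + 1) false) = (d false x1) (List.replicate m false) := rfl
      rw [this, d_false_x1]; rfl
  rw [this]; ring

theorem maskLaw_replicate (s f : ℝ) (W : List Bool) (m : ℕ) :
    maskLaw s f W (List.replicate m false) =
      (Kp s ^ W.count false * Kp f ^ W.count true).coeff m := by
  induction W generalizing m with
  | nil =>
    have h := ι_replicate (1 : ℝ[X]) m
    rw [map_one] at h
    simpa [maskLaw] using h
  | cons b W ih =>
    have h1 : maskLaw s f (b :: W) = (if b then Fn f else ι (Kp s)) * maskLaw s f W := by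
      simp [maskLaw]
    rw [h1, mul_replicate]
    cases b with
    | false =>
      simp only [Bool.false_eq_true, if_false, ih, ι_replicate]
      rw [← coeff_mul]
      simp only [List.count_cons, beq_self_eq_true, if_true]
      congr 1
      simp
      ring
    | true =>
      simp only [if_true, ih, Fn_replicate]
      rw [← coeff_mul]
      simp only [List.count_cons, beq_self_eq_true, if_true]
      congr 1
      simp
      ring

/-! ### sums over words -/

theorem mSumL_add (m : ℕ) (g h : List Bool → ℝ) :
    sumL m (fun u => g u + h u) = sumL m g + sumL m h := by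
  induction m generalizing g h with
  | zero => rfl
  | succ m ih => simp only [sumL, ih]; ring

theorem mSumL_smul (m : ℕ) (c : ℝ) (g : List Bool → ℝ) :
    sumL m (fun u => c * g u) = c * sumL m g := by
  induction m generalizing g with
  | zero => rfl
  | succ m ih => simp only [sumL, ih]; ring

theorem mSumL_mono {m : ℕ} {g h : List Bool → ℝ} (hgh : ∀ u, g u ≤ h u) :
    sumL m g ≤ sumL m h := by
  induction m generalizing g h with
  | zero => exact hgh _
  | succ m ih => exact add_le_add (ih fun u => hgh _) (ih fun u => hgh _)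

theorem kap_pos {a : ℝ} (h0 : 0 < a) (h1 : a < 1) (u : List Bool) : 0 < kap a u := by
  induction u with
  | nil => simp [kap]
  | cons b u ih =>
    have : 0 < (if b then a else 1 - a) := by split <;> linarith
    exact mul_pos this ih

/-- mass of the symbol law on words of length `m` -/
theorem sumL_symLaw {q : ℝ} (h0 : 0 < q) (h1 : q < 1) (W : List Bool) (m : ℕ) :
    sumL m (symLaw q W) =
      (Kp (1 - q ^ 2) ^ W.count false * Kp (1 - q) ^ W.count true).coeff m := by
  have ha0 : 0 < q / (1 + q) := by positivity
  have ha1 : q / (1 + q) < 1 := by rw [div_lt_one (by positivity)]; linarith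
  have h : (symLaw q W : List Bool → ℝ) = fun u => kap (q / (1 + q)) u *
      ev (q / (1 + q)) (maskLaw (1 - q ^ 2) (1 - q) W) u := by
    funext u; exact symLaw_eq h0 h1 W u
  rw [show sumL m (symLaw q W) = sumL m (fun u => kap (q / (1 + q)) u *
      ev (q / (1 + q)) (maskLaw (1 - q ^ 2) (1 - q) W) u) from by rw [← h], sumL_kap,
    Ex_ev ha0 ha1, maskLaw_replicate]

/-- `1 - aff = (1/2) ∑ (√P - √Q)^2` -/
theorem one_sub_aff {Y : ℕ} {P Q : NC} (hP : ∀ u, 0 ≤ P u) (hQ : ∀ u, 0 ≤ Q u)
    (hP1 : tot Y P = 1) (hQ1 : tot Y Q = 1) :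
    1 - aff Y P Q = 1 / 2 * ∑ m ∈ range (Y + 1), sumL m (fun u => (√(P u) - √(Q u)) ^ 2) := by
  have h : ∀ u, (√(P u) - √(Q u)) ^ 2 = (P u + Q u) + (-2) * √(P u * Q u) := by
    intro u
    rw [Real.sqrt_mul (hP u), sub_sq, Real.sq_sqrt (hP u), Real.sq_sqrt (hQ u)]; ring
  simp only [h]
  have h2 : ∀ m, sumL m (fun u => (P u + Q u) + (-2) * √(P u * Q u)) =
      sumL m P + sumL m Q + (-2) * sumL m (fun u => √(P u * Q u)) := by
    intro m
    have e1 := mSumL_add m (fun u => P u + Q u) (fun u => (-2) * √(P u * Q u))
    have e2 := mSumL_add m P Q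
    have e3 := mSumL_smul m (-2) (fun u => √(P u * Q u))
    exact e1.trans (by rw [e3]; exact congrArg (fun z => z + _) e2)
  simp only [h2, sum_add_distrib, ← mul_sum]
  unfold tot at hP1 hQ1
  rw [hP1, hQ1, aff, tot]
  ring

theorem sumL_hell_le {m : ℕ} {P Q : NC} (hP : ∀ u, 0 ≤ P u) (hQ : ∀ u, 0 ≤ Q u) :
    sumL m (fun u => (√(P u) - √(Q u)) ^ 2) ≤ sumL m P + sumL m Q := by
  refine le_trans (mSumL_mono (h := fun u => P u + Q u) (fun u => ?_)) (mSumL_add m P Q).le
  have h1 := Real.sq_sqrt (hP u)
  have h2 := Real.sq_sqrt (hQ u)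
  have h3 := Real.sqrt_nonneg (P u)
  have h4 := Real.sqrt_nonneg (Q u)
  nlinarith [mul_nonneg h3 h4]

/-! ### total mass of the length distribution -/

theorem sum_coeff_KK (s f : ℝ) (N v Y : ℕ) (hY : N + v ≤ Y) :
    ∑ m ∈ range (Y + 1), (Kp s ^ N * Kp f ^ v).coeff m = 1 := by
  have hdeg : (Kp s ^ N * Kp f ^ v).natDegree < Y + 1 := by
    have h1 : ∀ s : ℝ, (Kp s).natDegree ≤ 1 := by
      intro s
      unfold Kp
      refine (natDegree_add_le _ _).trans (max_le ?_ ?_)
      · simp
      · exact natDegree_C_mul_le _ _ |>.trans natDegree_X_le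
    have h2 : (Kp s ^ N * Kp f ^ v).natDegree ≤ N + v := by
      refine natDegree_mul_le.trans (add_le_add ?_ ?_)
      · exact natDegree_pow_le.trans (by simpa using Nat.mul_le_mul_left N (h1 s))
      · exact natDegree_pow_le.trans (by simpa using Nat.mul_le_mul_left v (h1 f))
    omega
  have h : ((Kp s ^ N * Kp f ^ v).eval 1) = 1 := by
    simp [Kp]
  rw [eval_eq_sum_range' hdeg] at h
  simpa using h

/-! ### tilting -/

theorem scal_sub (t : ℝ) (Y Z : NC) : scal t (Y - Z) = scal t Y - scal t Z := by
  ext u
  simp only [scal, sub_apply]; ring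

theorem scal_smul (t c : ℝ) (Z : NC) : scal t (c • Z) = c • scal t Z := by
  ext u
  simp only [scal, smul_apply]; ring

theorem scal_ι (t : ℝ) (P P' : ℝ[X]) (z : ℝ) (h : ∀ m, t ^ m * P.coeff m = z * P'.coeff m) :
    scal t (ι P) = z • ι P' := by
  ext u
  simp only [scal, smul_apply]
  induction u generalizing P P' z with
  | nil => simpa using h 0
  | cons b u ih =>
    cases b with
    | true =>
      have e1 : ι P (true :: u) = 0 := by
        have : ι P (true :: u) = (d true (ι P)) u := rfl
        rw [this, d_true_ι]; rfl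
      have e2 : ι P' (true :: u) = 0 := by
        have : ι P' (true :: u) = (d true (ι P')) u := rfl
        rw [this, d_true_ι]; rfl
      rw [e1, e2]; ring
    | false =>
      have e1 : ι P (false :: u) = ι P.divX u := by
        have : ι P (false :: u) = (d false (ι P)) u := rfl
        rw [this, d_false_ι]
      have e2 : ι P' (false :: u) = ι P'.divX u := by
        have : ι P' (false :: u) = (d false (ι P')) u := rfl
        rw [this, d_false_ι]
      rw [e1, e2, List.length_cons, pow_succ]
      have hh := ih (C t * P.divX) P'.divX z (by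
        intro m
        have := h (m + 1)
        rw [pow_succ] at this
        rw [coeff_C_mul, coeff_divX, coeff_divX]
        linarith)
      rw [map_mul, ι_C, smul_mul_assoc, one_mul, smul_apply] at hh
      linarith

end P321
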