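import Vale.Agent.TR321.MainA

/-! # P321 module MainB: the slice bound for the two strings -/

namespace P321

open Polynomial NC Finset

theorem tilt_transfer {t : ℝ} (ht : 0 < t) {w : ℝ} {m : ℕ} {Z Z' : NC} {zz lam lam' B : ℝ}
    (hZ : scal t Z = zz • Z') (hlam : t ^ m * lam = zz * lam')
    (h : S w m Z' ≤ B * lam' ^ 2) : S w m Z ≤ B * lam ^ 2 := by
  have h1 : t ^ (2 * m) * S w m Z = zz ^ 2 * S w m Z' := by
    rw [← S_scal, hZ, S_smul]
  have h2 : t ^ (2 * m) * lam ^ 2 = zz ^ 2 * lam' ^ 2 := by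
    have : (t ^ m * lam) ^ 2 = (zz * lam') ^ 2 := by rw [hlam]
    rw [mul_pow, mul_pow, ← pow_mul, mul_comm m 2] at this
    exact this
  have htp : 0 < t ^ (2 * m) := by positivity
  have h3 : t ^ (2 * m) * S w m Z ≤ t ^ (2 * m) * (B * lam ^ 2) := by
    rw [h1]
    calc zz ^ 2 * S w m Z' ≤ zz ^ 2 * (B * lam' ^ 2) := by gcongr
      _ = B * (zz ^ 2 * lam' ^ 2) := by ring
      _ = t ^ (2 * m) * (B * lam ^ 2) := by rw [← h2]; ring
  exact le_of_mul_le_mul_left h3 htp

theorem arr_length (M : ℕ) (as : List Bool) : (arr M as).length = 2 * M + as.length := by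
  simp [arr]; ring

/-- parameters of the tilt -/
theorem tilt_param {sq fq : ℝ} (hs0 : 0 < sq) (hs1 : sq < 1) (hf0 : 0 < fq) (hf1 : fq < 1) :
    ∃ c : ℝ, 0 < c ∧ ∃ η : ℝ, 0 < η ∧ ∀ s : ℝ, |s - sq| ≤ 2 * η →
      0 < s ∧ s < 1 ∧ ∃ t f : ℝ, 0 < t ∧ 0 < 1 - sq + sq * t ∧ 0 < 1 - fq + fq * t ∧
        sq * t / (1 - sq + sq * t) = s ∧ fq * t / (1 - fq + fq * t) = f ∧ Good c s f := by
  set t0 := (1 - sq) / 2 with ht0
  set t1 := 2 / sq with ht1
  have ht0p : 0 < t0 := by rw [ht0]; linarith
  have ht01 : t0 ≤ 1 := by rw [ht0]; linarith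
  have ht1p : 0 < t1 := by positivity
  have hA : 0 < (1 - fq) / (1 + t1) := div_pos (by linarith) (by linarith)
  refine ⟨min (min (sq / 2) ((1 - sq) / 2)) (min (fq * t0) ((1 - fq) / (1 + t1))), ?_,
    min sq (1 - sq) / 4, ?_, ?_⟩
  · refine lt_min (lt_min (by linarith) (by linarith)) (lt_min (by positivity) hA)
  · have : 0 < min sq (1 - sq) := lt_min hs0 (by linarith)
    linarith
  intro s hs
  have hm1 : min sq (1 - sq) ≤ sq := min_le_left _ _
  have hm2 : min sq (1 - sq) ≤ 1 - sq := min_le_right _ _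
  obtain ⟨hsl, hsu⟩ := abs_le.mp hs
  have hs2 : sq / 2 ≤ s := by linarith
  have hs3 : s ≤ 1 - (1 - sq) / 2 := by linarith
  have hsp : 0 < s := by linarith
  have hs1' : s < 1 := by linarith
  have h1s : 0 < 1 - s := by linarith
  refine ⟨hsp, hs1', s * (1 - sq) / (sq * (1 - s)), fq * (s * (1 - sq) / (sq * (1 - s))) /
    (1 - fq + fq * (s * (1 - sq) / (sq * (1 - s)))), ?_, ?_, ?_, ?_, rfl, ?_⟩
  · have : 0 < 1 - sq := by linarith
    positivity
  · have : 0 < 1 - sq := by linarith
    positivity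
  · have : 0 < 1 - sq := by linarith
    have : 0 < 1 - fq := by linarith
    positivity
  · have h2 : 1 - sq + sq * (s * (1 - sq) / (sq * (1 - s))) = (1 - sq) / (1 - s) := by
      field_simp; ring
    rw [h2]
    have : 1 - sq ≠ 0 := by linarith
    field_simp
  · set t := s * (1 - sq) / (sq * (1 - s)) with ht
    have hq : 0 < 1 - sq := by linarith
    have htt0 : t0 ≤ t := by
      rw [ht, ht0, div_le_div_iff₀ (by norm_num) (by positivity)]
      have : sq * (1 - s) ≤ sq * 1 := by gcongr; linarith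
      have h3 : sq * (1 - s) ≤ 2 * s := by nlinarith
      nlinarith
    have htt1 : t ≤ t1 := by
      rw [ht, ht1, div_le_div_iff₀ (by positivity) hs0]
      have h3 : s * (1 - sq) ≤ 2 * (1 - s) := by nlinarith
      nlinarith
    have htp : 0 < t := by positivity
    have hden : 0 < 1 - fq + fq * t := by
      have : 0 < 1 - fq := by linarith
      positivity
    refine ⟨?_, ?_, ?_, ?_⟩
    · exact (min_le_left _ _).trans ((min_le_left _ _).trans hs2)
    · have := (min_le_left (min (sq / 2) ((1 - sq) / 2)) (min (fq * t0) ((1 - fq) / (1 + t1)))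
        ).trans (min_le_right _ _)
      linarith
    · refine ((min_le_right _ _).trans (min_le_left _ _)).trans ?_
      rw [le_div_iff₀ hden]
      have h1 : fq * t0 * (1 - fq + fq * t) ≤ fq * t := by
        have h2 : t0 * (1 - fq + fq * t) ≤ t := by
          have e1 : t0 * (1 - fq) ≤ t * (1 - fq) := by
            have : 0 ≤ 1 - fq := by linarith
            gcongr
          have e2 : t0 * (fq * t) ≤ 1 * (fq * t) := by gcongr
          nlinarith
        calc fq * t0 * (1 - fq + fq * t) = fq * (t0 * (1 - fq + fq * t)) := by ring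
          _ ≤ fq * t := by gcongr
      exact h1
    · have h3 := (min_le_right (min (sq / 2) ((1 - sq) / 2)) (min (fq * t0)
        ((1 - fq) / (1 + t1)))).trans (min_le_right _ _)
      have h4 : fq * t / (1 - fq + fq * t) = 1 - (1 - fq) / (1 - fq + fq * t) := by
        field_simp; ring
      have h5 : (1 - fq) / (1 + t1) ≤ (1 - fq) / (1 - fq + fq * t) := by
        have : 0 ≤ 1 - fq := by linarith
        have h6 : 1 - fq + fq * t ≤ 1 + t1 := by nlinarith
        gcongr
      rw [h4]; linarith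

end P321
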