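import Vale.Agent.TR321.MainB

/-! # P321 module MainC: the slice bound for the two strings -/

namespace P321

open Polynomial NC Finset

/-- elementary size bounds for the parameters -/
theorem param_bounds (k L a : ℕ) (hL : 2 ^ (6 * k + 6) ≤ L) (hk : 1 ≤ k)
    (ha : L ^ (4 * k + 6) ≤ 8 * a) (ha' : a ≤ 4 ^ (4 * k + 6) * L ^ (4 * k + 6)) :
    1 ≤ L ∧ 2 * L ^ (2 * k) + 2 ^ (6 * k + 6) ≤ 3 * L ^ (2 * k) ∧
    L ^ (4 * k + 6) ≤ 4 * (2 * a + 2 * L ^ (2 * k + 2) * (2 * L ^ (2 * k) + 2 ^ (6 * k + 6))) ∧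
    2 * a + 2 * L ^ (2 * k + 2) * (2 * L ^ (2 * k) + 2 ^ (6 * k + 6)) ≤
      (2 * 4 ^ (4 * k + 6) + 6) * L ^ (4 * k + 6) := by
  have hL1 : 1 ≤ L := le_trans Nat.one_le_two_pow hL
  have h1 : 2 ^ (6 * k + 6) ≤ L ^ (2 * k) := by
    calc 2 ^ (6 * k + 6) ≤ L := hL
      _ = L ^ 1 := (pow_one L).symm
      _ ≤ L ^ (2 * k) := Nat.pow_le_pow_right hL1 (by omega)
  have h2 : 2 * L ^ (2 * k) + 2 ^ (6 * k + 6) ≤ 3 * L ^ (2 * k) := by omega
  refine ⟨hL1, h2, ?_, ?_⟩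
  · have : 0 ≤ 2 * L ^ (2 * k + 2) * (2 * L ^ (2 * k) + 2 ^ (6 * k + 6)) := Nat.zero_le _
    omega
  · have h3 : 2 * L ^ (2 * k + 2) * (2 * L ^ (2 * k) + 2 ^ (6 * k + 6)) ≤
        2 * L ^ (2 * k + 2) * (3 * L ^ (2 * k)) := Nat.mul_le_mul_left _ h2
    have h4 : 2 * L ^ (2 * k + 2) * (3 * L ^ (2 * k)) = 6 * L ^ (4 * k + 2) := by
      have : L ^ (4 * k + 2) = L ^ (2 * k + 2) * L ^ (2 * k) := by
        rw [← pow_add]; congr 1; ring
      rw [this]; ring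
    have h5 : L ^ (4 * k + 2) ≤ L ^ (4 * k + 6) := Nat.pow_le_pow_right hL1 (by omega)
    calc 2 * a + 2 * L ^ (2 * k + 2) * (2 * L ^ (2 * k) + 2 ^ (6 * k + 6))
        ≤ 2 * (4 ^ (4 * k + 6) * L ^ (4 * k + 6)) + 6 * L ^ (4 * k + 2) := by
          rw [← h4]; exact add_le_add (Nat.mul_le_mul_left _ ha') h3
      _ ≤ 2 * (4 ^ (4 * k + 6) * L ^ (4 * k + 6)) + 6 * L ^ (4 * k + 6) := by omega
      _ = (2 * 4 ^ (4 * k + 6) + 6) * L ^ (4 * k + 6) := by ring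

/-- slice bound for the two strings at length `m` -/
theorem slice_main {q : ℝ} (h0 : 0 < q) (h1 : q < 1) (k : ℕ) (hk : 1 ≤ k) :
    ∃ C : ℝ, 0 < C ∧ ∃ η : ℝ, 0 < η ∧ ∃ L0 : ℕ, ∀ L ≥ L0, ∀ a : ℕ,
      L ^ (4 * k + 6) ≤ 8 * a → a ≤ 4 ^ (4 * k + 6) * L ^ (4 * k + 6) →
      ∀ m : ℕ, ∀ N v : ℕ, N = 2 * a + 2 * L ^ (2 * k + 2) * v →
      v = 2 * L ^ (2 * k) + 2 ^ (6 * k + 6) →
      |(m : ℝ) - (N * (1 - q ^ 2) + v * (1 - q))| ≤ η * N →
      sumL m (fun u =>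
        (√(symLaw q (strW (L ^ (2 * k + 2)) a a (arr (L ^ (2 * k)) (tm (6 * k + 6)))) u) -
         √(symLaw q (strW (L ^ (2 * k + 2)) a a
            (arr (L ^ (2 * k)) ((tm (6 * k + 6)).map not))) u)) ^ 2) ≤
      (Kp (1 - q ^ 2) ^ N * Kp (1 - q) ^ v).coeff m * (C / (L : ℝ) ^ (7 * k + 5)) := by
  have hsq0 : 0 < 1 - q ^ 2 := by nlinarith
  have hsq1 : 1 - q ^ 2 < 1 := by nlinarith [pow_pos h0 2]
  have hfq0 : 0 < 1 - q := by linarith
  have hfq1 : 1 - q < 1 := by linarith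
  have haq0 : 0 < q / (1 + q) := by positivity
  have haq1 : q / (1 + q) < 1 := by rw [div_lt_one (by positivity)]; linarith
  have hw1 : 0 ≤ (1 - q / (1 + q)) / (q / (1 + q)) :=
    div_nonneg (by linarith) haq0.le
  obtain ⟨w2, hw2, hslice⟩ := slice_bound haq0 haq1 (K := 7 * k + 5) (by omega)
  obtain ⟨c, hc, η, hη, hpar⟩ := tilt_param hsq0 hsq1 hfq0 hfq1
  obtain ⟨Cd, hCd, Ld, hLd⟩ := S_diff hc k (4 ^ (4 * k + 6)) hk hw1
  obtain ⟨Cl, hCl, Ll, hLl⟩ := S_low hc k (4 ^ (4 * k + 6)) hw2.le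
  obtain ⟨c1, hc1, N0, hlam⟩ := lam_lower hc
  set C' : ℝ := 2 * 4 ^ (4 * k + 6) + 6 with hC'
  have hC'0 : 0 < C' := by positivity
  set aq := q / (1 + q) with haq
  -- largeness of `L`
  obtain ⟨L1, hL1⟩ : ∃ L1 : ℕ, ∀ L ≥ L1, (12 : ℝ) / η ≤ L := by
    obtain ⟨n, hn⟩ := exists_nat_ge ((12 : ℝ) / η)
    exact ⟨n, fun L hL => hn.trans (by exact_mod_cast hL)⟩
  obtain ⟨L2, hL2⟩ : ∃ L1 : ℕ, ∀ L ≥ L1, (36 : ℝ) / c1 ≤ L := by
    obtain ⟨n, hn⟩ := exists_nat_ge ((36 : ℝ) / c1)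
    exact ⟨n, fun L hL => hn.trans (by exact_mod_cast hL)⟩
  refine ⟨2 * (Cd * C' / c1 ^ 2) + 4 ^ (7 * k + 5) * (Cl * C' / c1 ^ 2) ^ (7 * k + 5),
    by positivity, η, hη,
    max (max (max Ld Ll) (max L1 L2)) (max (2 ^ (6 * k + 6)) (4 * N0)), ?_⟩
  intro L hL a ha ha' m N v hN hv hm
  have hLd' : Ld ≤ L := le_trans (le_trans (le_max_left _ _) (le_trans (le_max_left _ _)
    (le_max_left _ _))) hL
  have hLl' : Ll ≤ L := le_trans (le_trans (le_max_right _ _) (le_trans (le_max_left _ _)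
    (le_max_left _ _))) hL
  have hL1' : L1 ≤ L := le_trans (le_trans (le_max_left _ _) (le_trans (le_max_right _ _)
    (le_max_left _ _))) hL
  have hL2' : L2 ≤ L := le_trans (le_trans (le_max_right _ _) (le_trans (le_max_right _ _)
    (le_max_left _ _))) hL
  have hL3' : 2 ^ (6 * k + 6) ≤ L := le_trans (le_trans (le_max_left _ _) (le_max_right _ _)) hL
  have hL4' : 4 * N0 ≤ L := le_trans (le_trans (le_max_right _ _) (le_max_right _ _)) hL
  obtain ⟨hLone, hv3, hNl, hNu⟩ := param_bounds k L a hL3' hk ha ha'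
  rw [← hv] at hv3 hNl hNu
  rw [← hN] at hNl hNu
  have hLr : (1 : ℝ) ≤ L := by exact_mod_cast hLone
  have hLp : (0 : ℝ) < L := by linarith
  have hNlr : (L : ℝ) ^ (4 * k + 6) ≤ 4 * N := by exact_mod_cast hNl
  have hNur : (N : ℝ) ≤ C' * (L : ℝ) ^ (4 * k + 6) := by
    rw [hC']; exact_mod_cast hNu
  have hvr : (v : ℝ) ≤ 3 * (L : ℝ) ^ (2 * k) := by exact_mod_cast hv3
  have hNpos : (0 : ℝ) < N := by
    have : (0 : ℝ) < (L : ℝ) ^ (4 * k + 6) := by positivity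
    linarith
  -- `v ≤ η N`
  have hvη : (v : ℝ) ≤ η * N := by
    have h12 : 12 ≤ η * L := by
      have := hL1 L hL1'
      rw [div_le_iff₀ hη] at this
      linarith
    have hpow : (L : ℝ) ^ (2 * k) * L ≤ (L : ℝ) ^ (4 * k + 6) := by
      rw [← pow_succ]
      exact pow_le_pow_right₀ hLr (by omega)
    have hLk : (0 : ℝ) < (L : ℝ) ^ (2 * k) := by positivity
    have e1 : 12 * (L : ℝ) ^ (2 * k) ≤ η * (4 * N) := by
      calc 12 * (L : ℝ) ^ (2 * k) ≤ (η * L) * (L : ℝ) ^ (2 * k) := by gcongr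
        _ = η * ((L : ℝ) ^ (2 * k) * L) := by ring
        _ ≤ η * (L : ℝ) ^ (4 * k + 6) := by gcongr
        _ ≤ η * (4 * N) := by gcongr
    linarith
  -- `v^2 ≤ c1 N`
  have hvc : (v : ℝ) ^ 2 ≤ c1 * N := by
    have h36 : 36 ≤ c1 * L := by
      have := hL2 L hL2'
      rw [div_le_iff₀ hc1] at this
      linarith
    have hpow : (L : ℝ) ^ (4 * k) * L ≤ (L : ℝ) ^ (4 * k + 6) := by
      rw [← pow_succ]
      exact pow_le_pow_right₀ hLr (by omega)
    have e0 : (v : ℝ) ^ 2 ≤ 9 * (L : ℝ) ^ (4 * k) := by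
      calc (v : ℝ) ^ 2 ≤ (3 * (L : ℝ) ^ (2 * k)) ^ 2 := by gcongr
        _ = 9 * (L : ℝ) ^ (4 * k) := by rw [mul_pow, ← pow_mul]; norm_num; ring_nf
    have e1 : 36 * (L : ℝ) ^ (4 * k) ≤ c1 * (4 * N) := by
      calc 36 * (L : ℝ) ^ (4 * k) ≤ (c1 * L) * (L : ℝ) ^ (4 * k) := by gcongr
        _ = c1 * ((L : ℝ) ^ (4 * k) * L) := by ring
        _ ≤ c1 * (L : ℝ) ^ (4 * k + 6) := by gcongr
        _ ≤ c1 * (4 * N) := by gcongr
    linarith
  -- the tilt
  have hs : |(m : ℝ) / N - (1 - q ^ 2)| ≤ 2 * η := by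
    have e1 : (m : ℝ) / N - (1 - q ^ 2) =
        ((m : ℝ) - (N * (1 - q ^ 2) + v * (1 - q))) / N + v * (1 - q) / N := by
      field_simp; ring
    rw [e1]
    refine (abs_add_le _ _).trans ?_
    have e2 : |((m : ℝ) - (N * (1 - q ^ 2) + v * (1 - q))) / N| ≤ η := by
      rw [abs_div, abs_of_pos hNpos, div_le_iff₀ hNpos]; exact hm
    have e3 : |(v : ℝ) * (1 - q) / N| ≤ η := by
      rw [abs_div, abs_of_pos hNpos, div_le_iff₀ hNpos, abs_of_nonneg (by positivity)]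
      have : (v : ℝ) * (1 - q) ≤ v * 1 := by gcongr
      linarith
    linarith
  obtain ⟨hs0, hs1, t, f, ht, hden1, hden2, hseq, hfeq, hgood⟩ := hpar _ hs
  set s : ℝ := (m : ℝ) / N with hsdef
  set e := L ^ (2 * k + 2) with he
  set M := L ^ (2 * k) with hM
  set as := tm (6 * k + 6) with has
  have haslen : as.length = 2 ^ (6 * k + 6) := tm_length _
  have hlen1 : (arr M as).length = v := by rw [arr_length, haslen, hv]
  have hlen2 : (arr M (as.map not)).length = v := by rw [arr_length, List.length_map, haslen, hv]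
  have heone : 1 ≤ e := Nat.one_le_pow _ _ hLone
  have hcf1 : (strW e a a (arr M as)).count false = N := by
    rw [strW_count_false heone, hlen1, hN]; ring
  have hcf2 : (strW e a a (arr M (as.map not))).count false = N := by
    rw [strW_count_false heone, hlen2, hN]; ring
  have hct1 : (strW e a a (arr M as)).count true = v := by
    rw [strW_count_true, hlen1]
  have hct2 : (strW e a a (arr M (as.map not))).count true = v := by
    rw [strW_count_true, hlen2]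
  have haC : L ^ (4 * k + 6) ≤ 4 ^ (4 * k + 6) * a := by
    refine ha.trans (Nat.mul_le_mul_right _ ?_)
    calc 8 ≤ 4 ^ 2 := by norm_num
      _ ≤ 4 ^ (4 * k + 6) := Nat.pow_le_pow_right (by norm_num) (by omega)
  set zz : ℝ := (1 - (1 - q ^ 2) + (1 - q ^ 2) * t) ^ N * (1 - (1 - q) + (1 - q) * t) ^ v with hzz
  have hsc1 := scal_maskLaw hden1.ne' hden2.ne' (strW e a a (arr M as))
  have hsc2 := scal_maskLaw hden1.ne' hden2.ne' (strW e a a (arr M (as.map not)))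
  rw [hcf1, hct1, hseq, hfeq, maskLaw_strW, maskLaw_strW] at hsc1
  rw [hcf2, hct2, hseq, hfeq, maskLaw_strW, maskLaw_strW] at hsc2
  have hscP : ∀ j, t ^ j * (Kp (1 - q ^ 2) ^ N * Kp (1 - q) ^ v).coeff j =
      zz * (Kp s ^ N * Kp f ^ v).coeff j := by
    intro j
    have := scal_KK (s := 1 - q ^ 2) (f := 1 - q) hden1.ne' hden2.ne' N v j
    rw [hseq, hfeq] at this
    exact this
  -- lower bound for the tilted mass
  have hN0 : N0 ≤ N := by
    have h5 : L ≤ L ^ (4 * k + 6) := by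
      calc L = L ^ 1 := (pow_one L).symm
        _ ≤ L ^ (4 * k + 6) := Nat.pow_le_pow_right hLone (by omega)
    omega
  have hmN : (m : ℝ) = s * N := by rw [hsdef]; field_simp
  have hlamt : c1 / √(N : ℝ) ≤ (Kp s ^ N * Kp f ^ v).coeff m := by
    refine hlam N hN0 v hvc m ?_ ?_ f ?_ ?_
    · rw [hmN]; have := hgood.1; gcongr
    · rw [hmN]; have := hgood.2.1; gcongr
    · linarith [hgood.2.2.1]
    · linarith [hgood.2.2.2]
  set lam' := (Kp s ^ N * Kp f ^ v).coeff m with hlam'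
  set lam := (Kp (1 - q ^ 2) ^ N * Kp (1 - q) ^ v).coeff m with hlamdef
  have hsqrtN : 0 < √(N : ℝ) := Real.sqrt_pos.mpr hNpos
  have hlam'0 : 0 < lam' := lt_of_lt_of_le (by positivity) hlamt
  have hzz0 : 0 < zz := by rw [hzz]; positivity
  have hlam0 : 0 < lam := by
    have h6 := hscP m
    have h7 : 0 < zz * lam' := by positivity
    rw [← hlam', ← hlamdef] at h6
    rw [← h6] at h7
    exact (mul_pos_iff_of_pos_left (by positivity)).mp h7
  have hlamsq : c1 ^ 2 / (C' * (L : ℝ) ^ (4 * k + 6)) ≤ lam' ^ 2 := by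
    calc c1 ^ 2 / (C' * (L : ℝ) ^ (4 * k + 6)) ≤ c1 ^ 2 / N := by gcongr
      _ = (c1 / √(N : ℝ)) ^ 2 := by rw [div_pow, Real.sq_sqrt hNpos.le]
      _ ≤ lam' ^ 2 := by gcongr
  -- the two bounds for the tilted strings
  have hD := hLd L hLd' s f hgood a a haC ha' haC m
  have hLow := hLl L hLl' s f hgood (arr M as) (by rw [hlen1]; exact hv3) a a haC ha' haC m
  have hB1 : S ((1 - aq) / aq) m (Xn (1 - q ^ 2) (1 - q) e a a (arr M as) -
      Xn (1 - q ^ 2) (1 - q) e a a (arr M (as.map not))) ≤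
        (Cd * C' / c1 ^ 2 / (L : ℝ) ^ (7 * k + 5)) * lam ^ 2 := by
    refine tilt_transfer ht (Z' := Xn s f e a a (arr M as) - Xn s f e a a (arr M (as.map not)))
      (zz := zz) (lam' := lam') ?_ (hscP m) ?_
    · rw [scal_sub, hsc1, hsc2, smul_sub]
    · refine hD.trans ?_
      calc Cd / (L : ℝ) ^ (11 * k + 11)
          = (Cd * C' / c1 ^ 2 / (L : ℝ) ^ (7 * k + 5)) *
              (c1 ^ 2 / (C' * (L : ℝ) ^ (4 * k + 6))) := by
            have : (L : ℝ) ^ (11 * k + 11) = (L : ℝ) ^ (7 * k + 5) * (L : ℝ) ^ (4 * k + 6) := by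
              rw [← pow_add]; congr 1; ring
            rw [this]; field_simp
        _ ≤ _ := by gcongr
  have hB2 : S w2 m (Xn (1 - q ^ 2) (1 - q) e a a (arr M as) -
      ι (Kp (1 - q ^ 2) ^ N * Kp (1 - q) ^ v)) ≤ (Cl * C' / c1 ^ 2 / (L : ℝ)) * lam ^ 2 := by
    refine tilt_transfer ht (Z' := Xn s f e a a (arr M as) - ι (Kp s ^ N * Kp f ^ v))
      (zz := zz) (lam' := lam') ?_ (hscP m) ?_
    · rw [scal_sub, hsc1, scal_ι t _ _ zz hscP, smul_sub]
    · have hLow' : S w2 m (Xn s f e a a (arr M as) - ι (Kp s ^ N * Kp f ^ v)) ≤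
          Cl / (L : ℝ) ^ (4 * k + 7) := by
        have e9 : a + a + 2 * L ^ (2 * k + 2) * (arr M as).length = N := by
          rw [hlen1, hN]; ring
        have e10 := hLow
        rw [e9, hlen1] at e10
        exact e10
      refine hLow'.trans ?_
      calc Cl / (L : ℝ) ^ (4 * k + 7)
          = (Cl * C' / c1 ^ 2 / (L : ℝ)) * (c1 ^ 2 / (C' * (L : ℝ) ^ (4 * k + 6))) := by
            have : (L : ℝ) ^ (4 * k + 7) = (L : ℝ) * (L : ℝ) ^ (4 * k + 6) := by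
              rw [← pow_succ']
            rw [this]; field_simp
        _ ≤ _ := by gcongr
  -- nonnegativity
  have hnn : ∀ bs : List Bool, ∀ u : List Bool,
      0 ≤ ev aq (Xn (1 - q ^ 2) (1 - q) e a a bs) u := by
    intro bs u
    have h8 := symLaw_nonneg h0.le h1.le (strW e a a bs) u
    rw [symLaw_eq h0 h1, maskLaw_strW] at h8
    exact nonneg_of_mul_nonneg_right h8 (kap_pos haq0 haq1 u)
  have hfin := hslice m _ _ lam hlam0 (fun u _ => hnn (arr M as) u)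
    (fun u _ => hnn (arr M (as.map not)) u) (Kp (1 - q ^ 2) ^ N * Kp (1 - q) ^ v) rfl _ _ hB1 hB2
  have hsum : sumL m (fun u =>
        (√(symLaw q (strW e a a (arr M as)) u) -
         √(symLaw q (strW e a a (arr M (as.map not))) u)) ^ 2) =
      Ex aq m (fun u => (√(ev aq (Xn (1 - q ^ 2) (1 - q) e a a (arr M as)) u) -
        √(ev aq (Xn (1 - q ^ 2) (1 - q) e a a (arr M (as.map not))) u)) ^ 2) := by
    rw [← sumL_kap]
    congr 1
    funext u
    rw [symLaw_eq h0 h1, symLaw_eq h0 h1, maskLaw_strW, maskLaw_strW,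
      Real.sqrt_mul (kap_pos haq0 haq1 u).le, Real.sqrt_mul (kap_pos haq0 haq1 u).le, ← mul_sub,
      mul_pow, Real.sq_sqrt (kap_pos haq0 haq1 u).le]
  rw [hsum]
  refine hfin.trans (le_of_eq ?_)
  rw [div_pow (Cl * C' / c1 ^ 2) (L : ℝ)]
  field_simp

end P321
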