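import Vale.Agent.TR321.MainC

/-! # P321 module MainD: affinity of the two strings -/

namespace P321

open Polynomial NC Finset

/-- largeness: `(N+v+1) * 2 * exp(-c2 N) ≤ 1 / L^(7k+5)` -/
theorem large_exp (k : ℕ) {c2 C' : ℝ} (hc2 : 0 < c2) (hC'0 : 0 < C') :
    ∃ L2 : ℕ, ∀ L : ℕ, L2 ≤ L →
      (C' * (L : ℝ) ^ (4 * k + 6) + 3 * (L : ℝ) ^ (2 * k) + 1) *
        (2 * Real.exp (-c2 * ((L : ℝ) ^ (4 * k + 6) / 4))) ≤ 1 / (L : ℝ) ^ (7 * k + 5) := by
  have htend : Filter.Tendsto (fun x : ℝ => x ^ (11 * k + 12) * Real.exp (-(c2 / 4) * x))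
      Filter.atTop (nhds 0) := by
    have := Real.tendsto_pow_mul_exp_neg_atTop_nhds_zero (11 * k + 12)
    have h2 := this.comp (Filter.tendsto_id.const_mul_atTop (show (0:ℝ) < c2 / 4 by positivity))
    have h3 := h2.const_mul ((4 / c2) ^ (11 * k + 12))
    rw [mul_zero] at h3
    refine h3.congr (fun x => ?_)
    simp only [Function.comp, id]
    have : (c2 / 4 * x) ^ (11 * k + 12) = (c2 / 4) ^ (11 * k + 12) * x ^ (11 * k + 12) :=
      mul_pow _ _ _
    rw [this, ← mul_assoc, ← mul_assoc, ← mul_pow]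
    have h4 : 4 / c2 * (c2 / 4) = 1 := by field_simp
    rw [h4, one_pow, one_mul, neg_mul]
  have hev : ∀ᶠ x : ℝ in Filter.atTop,
      x ^ (11 * k + 12) * Real.exp (-(c2 / 4) * x) < 1 / (2 * (C' + 4)) :=
    htend.eventually (gt_mem_nhds (by positivity))
  obtain ⟨x0, hx0⟩ := Filter.eventually_atTop.mp hev
  obtain ⟨n0, hn0⟩ := exists_nat_ge (max x0 1)
  refine ⟨n0, fun L hL => ?_⟩
  have hLn : (max x0 1) ≤ (L : ℝ) := hn0.trans (by exact_mod_cast hL)
  have hLr : (1 : ℝ) ≤ L := (le_max_right _ _).trans hLn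
  have hLx : x0 ≤ (L : ℝ) := (le_max_left _ _).trans hLn
  have hLp : (0 : ℝ) < L := by linarith
  have e1 : (L : ℝ) ≤ (L : ℝ) ^ (4 * k + 6) := by
    calc (L : ℝ) = (L : ℝ) ^ 1 := (pow_one _).symm
      _ ≤ _ := pow_le_pow_right₀ hLr (by omega)
  have e2 : Real.exp (-c2 * ((L : ℝ) ^ (4 * k + 6) / 4)) ≤ Real.exp (-(c2 / 4) * L) := by
    apply Real.exp_le_exp.mpr
    nlinarith
  have e3 : C' * (L : ℝ) ^ (4 * k + 6) + 3 * (L : ℝ) ^ (2 * k) + 1 ≤
      (C' + 4) * (L : ℝ) ^ (4 * k + 6) := by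
    have h5 : (L : ℝ) ^ (2 * k) ≤ (L : ℝ) ^ (4 * k + 6) := pow_le_pow_right₀ hLr (by omega)
    have h6 : (1 : ℝ) ≤ (L : ℝ) ^ (4 * k + 6) := one_le_pow₀ hLr
    nlinarith
  have e4 := hx0 L hLx
  rw [le_div_iff₀ (by positivity)]
  calc (C' * (L : ℝ) ^ (4 * k + 6) + 3 * (L : ℝ) ^ (2 * k) + 1) *
        (2 * Real.exp (-c2 * ((L : ℝ) ^ (4 * k + 6) / 4))) * (L : ℝ) ^ (7 * k + 5)
      ≤ ((C' + 4) * (L : ℝ) ^ (4 * k + 6)) * (2 * Real.exp (-(c2 / 4) * L)) *
          (L : ℝ) ^ (7 * k + 5) := by gcongr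
    _ = (2 * (C' + 4)) * ((L : ℝ) ^ (11 * k + 11) * Real.exp (-(c2 / 4) * L)) := by
        have : (L : ℝ) ^ (11 * k + 11) = (L : ℝ) ^ (4 * k + 6) * (L : ℝ) ^ (7 * k + 5) := by
          rw [← pow_add]; congr 1; ring
        rw [this]; ring
    _ ≤ (2 * (C' + 4)) * ((L : ℝ) ^ (11 * k + 12) * Real.exp (-(c2 / 4) * L)) := by
        have : (L : ℝ) ^ (11 * k + 11) ≤ (L : ℝ) ^ (11 * k + 12) :=
          pow_le_pow_right₀ hLr (by omega)
        gcongr
    _ ≤ (2 * (C' + 4)) * (1 / (2 * (C' + 4))) := by gcongr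
    _ = 1 := by field_simp

theorem final_sum {n : ℕ} {H lam : ℕ → ℝ} {x ex D : ℝ} (h0 : ∀ m, 0 ≤ H m)
    (h : ∀ m, H m ≤ lam m * x + ex) (hs : ∑ m ∈ range n, lam m = 1) (hD : (n : ℝ) * ex ≤ D) :
    1 / 2 * ∑ m ∈ range n, H m ≤ x + D := by
  have h1 : ∑ m ∈ range n, H m ≤ x + n * ex := by
    refine (sum_le_sum (fun m _ => h m)).trans (le_of_eq ?_)
    rw [sum_add_distrib, ← sum_mul, hs, one_mul, sum_const, card_range, nsmul_eq_mul]
  have h2 : 0 ≤ ∑ m ∈ range n, H m := sum_nonneg (fun m _ => h0 m)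
  linarith

theorem mSumL_nonneg {m : ℕ} {g : List Bool → ℝ} (hg : ∀ u, 0 ≤ g u) : 0 ≤ sumL m g := by
  induction m generalizing g with
  | zero => exact hg _
  | succ m ih => exact add_nonneg (ih fun u => hg _) (ih fun u => hg _)

/-- the affinity bound -/
theorem aff_main {q : ℝ} (h0 : 0 < q) (h1 : q < 1) (k : ℕ) (hk : 1 ≤ k) :
    ∃ C : ℝ, 0 < C ∧ ∃ L0 : ℕ, ∀ L ≥ L0, ∀ a : ℕ,
      L ^ (4 * k + 6) ≤ 8 * a → a ≤ 4 ^ (4 * k + 6) * L ^ (4 * k + 6) → ∃ Y : ℕ,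
      1 - aff Y
        (symLaw q (strW (L ^ (2 * k + 2)) a a (arr (L ^ (2 * k)) (tm (6 * k + 6)))))
        (symLaw q (strW (L ^ (2 * k + 2)) a a
            (arr (L ^ (2 * k)) ((tm (6 * k + 6)).map not)))) ≤ C / (L : ℝ) ^ (7 * k + 5) := by
  have hsq0 : 0 < 1 - q ^ 2 := by nlinarith
  have hsq1 : 1 - q ^ 2 < 1 := by nlinarith [pow_pos h0 2]
  have hfq0 : 0 < 1 - q := by linarith
  have hfq1 : 1 - q < 1 := by linarith
  obtain ⟨C, hC, η, hη, L1, hL1⟩ := slice_main h0 h1 k hk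
  obtain ⟨c2, hc2, htail⟩ := lam_tail hsq0 hsq1 hfq0 hfq1 hη
  set C' : ℝ := 2 * 4 ^ (4 * k + 6) + 6 with hC'
  have hC'0 : 0 < C' := by positivity
  obtain ⟨L2, hL2⟩ := large_exp k hc2 hC'0
  refine ⟨C + 1, by positivity, max (max L1 L2) (2 ^ (6 * k + 6)), ?_⟩
  intro L hL a ha ha'
  have hL1' : L1 ≤ L := le_trans (le_trans (le_max_left _ _) (le_max_left _ _)) hL
  have hL2' : L2 ≤ L := le_trans (le_trans (le_max_right _ _) (le_max_left _ _)) hL
  have hL3' : 2 ^ (6 * k + 6) ≤ L := le_trans (le_max_right _ _) hL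
  obtain ⟨hLone, hv3, hNl, hNu⟩ := param_bounds k L a hL3' hk ha ha'
  set v := 2 * L ^ (2 * k) + 2 ^ (6 * k + 6) with hv
  set N := 2 * a + 2 * L ^ (2 * k + 2) * v with hN
  have hLr : (1 : ℝ) ≤ L := by exact_mod_cast hLone
  have hLp : (0 : ℝ) < L := by linarith
  have hNlr : (L : ℝ) ^ (4 * k + 6) ≤ 4 * N := by exact_mod_cast hNl
  have hNur : (N : ℝ) ≤ C' * (L : ℝ) ^ (4 * k + 6) := by
    rw [hC']; exact_mod_cast hNu
  have hvr : (v : ℝ) ≤ 3 * (L : ℝ) ^ (2 * k) := by exact_mod_cast hv3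
  set e := L ^ (2 * k + 2) with he
  set M := L ^ (2 * k) with hM
  set as := tm (6 * k + 6) with has
  have haslen : as.length = 2 ^ (6 * k + 6) := tm_length _
  have hlen1 : (arr M as).length = v := by rw [arr_length, haslen, hv]
  have hlen2 : (arr M (as.map not)).length = v := by rw [arr_length, List.length_map, haslen, hv]
  have heone : 1 ≤ e := Nat.one_le_pow _ _ hLone
  have hcf1 : (strW e a a (arr M as)).count false = N := by
    rw [strW_count_false heone, hlen1, hN]; ring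
  have hcf2 : (strW e a a (arr M (as.map not))).count false = N := by
    rw [strW_count_false heone, hlen2, hN]; ring
  have hct1 : (strW e a a (arr M as)).count true = v := by
    rw [strW_count_true, hlen1]
  have hct2 : (strW e a a (arr M (as.map not))).count true = v := by
    rw [strW_count_true, hlen2]
  have hl1 : (strW e a a (arr M as)).length = N + v := by
    rw [strW_length heone, hlen1, hN]; ring
  have hl2 : (strW e a a (arr M (as.map not))).length = N + v := by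
    rw [strW_length heone, hlen2, hN]; ring
  have hvN : v ≤ N := by
    have h5 : 1 * v ≤ 2 * e * v := Nat.mul_le_mul_right v (by omega)
    rw [one_mul] at h5
    exact h5.trans (Nat.le_add_left _ _)
  refine ⟨N + v, ?_⟩
  have hP := symLaw_nonneg h0.le h1.le (strW e a a (arr M as))
  have hQ := symLaw_nonneg h0.le h1.le (strW e a a (arr M (as.map not)))
  rw [one_sub_aff hP hQ (tot_symLaw q hl1.le) (tot_symLaw q hl2.le)]
  set lam : ℕ → ℝ := fun m => (Kp (1 - q ^ 2) ^ N * Kp (1 - q) ^ v).coeff m with hlam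
  have hlam0 : ∀ m, 0 ≤ lam m := fun m => coeff_KK_nonneg hsq0.le hsq1.le hfq0.le hfq1.le N v m
  set ex : ℝ := 2 * Real.exp (-c2 * ((L : ℝ) ^ (4 * k + 6) / 4)) with hex
  have hex0 : 0 ≤ ex := by positivity
  have hterm : ∀ m, sumL m (fun u =>
        (√(symLaw q (strW e a a (arr M as)) u) -
         √(symLaw q (strW e a a (arr M (as.map not))) u)) ^ 2) ≤
      lam m * (C / (L : ℝ) ^ (7 * k + 5)) + ex := by
    intro m
    by_cases hm : |(m : ℝ) - (N * (1 - q ^ 2) + v * (1 - q))| ≤ η * N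
    · have := hL1 L hL1' a ha ha' m N v rfl rfl hm
      linarith
    · rw [not_le] at hm
      have h6 := sumL_hell_le (m := m) hP hQ
      rw [sumL_symLaw h0 h1, sumL_symLaw h0 h1, hcf1, hcf2, hct1, hct2] at h6
      have h7 := htail N v m hvN hm.le
      have h8 : Real.exp (-c2 * N) ≤ Real.exp (-c2 * ((L : ℝ) ^ (4 * k + 6) / 4)) := by
        apply Real.exp_le_exp.mpr
        nlinarith
      have h9 : 0 ≤ lam m * (C / (L : ℝ) ^ (7 * k + 5)) := mul_nonneg (hlam0 m) (by positivity)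
      rw [hex]
      linarith
  rw [add_div]
  refine final_sum (lam := lam) (fun m => mSumL_nonneg (fun u => sq_nonneg _)) hterm
    (sum_coeff_KK _ _ N v (N + v) le_rfl) ?_
  refine le_trans ?_ (hL2 L hL2')
  refine mul_le_mul_of_nonneg_right ?_ hex0
  push_cast
  linarith

end P321
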