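import Mathlib

/-!
# P321: the trace reconstruction model (definitions used in the final statement)
-/

namespace P321

/-- The trace of `x` when exactly the bits with `keep i = true` survive: the surviving bits,
concatenated in their original order. -/
def trace {n : ℕ} (x : Fin n → Bool) (keep : Fin n → Bool) : List Bool :=
  ((List.finRange n).filter keep).map x

/-- Probability of the survival pattern `keep`: each bit is deleted independently with
probability `q`. -/
noncomputable def patProb (q : ℝ) {n : ℕ} (keep : Fin n → Bool) : ℝ :=
  ∏ i, if keep i then 1 - q else q

/-- A randomized estimator from `m` traces: to each sequence of `m` binary strings it assigns a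
probability vector on `{0,1}^n`. -/
def IsEstimator {n m : ℕ} (est : (Fin m → List Bool) → (Fin n → Bool) → ℝ) : Prop :=
  (∀ t x, 0 ≤ est t x) ∧ ∀ t, ∑ x, est t x = 1

/-- The probability that the estimator `est` outputs `x` when it is given `m` independent traces
of `x`. -/
noncomputable def successProb (q : ℝ) {n m : ℕ}
    (est : (Fin m → List Bool) → (Fin n → Bool) → ℝ) (x : Fin n → Bool) : ℝ :=
  ∑ K : Fin m → Fin n → Bool, (∏ j, patProb q (K j)) * est (fun j => trace x (K j)) x

/-- `m` traces suffice to reconstruct every `x ∈ {0,1}^n` with probability at least `2/3`. -/
def Reconstructible (q : ℝ) (n m : ℕ) : Prop :=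
  ∃ est : (Fin m → List Bool) → (Fin n → Bool) → ℝ, IsEstimator est ∧
    ∀ x, 2 / 3 ≤ successProb q est x

end P321
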