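import Vale.Agent.TR321.Defs

/-! # P321 module NCa: basic facts on the weighted square sums `S` -/

namespace P321

open Polynomial NC

theorem S_nonneg {w : ℝ} (hw : 0 ≤ w) (y : ℕ) (f : NC) : 0 ≤ S w y f := by
  induction y generalizing f with
  | zero => exact sq_nonneg _
  | succ y ih => exact add_nonneg (ih _) (mul_nonneg hw (ih _))

theorem S_smul (w : ℝ) (y : ℕ) (c : ℝ) (f : NC) : S w y (c • f) = c ^ 2 * S w y f := by
  induction y generalizing f with
  | zero => simp [mul_pow]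
  | succ y ih =>
    rw [S_succ, S_succ, d_smul, d_smul, ih, ih]
    ring

theorem S_zero (w : ℝ) (y : ℕ) : S w y (0 : NC) = 0 := by
  have := S_smul w y 0 0
  simpa using this

theorem S_neg (w : ℝ) (y : ℕ) (f : NC) : S w y (-f) = S w y f := by
  have := S_smul w y (-1) f
  simpa using this

theorem S_mono_w {w w' : ℝ} (hw : 0 ≤ w) (h : w ≤ w') (y : ℕ) (f : NC) :
    S w y f ≤ S w' y f := by
  induction y generalizing f with
  | zero => exact le_rfl
  | succ y ih =>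
    rw [S_succ, S_succ]
    exact add_le_add (ih _) (mul_le_mul h (ih _) (S_nonneg hw _ _) (hw.trans h))

theorem NCa_minkowski {w a₁ a₂ b₁ b₂ : ℝ} (hw : 0 ≤ w) :
    √((a₁ + a₂) ^ 2 + w * (b₁ + b₂) ^ 2) ≤ √(a₁ ^ 2 + w * b₁ ^ 2) + √(a₂ ^ 2 + w * b₂ ^ 2) := by
  have h1 : 0 ≤ a₁ ^ 2 + w * b₁ ^ 2 := by positivity
  have h2 : 0 ≤ a₂ ^ 2 + w * b₂ ^ 2 := by positivity
  rw [Real.sqrt_le_iff]
  refine ⟨by positivity, ?_⟩
  have hP := Real.sq_sqrt h1
  have hQ := Real.sq_sqrt h2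
  have key : a₁ * a₂ + w * (b₁ * b₂) ≤ √(a₁ ^ 2 + w * b₁ ^ 2) * √(a₂ ^ 2 + w * b₂ ^ 2) := by
    apply le_of_abs_le
    apply abs_le_of_sq_le_sq _ (by positivity)
    rw [mul_pow, hP, hQ]
    nlinarith [mul_nonneg hw (sq_nonneg (a₁ * b₂ - a₂ * b₁))]
  nlinarith

/-- triangle inequality -/
theorem sqrt_S_add {w : ℝ} (hw : 0 ≤ w) (y : ℕ) (f g : NC) :
    √(S w y (f + g)) ≤ √(S w y f) + √(S w y g) := by
  induction y generalizing f g with
  | zero =>
    simp only [S_zero_left, add_apply, Real.sqrt_sq_eq_abs]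
    exact abs_add_le _ _
  | succ y ih =>
    rw [S_succ, S_succ, S_succ, d_add, d_add]
    have e1 : S w y (d false f + d false g) ≤ (√(S w y (d false f)) + √(S w y (d false g))) ^ 2 :=
      (Real.sqrt_le_left (by positivity)).1 (ih _ _)
    have e2 : S w y (d true f + d true g) ≤ (√(S w y (d true f)) + √(S w y (d true g))) ^ 2 :=
      (Real.sqrt_le_left (by positivity)).1 (ih _ _)
    have e3 := NCa_minkowski (a₁ := √(S w y (d false f))) (a₂ := √(S w y (d false g)))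
      (b₁ := √(S w y (d true f))) (b₂ := √(S w y (d true g))) hw
    rw [Real.sq_sqrt (S_nonneg hw _ _), Real.sq_sqrt (S_nonneg hw _ _),
      Real.sq_sqrt (S_nonneg hw _ _), Real.sq_sqrt (S_nonneg hw _ _)] at e3
    refine (Real.sqrt_le_sqrt ?_).trans e3
    exact add_le_add e1 (mul_le_mul_of_nonneg_left e2 hw)

theorem sqrt_S_sub {w : ℝ} (hw : 0 ≤ w) (y : ℕ) (f g : NC) :
    √(S w y (f - g)) ≤ √(S w y f) + √(S w y g) := by
  have := sqrt_S_add hw y f (-g)
  rwa [S_neg, ← sub_eq_add_neg] at this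

theorem sqrt_S_sum {w : ℝ} (hw : 0 ≤ w) (y : ℕ) {α : Type*} (s : Finset α) (F : α → NC) :
    √(S w y (∑ i ∈ s, F i)) ≤ ∑ i ∈ s, √(S w y (F i)) := by
  classical
  induction s using Finset.induction_on with
  | empty => simp [S_zero]
  | insert a s ha ih =>
    rw [Finset.sum_insert ha, Finset.sum_insert ha]
    exact (sqrt_S_add hw y _ _).trans (add_le_add le_rfl ih)

theorem S_add_le {w : ℝ} (hw : 0 ≤ w) (y : ℕ) (f g : NC) :
    S w y (f + g) ≤ 2 * S w y f + 2 * S w y g := by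
  induction y generalizing f g with
  | zero =>
    simp only [S_zero_left, add_apply]
    nlinarith [sq_nonneg (f [] - g [])]
  | succ y ih =>
    rw [S_succ, S_succ, S_succ, d_add, d_add]
    have := mul_le_mul_of_nonneg_left (ih (d true f) (d true g)) hw
    linarith [ih (d false f) (d false g)]

theorem S_ι (w : ℝ) (y : ℕ) (P : ℝ[X]) : S w y (ι P) = (P.coeff y) ^ 2 := by
  induction y generalizing P with
  | zero => simp
  | succ y ih =>
    rw [S_succ, d_false_ι, d_true_ι, ih, S_zero, Polynomial.coeff_divX]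
    ring

theorem S_x0_mul_zero (w : ℝ) (f : NC) : S w 0 (x0 * f) = 0 := by
  simp

theorem S_x0_mul_succ (w : ℝ) (y : ℕ) (f : NC) : S w (y + 1) (x0 * f) = S w y f := by
  rw [S_succ, d_false_x0_mul, d_true_x0_mul, S_zero]
  ring

theorem S_mul_x0_zero (w : ℝ) (f : NC) : S w 0 (f * x0) = 0 := by
  simp

theorem NCa_S_const (w : ℝ) (y : ℕ) (c : ℝ) (f : NC) :
    S w (y + 1) (c • (1 : NC) + f) = S w (y + 1) f := by
  rw [S_succ, S_succ, d_add, d_add, d_smul, d_smul, d_one, d_one, smul_zero, zero_add, zero_add]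

theorem S_mul_x0_succ (w : ℝ) (y : ℕ) (f : NC) : S w (y + 1) (f * x0) = S w y f := by
  induction y generalizing f with
  | zero =>
    rw [S_succ, d_mul, d_mul, d_false_x0, d_true_x0]
    simp
  | succ y ih =>
    rw [S_succ, d_mul, d_mul, d_false_x0, d_true_x0, smul_zero, zero_add, NCa_S_const, ih, ih,
      ← S_succ]

theorem NCa_B_nonneg {w : ℝ} {f : NC} {B : ℝ} (hB : ∀ y, √(S w y f) ≤ B) : 0 ≤ B :=
  (Real.sqrt_nonneg _).trans (hB 0)

theorem NCa_x0_pow_mul {w : ℝ} {f : NC} {B : ℝ} (hB : ∀ y, √(S w y f) ≤ B) (k : ℕ) (y : ℕ) :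
    √(S w y (x0 ^ k * f)) ≤ B := by
  induction k generalizing y with
  | zero => simpa using hB y
  | succ k ih =>
    rw [pow_succ', mul_assoc]
    cases y with
    | zero =>
      rw [S_x0_mul_zero, Real.sqrt_zero]
      exact NCa_B_nonneg hB
    | succ y =>
      rw [S_x0_mul_succ]
      exact ih y

theorem NCa_mul_x0_pow {w : ℝ} {f : NC} {B : ℝ} (hB : ∀ y, √(S w y f) ≤ B) (k : ℕ) (y : ℕ) :
    √(S w y (f * x0 ^ k)) ≤ B := by
  induction k generalizing y with
  | zero => simpa using hB y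
  | succ k ih =>
    rw [pow_succ, ← mul_assoc]
    cases y with
    | zero =>
      rw [S_mul_x0_zero, Real.sqrt_zero]
      exact NCa_B_nonneg hB
    | succ y =>
      rw [S_mul_x0_succ]
      exact ih y

theorem NCa_ι_sum (P : ℝ[X]) : ι P = ∑ k ∈ P.support, P.coeff k • x0 ^ k := by
  conv_lhs => rw [P.as_sum_support_C_mul_X_pow]
  rw [map_sum]
  refine Finset.sum_congr rfl fun k _ => ?_
  rw [map_mul, map_pow, ι_C, ι_X, smul_mul_assoc, one_mul]

theorem NCa_sqrt_smul (w : ℝ) (y : ℕ) (c : ℝ) (f : NC) :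
    √(S w y (c • f)) = |c| * √(S w y f) := by
  rw [S_smul, Real.sqrt_mul (sq_nonneg c), Real.sqrt_sq_eq_abs]

/-- left multiplication by a polynomial in `x0` is bounded by the `ℓ¹` norm -/
theorem sqrt_S_ι_mul_le {w : ℝ} (hw : 0 ≤ w) {f : NC} {B : ℝ} (hB : ∀ y, √(S w y f) ≤ B)
    (P : ℝ[X]) (y : ℕ) : √(S w y (ι P * f)) ≤ l1 P * B := by
  rw [NCa_ι_sum, Finset.sum_mul]
  refine (sqrt_S_sum hw y _ _).trans ?_
  unfold l1
  rw [Finset.sum_mul]
  refine Finset.sum_le_sum fun k _ => ?_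
  rw [smul_mul_assoc, NCa_sqrt_smul]
  exact mul_le_mul_of_nonneg_left (NCa_x0_pow_mul hB k y) (abs_nonneg _)

/-- right multiplication by a polynomial in `x0` is bounded by the `ℓ¹` norm -/
theorem sqrt_S_mul_ι_le {w : ℝ} (hw : 0 ≤ w) {f : NC} {B : ℝ} (hB : ∀ y, √(S w y f) ≤ B)
    (P : ℝ[X]) (y : ℕ) : √(S w y (f * ι P)) ≤ l1 P * B := by
  rw [NCa_ι_sum, Finset.mul_sum]
  refine (sqrt_S_sum hw y _ _).trans ?_
  unfold l1
  rw [Finset.sum_mul]
  refine Finset.sum_le_sum fun k _ => ?_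
  rw [mul_smul_comm, NCa_sqrt_smul]
  exact mul_le_mul_of_nonneg_left (NCa_mul_x0_pow hB k y) (abs_nonneg _)

/-! ### `Bd` and `SB` -/

theorem Bd_mono {b : Bool} {u : ℕ → ℝ} {A B : ℝ} (h : Bd b u A) (hAB : A ≤ B) : Bd b u B := by
  cases b with
  | false => exact fun y => (h y).trans hAB
  | true => exact fun y => (h y).trans hAB

theorem Bd_mono_left {b : Bool} {u v : ℕ → ℝ} {A : ℝ} (huv : ∀ y, u y ≤ v y) (h : Bd b v A) :
    Bd b u A := by
  cases b with
  | false => exact fun y => (huv y).trans (h y)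
  | true => exact fun y => (Finset.sum_le_sum fun i _ => huv i).trans (h y)

theorem SB_mono {b : Bool} {w : ℝ} {Z : NC} {A B : ℝ} (h : SB b w Z A) (hAB : A ≤ B) :
    SB b w Z B := Bd_mono h hAB

theorem SB_nonneg {b : Bool} {w : ℝ} (hw : 0 ≤ w) {Z : NC} {A : ℝ} (h : SB b w Z A) : 0 ≤ A := by
  cases b with
  | false => exact (S_nonneg hw 0 Z).trans (h 0)
  | true => simpa using h 0

theorem SB_smul {b : Bool} {w : ℝ} {Z : NC} {A : ℝ} (h : SB b w Z A) (c : ℝ) :
    SB b w (c • Z) (c ^ 2 * A) := by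
  cases b with
  | false =>
    intro y
    change S w y (c • Z) ≤ _
    rw [S_smul]
    exact mul_le_mul_of_nonneg_left (h y) (sq_nonneg c)
  | true =>
    intro Y
    simp only [S_smul]
    rw [← Finset.mul_sum]
    exact mul_le_mul_of_nonneg_left (h Y) (sq_nonneg c)

theorem SB_add {b : Bool} {w : ℝ} (hw : 0 ≤ w) {Y Z : NC} {A B : ℝ} (hY : SB b w Y A)
    (hZ : SB b w Z B) : SB b w (Y + Z) (2 * A + 2 * B) := by
  refine Bd_mono_left (fun y => S_add_le hw y Y Z) ?_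
  cases b with
  | false =>
    intro y
    have h1 : S w y Y ≤ A := hY y
    have h2 : S w y Z ≤ B := hZ y
    change 2 * S w y Y + 2 * S w y Z ≤ _
    linarith
  | true =>
    intro N
    have h1 : ∑ y ∈ Finset.range N, S w y Y ≤ A := hY N
    have h2 : ∑ y ∈ Finset.range N, S w y Z ≤ B := hZ N
    rw [Finset.sum_add_distrib, ← Finset.mul_sum, ← Finset.mul_sum]
    linarith

theorem NCa_SB_neg {b : Bool} {w : ℝ} {Z : NC} {A : ℝ} (h : SB b w Z A) : SB b w (-Z) A :=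
  Bd_mono_left (fun y => (S_neg w y Z).le) h

theorem SB_sub {b : Bool} {w : ℝ} (hw : 0 ≤ w) {Y Z : NC} {A B : ℝ} (hY : SB b w Y A)
    (hZ : SB b w Z B) : SB b w (Y - Z) (2 * A + 2 * B) := by
  rw [sub_eq_add_neg]
  exact SB_add hw hY (NCa_SB_neg hZ)

/-- a sum bound gives a sup bound -/
theorem SB_true_to {b : Bool} {w : ℝ} (hw : 0 ≤ w) {Z : NC} {A : ℝ} (h : SB true w Z A) :
    SB b w Z A := by
  cases b with
  | false =>
    intro y
    refine le_trans ?_ (h (y + 1))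
    exact Finset.single_le_sum (f := fun y => S w y Z) (fun i _ => S_nonneg hw i Z)
      (Finset.self_mem_range_succ y)
  | true => exact h

theorem SB_sum_false {w : ℝ} (hw : 0 ≤ w) {α : Type*} (s : Finset α) (F : α → NC) (B : ℝ)
    (h : ∀ i ∈ s, SB false w (F i) B) :
    SB false w (∑ i ∈ s, F i) ((s.card : ℝ) ^ 2 * B) := by
  intro y
  change S w y (∑ i ∈ s, F i) ≤ _
  rcases s.eq_empty_or_nonempty with rfl | ⟨i₀, hi₀⟩
  · simp [S_zero]
  have hB : 0 ≤ B := SB_nonneg hw (h i₀ hi₀)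
  have h1 : √(S w y (∑ i ∈ s, F i)) ≤ s.card * √B := by
    refine (sqrt_S_sum hw y _ _).trans ?_
    rw [← nsmul_eq_mul, ← Finset.sum_const]
    exact Finset.sum_le_sum fun i hi => Real.sqrt_le_sqrt (h i hi y)
  have h2 := (Real.sqrt_le_left (by positivity)).1 h1
  rwa [mul_pow, Real.sq_sqrt hB] at h2

end P321
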