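import Vale.Agent.TR321.NCa

/-! # P321 module NCc: decomposition by the first `x1`, near-disjointness lemma -/

namespace P321

open Polynomial NC Finset

/-! ### auxiliary lemmas -/

theorem ncc_sum_apply {α : Type*} (s : Finset α) (F : α → NC) (μ : List Bool) :
    (∑ i ∈ s, F i) μ = ∑ i ∈ s, F i μ := by
  classical
  induction s using Finset.induction_on with
  | empty => simp
  | insert a s ha ih => rw [Finset.sum_insert ha, Finset.sum_insert ha, NC.add_apply, ih]

theorem ncc_d_sum (b : Bool) {α : Type*} (s : Finset α) (F : α → NC) :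
    d b (∑ i ∈ s, F i) = ∑ i ∈ s, d b (F i) := by
  classical
  induction s using Finset.induction_on with
  | empty => simp
  | insert a s ha ih => rw [Finset.sum_insert ha, Finset.sum_insert ha, d_add, ih]

theorem ncc_d_false (P : ℝ[X]) (v : ℕ) (b : ℕ → ℝ[X]) (Z : ℕ → NC) :
    d false (ι P + ∑ j ∈ range v, ι (b j) * x1 * Z j) =
      ι P.divX + ∑ j ∈ range v, ι (b j).divX * x1 * Z j := by
  rw [d_add, d_false_ι, ncc_d_sum]
  congr 1
  refine Finset.sum_congr rfl fun j _ => ?_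
  rw [mul_assoc, d_false_ι_mul, d_false_x1_mul, smul_zero, zero_add, mul_assoc]

theorem ncc_d_true (P : ℝ[X]) (v : ℕ) (b : ℕ → ℝ[X]) (Z : ℕ → NC) :
    d true (ι P + ∑ j ∈ range v, ι (b j) * x1 * Z j) =
      ∑ j ∈ range v, (b j).coeff 0 • Z j := by
  rw [d_add, d_true_ι, zero_add, ncc_d_sum]
  refine Finset.sum_congr rfl fun j _ => ?_
  rw [mul_assoc, d_true_ι_mul, d_true_x1_mul]

theorem S_decomp_zero (w : ℝ) (P : ℝ[X]) (v : ℕ) (b : ℕ → ℝ[X]) (Z : ℕ → NC) :
    S w 0 (ι P + ∑ j ∈ range v, ι (b j) * x1 * Z j) = (P.coeff 0) ^ 2 := by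
  have h : (∑ j ∈ range v, ι (b j) * x1 * Z j) [] = 0 := by
    rw [ncc_sum_apply]
    refine Finset.sum_eq_zero fun j _ => ?_
    simp
  rw [S_zero_left, NC.add_apply, h, ι_nil, add_zero]

/-- exact formula, by induction on `y` with `P, b` general (replace them by `divX`) -/
theorem S_decomp (w : ℝ) (P : ℝ[X]) (v : ℕ) (b : ℕ → ℝ[X]) (Z : ℕ → NC) (y : ℕ) :
    S w (y + 1) (ι P + ∑ j ∈ range v, ι (b j) * x1 * Z j) =
      (P.coeff (y + 1)) ^ 2 +
        w * ∑ p ∈ antidiagonal y, S w p.2 (∑ j ∈ range v, (b j).coeff p.1 • Z j) := by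
  induction y generalizing P b with
  | zero =>
    rw [S_succ, ncc_d_false, ncc_d_true, S_decomp_zero, Polynomial.coeff_divX]
    simp
  | succ y ih =>
    rw [S_succ, ncc_d_false, ncc_d_true, ih, Polynomial.coeff_divX,
      Finset.Nat.sum_antidiagonal_succ]
    simp only [Polynomial.coeff_divX]
    ring

theorem ncc_S_le_of_quad {w : ℝ} (hw : 0 ≤ w) {v : ℕ} {c D : ℕ → ℝ}
    (h : ∀ x : ℕ → ℝ, (∑ j ∈ range v, c j * x j) ^ 2 ≤ ∑ j ∈ range v, D j * (x j) ^ 2)
    (y : ℕ) (Z : ℕ → NC) :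
    S w y (∑ j ∈ range v, c j • Z j) ≤ ∑ j ∈ range v, D j * S w y (Z j) := by
  induction y generalizing Z with
  | zero =>
    rw [S_zero_left, ncc_sum_apply]
    simp only [NC.smul_apply, S_zero_left]
    exact h fun j => Z j []
  | succ y ih =>
    have e : ∀ b : Bool, d b (∑ j ∈ range v, c j • Z j) = ∑ j ∈ range v, c j • d b (Z j) := by
      intro b
      rw [ncc_d_sum]
      rfl
    rw [S_succ, e, e]
    calc S w y (∑ j ∈ range v, c j • d false (Z j)) + w * S w y (∑ j ∈ range v, c j • d true (Z j))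
        ≤ ∑ j ∈ range v, D j * S w y (d false (Z j)) +
          w * ∑ j ∈ range v, D j * S w y (d true (Z j)) :=
          add_le_add (ih _) (mul_le_mul_of_nonneg_left (ih _) hw)
      _ = ∑ j ∈ range v, D j * S w (y + 1) (Z j) := by
          rw [Finset.mul_sum, ← Finset.sum_add_distrib]
          refine Finset.sum_congr rfl fun j _ => ?_
          rw [S_succ]; ring

theorem ncc_quad (v : ℕ) (c : ℕ → ℝ) (κ : ℕ) {τ : ℝ} (hτ : 0 ≤ τ)
    (hκ : ((range v).filter (fun j => τ < |c j|)).card ≤ κ) (x : ℕ → ℝ) :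
    (∑ j ∈ range v, c j * x j) ^ 2 ≤
      ∑ j ∈ range v, (2 * κ * (c j) ^ 2 + 2 * v * τ * |c j|) * (x j) ^ 2 := by
  classical
  have hsplit : ∑ j ∈ range v, c j * x j =
      (∑ j ∈ (range v).filter (fun j => τ < |c j|), c j * x j) +
        ∑ j ∈ (range v).filter (fun j => ¬ τ < |c j|), c j * x j :=
    (Finset.sum_filter_add_sum_filter_not _ _ _).symm
  have hbad : (∑ j ∈ (range v).filter (fun j => τ < |c j|), c j * x j) ^ 2 ≤
      κ * ∑ j ∈ range v, (c j) ^ 2 * (x j) ^ 2 := by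
    calc (∑ j ∈ (range v).filter (fun j => τ < |c j|), c j * x j) ^ 2
        ≤ ((range v).filter (fun j => τ < |c j|)).card *
          ∑ j ∈ (range v).filter (fun j => τ < |c j|), (c j * x j) ^ 2 :=
          sq_sum_le_card_mul_sum_sq
      _ ≤ κ * ∑ j ∈ (range v).filter (fun j => τ < |c j|), (c j * x j) ^ 2 := by
          refine mul_le_mul_of_nonneg_right (by exact_mod_cast hκ) ?_
          exact Finset.sum_nonneg fun j _ => sq_nonneg _
      _ ≤ κ * ∑ j ∈ range v, (c j) ^ 2 * (x j) ^ 2 := by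
          refine mul_le_mul_of_nonneg_left ?_ (Nat.cast_nonneg _)
          calc ∑ j ∈ (range v).filter (fun j => τ < |c j|), (c j * x j) ^ 2
              ≤ ∑ j ∈ range v, (c j * x j) ^ 2 :=
                Finset.sum_le_sum_of_subset_of_nonneg (Finset.filter_subset _ _)
                  fun j _ _ => sq_nonneg _
            _ = ∑ j ∈ range v, (c j) ^ 2 * (x j) ^ 2 :=
                Finset.sum_congr rfl fun j _ => by ring
  have hgood : (∑ j ∈ (range v).filter (fun j => ¬ τ < |c j|), c j * x j) ^ 2 ≤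
      v * ∑ j ∈ range v, τ * |c j| * (x j) ^ 2 := by
    have hc : (((range v).filter (fun j => ¬ τ < |c j|)).card : ℝ) ≤ v := by
      have := Finset.card_filter_le (range v) (fun j => ¬ τ < |c j|)
      rw [Finset.card_range] at this
      exact_mod_cast this
    calc (∑ j ∈ (range v).filter (fun j => ¬ τ < |c j|), c j * x j) ^ 2
        ≤ ((range v).filter (fun j => ¬ τ < |c j|)).card *
          ∑ j ∈ (range v).filter (fun j => ¬ τ < |c j|), (c j * x j) ^ 2 :=
          sq_sum_le_card_mul_sum_sq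
      _ ≤ v * ∑ j ∈ (range v).filter (fun j => ¬ τ < |c j|), (c j * x j) ^ 2 :=
          mul_le_mul_of_nonneg_right hc (Finset.sum_nonneg fun j _ => sq_nonneg _)
      _ ≤ v * ∑ j ∈ (range v).filter (fun j => ¬ τ < |c j|), τ * |c j| * (x j) ^ 2 := by
          refine mul_le_mul_of_nonneg_left (Finset.sum_le_sum fun j hj => ?_) (Nat.cast_nonneg _)
          have hj' : |c j| ≤ τ := not_lt.1 (Finset.mem_filter.1 hj).2
          have h2 : (c j) ^ 2 ≤ τ * |c j| := by
            rw [← sq_abs, sq]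
            exact mul_le_mul_of_nonneg_right hj' (abs_nonneg _)
          rw [mul_pow]
          exact mul_le_mul_of_nonneg_right h2 (sq_nonneg _)
      _ ≤ v * ∑ j ∈ range v, τ * |c j| * (x j) ^ 2 := by
          refine mul_le_mul_of_nonneg_left ?_ (Nat.cast_nonneg _)
          exact Finset.sum_le_sum_of_subset_of_nonneg (Finset.filter_subset _ _)
            fun j _ _ => mul_nonneg (mul_nonneg hτ (abs_nonneg _)) (sq_nonneg _)
  rw [hsplit]
  calc _ ≤ 2 * (∑ j ∈ (range v).filter (fun j => τ < |c j|), c j * x j) ^ 2 +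
        2 * (∑ j ∈ (range v).filter (fun j => ¬ τ < |c j|), c j * x j) ^ 2 := by
          nlinarith [sq_nonneg ((∑ j ∈ (range v).filter (fun j => τ < |c j|), c j * x j) -
            ∑ j ∈ (range v).filter (fun j => ¬ τ < |c j|), c j * x j)]
    _ ≤ 2 * (κ * ∑ j ∈ range v, (c j) ^ 2 * (x j) ^ 2) +
        2 * (v * ∑ j ∈ range v, τ * |c j| * (x j) ^ 2) := by linarith
    _ = ∑ j ∈ range v, (2 * κ * (c j) ^ 2 + 2 * v * τ * |c j|) * (x j) ^ 2 := by
          rw [Finset.mul_sum, Finset.mul_sum, Finset.mul_sum, Finset.mul_sum,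
            ← Finset.sum_add_distrib]
          exact Finset.sum_congr rfl fun j _ => by ring

/-- at most `κ` of the coefficients exceed `τ` in absolute value -/
theorem S_lincomb_le {w : ℝ} (hw : 0 ≤ w) (v : ℕ) (c : ℕ → ℝ) (Z : ℕ → NC) (y : ℕ) (κ : ℕ)
    {τ : ℝ} (hτ : 0 ≤ τ) (hκ : ((range v).filter (fun j => τ < |c j|)).card ≤ κ) :
    S w y (∑ j ∈ range v, c j • Z j) ≤
      ∑ j ∈ range v, (2 * κ * (c j) ^ 2 + 2 * v * τ * |c j|) * S w y (Z j) :=
  ncc_S_le_of_quad hw (fun x => ncc_quad v c κ hτ hκ x) y Z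

/-! ### convolution bounds -/

theorem ncc_Bd_nonneg {b : Bool} {u : ℕ → ℝ} (hu : ∀ y, 0 ≤ u y) {B : ℝ} (h : Bd b u B) :
    0 ≤ B := by
  cases b with
  | false => exact (hu 0).trans (h 0)
  | true => simpa using h 0

theorem ncc_conv {b : Bool} {D s : ℕ → ℝ} (hD0 : ∀ g, 0 ≤ D g) (hs0 : ∀ g, 0 ≤ s g) {A B : ℝ}
    (hD : ∀ Y, ∑ g ∈ range Y, D g ≤ A) (hs : Bd b s B) :
    Bd b (fun y => ∑ p ∈ antidiagonal y, D p.1 * s p.2) (A * B) := by
  have hB : 0 ≤ B := ncc_Bd_nonneg hs0 hs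
  cases b with
  | false =>
    intro y
    change ∑ p ∈ antidiagonal y, D p.1 * s p.2 ≤ A * B
    calc ∑ p ∈ antidiagonal y, D p.1 * s p.2 ≤ ∑ p ∈ antidiagonal y, D p.1 * B :=
          Finset.sum_le_sum fun p _ => mul_le_mul_of_nonneg_left (hs p.2) (hD0 _)
      _ = (∑ g ∈ range (y + 1), D g) * B := by
          rw [← Finset.sum_mul, Finset.Nat.sum_antidiagonal_eq_sum_range_succ (fun g _ => D g)]
      _ ≤ A * B := mul_le_mul_of_nonneg_right (hD _) hB
  | true =>
    intro Y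
    change ∑ y ∈ range Y, ∑ p ∈ antidiagonal y, D p.1 * s p.2 ≤ A * B
    have h1 : ∑ y ∈ range Y, ∑ p ∈ antidiagonal y, D p.1 * s p.2 ≤
        ∑ q ∈ range Y ×ˢ range Y, D q.1 * s q.2 := by
      rw [← Finset.sum_biUnion]
      · refine Finset.sum_le_sum_of_subset_of_nonneg ?_
          fun q _ _ => mul_nonneg (hD0 _) (hs0 _)
        intro q hq
        rw [Finset.mem_biUnion] at hq
        obtain ⟨y, hy, hq⟩ := hq
        rw [Finset.HasAntidiagonal.mem_antidiagonal] at hq
        rw [Finset.mem_range] at hy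
        rw [Finset.mem_product, Finset.mem_range, Finset.mem_range]
        omega
      · intro y _ y' _ hne
        rw [Function.onFun, Finset.disjoint_left]
        intro q hq hq'
        rw [Finset.HasAntidiagonal.mem_antidiagonal] at hq hq'
        exact hne (hq.symm.trans hq')
    have h2 : ∑ q ∈ range Y ×ˢ range Y, D q.1 * s q.2 =
        (∑ g ∈ range Y, D g) * ∑ h ∈ range Y, s h := by
      rw [Finset.sum_mul_sum, Finset.sum_product]
    refine h1.trans (h2.trans_le ?_)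
    exact mul_le_mul (hD Y) (hs Y) (Finset.sum_nonneg fun g _ => hs0 g)
      ((Finset.sum_nonneg fun g _ => hD0 g).trans (hD Y))

theorem ncc_Bd_sum {b : Bool} {v : ℕ} {u : ℕ → ℕ → ℝ} {A : ℕ → ℝ}
    (h : ∀ j < v, Bd b (u j) (A j)) :
    Bd b (fun y => ∑ j ∈ range v, u j y) (∑ j ∈ range v, A j) := by
  cases b with
  | false =>
    intro y
    exact Finset.sum_le_sum fun j hj => h j (Finset.mem_range.1 hj) y
  | true =>
    intro Y
    change ∑ y ∈ range Y, ∑ j ∈ range v, u j y ≤ _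
    rw [Finset.sum_comm]
    exact Finset.sum_le_sum fun j hj => h j (Finset.mem_range.1 hj) Y

theorem ncc_Bd_const_mul {b : Bool} {u : ℕ → ℝ} {A c : ℝ} (hc : 0 ≤ c) (h : Bd b u A) :
    Bd b (fun y => c * u y) (c * A) := by
  cases b with
  | false =>
    intro y
    exact mul_le_mul_of_nonneg_left (h y) hc
  | true =>
    intro Y
    change ∑ y ∈ range Y, c * u y ≤ _
    rw [← Finset.mul_sum]
    exact mul_le_mul_of_nonneg_left (h Y) hc

/-- assemble a bound for a sequence whose successor values are bounded by a sum -/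
theorem ncc_Bd_succ {b : Bool} {u p c : ℕ → ℝ} {P0 C : ℝ} (hp0 : ∀ y, 0 ≤ p y)
    (hc0 : ∀ y, 0 ≤ c y) (h0 : u 0 ≤ p 0) (hs : ∀ y, u (y + 1) ≤ p (y + 1) + c y)
    (hp : Bd b p P0) (hc : Bd b c C) : Bd b u (P0 + C) := by
  have hC : 0 ≤ C := ncc_Bd_nonneg hc0 hc
  have hP : 0 ≤ P0 := ncc_Bd_nonneg hp0 hp
  cases b with
  | false =>
    intro y
    cases y with
    | zero => exact h0.trans ((hp 0).trans (by linarith))
    | succ y => exact (hs y).trans (add_le_add (hp _) (hc _))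
  | true =>
    intro Y
    cases Y with
    | zero => simpa using add_nonneg hP hC
    | succ Y =>
      have h1 : ∑ y ∈ range Y, u (y + 1) ≤ ∑ y ∈ range Y, (p (y + 1) + c y) :=
        Finset.sum_le_sum fun y _ => hs y
      rw [Finset.sum_add_distrib] at h1
      have h2 : (∑ y ∈ range Y, p (y + 1)) + p 0 ≤ P0 := by
        rw [← Finset.sum_range_succ']
        exact hp (Y + 1)
      have h3 : ∑ y ∈ range Y, c y ≤ C := hc Y
      change ∑ y ∈ range (Y + 1), u y ≤ P0 + C
      rw [Finset.sum_range_succ']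
      linarith

theorem ncc_sum_coeff_le (Q : ℝ[X]) (F : ℝ → ℝ) (hF0 : F 0 = 0) (hF : ∀ t, 0 ≤ F t) (Y : ℕ) :
    ∑ g ∈ range Y, F (Q.coeff g) ≤ ∑ g ∈ Q.support, F (Q.coeff g) := by
  classical
  calc ∑ g ∈ range Y, F (Q.coeff g) = ∑ g ∈ (range Y).filter (fun g => g ∈ Q.support),
        F (Q.coeff g) := by
        rw [Finset.sum_filter]
        refine Finset.sum_congr rfl fun g _ => ?_
        by_cases hg : g ∈ Q.support
        · simp [hg]
        · have : Q.coeff g = 0 := Polynomial.notMem_support_iff.1 hg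
          simp [this, hF0]
    _ ≤ ∑ g ∈ Q.support, F (Q.coeff g) := by
        refine Finset.sum_le_sum_of_subset_of_nonneg ?_ fun g _ _ => hF _
        intro g hg
        exact (Finset.mem_filter.1 hg).2

/-- the main bound for a sum `ι P + f ∑ ι (b_j) x1 Z_j` -/
theorem SB_decomp {b : Bool} {w : ℝ} (hw : 0 ≤ w) (P : ℝ[X]) (v : ℕ) (bj : ℕ → ℝ[X])
    (Z : ℕ → NC) (κ : ℕ) {τ : ℝ} (hτ : 0 ≤ τ)
    (hND : ∀ g, ((range v).filter (fun j => τ < |(bj j).coeff g|)).card ≤ κ)
    (A B : ℕ → ℝ) (P0 : ℝ) (hP : Bd b (fun y => (P.coeff y) ^ 2) P0)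
    (hA : ∀ j < v, 2 * κ * l2 (bj j) + 2 * v * τ * l1 (bj j) ≤ A j)
    (hB : ∀ j < v, SB b w (Z j) (B j)) (f : ℝ) :
    SB b w (ι P + f • ∑ j ∈ range v, ι (bj j) * x1 * Z j)
      (P0 + w * f ^ 2 * ∑ j ∈ range v, A j * B j) := by
  have hrew : f • ∑ j ∈ range v, ι (bj j) * x1 * Z j =
      ∑ j ∈ range v, ι (bj j) * x1 * (f • Z j) := by
    rw [Finset.smul_sum]
    exact Finset.sum_congr rfl fun j _ => (NC.mul_smul' _ _ _).symm
  -- the coefficient sequences
  set D : ℕ → ℕ → ℝ := fun j g =>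
    2 * κ * ((bj j).coeff g) ^ 2 + 2 * v * τ * |(bj j).coeff g| with hDdef
  have hD0 : ∀ j g, 0 ≤ D j g := by
    intro j g
    have h1 : (0 : ℝ) ≤ 2 * κ * ((bj j).coeff g) ^ 2 := by positivity
    have h2 : (0 : ℝ) ≤ 2 * v * τ * |(bj j).coeff g| := by positivity
    exact add_nonneg h1 h2
  have hDsum : ∀ j < v, ∀ Y, ∑ g ∈ range Y, D j g ≤ A j := by
    intro j hj Y
    refine le_trans ?_ (hA j hj)
    rw [hDdef]
    simp only
    rw [Finset.sum_add_distrib, ← Finset.mul_sum, ← Finset.mul_sum]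
    refine add_le_add (mul_le_mul_of_nonneg_left ?_ (by positivity))
      (mul_le_mul_of_nonneg_left ?_ (by positivity))
    · exact ncc_sum_coeff_le (bj j) (fun t => t ^ 2) (by simp) (fun t => sq_nonneg t) Y
    · exact ncc_sum_coeff_le (bj j) (fun t => |t|) (by simp) (fun t => abs_nonneg t) Y
  have hconv : Bd b (fun y => ∑ j ∈ range v, ∑ p ∈ antidiagonal y, D j p.1 * S w p.2 (Z j))
      (∑ j ∈ range v, A j * B j) :=
    ncc_Bd_sum fun j hj => ncc_conv (hD0 j) (fun y => S_nonneg hw y (Z j)) (hDsum j hj) (hB j hj)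
  have hwf : 0 ≤ w * f ^ 2 := mul_nonneg hw (sq_nonneg f)
  have hconv' := ncc_Bd_const_mul hwf hconv
  rw [hrew]
  refine ncc_Bd_succ (p := fun y => (P.coeff y) ^ 2) (fun y => sq_nonneg _) ?_ ?_ ?_ hP hconv'
  · intro y
    refine mul_nonneg hwf (Finset.sum_nonneg fun j _ => Finset.sum_nonneg fun p _ => ?_)
    exact mul_nonneg (hD0 _ _) (S_nonneg hw _ _)
  · exact le_of_eq (S_decomp_zero w P v bj fun j => f • Z j)
  · intro y
    rw [S_decomp]
    refine add_le_add (le_refl _) ?_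
    rw [mul_assoc w]
    refine mul_le_mul_of_nonneg_left ?_ hw
    have h1 : ∀ p ∈ antidiagonal y,
        S w p.2 (∑ j ∈ range v, (bj j).coeff p.1 • f • Z j) ≤
          ∑ j ∈ range v, D j p.1 * (f ^ 2 * S w p.2 (Z j)) := by
      intro p _
      refine (S_lincomb_le hw v (fun j => (bj j).coeff p.1) (fun j => f • Z j) p.2 κ hτ
        (hND p.1)).trans (le_of_eq ?_)
      refine Finset.sum_congr rfl fun j _ => ?_
      rw [S_smul]
    refine (Finset.sum_le_sum h1).trans (le_of_eq ?_)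
    rw [Finset.sum_comm, Finset.mul_sum]
    refine Finset.sum_congr rfl fun j _ => ?_
    rw [Finset.mul_sum]
    refine Finset.sum_congr rfl fun p _ => ?_
    ring

end P321
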