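import Vale.Agent.TR321.Chain

/-! # P321 module SiteBounds: from sites to chains -/

namespace P321

open Polynomial NC Finset

/-- gap list of `K^{c0} · site α₁ ⋯ site α_v`: the exponents of `K` before each planted letter -/
def gaps (e : ℕ) : ℕ → List Bool → List ℕ
  | _, [] => []
  | c0, (α :: as) => (c0 + e + α.toNat) :: gaps e (e - α.toNat) as

/-- exponent of `K` after the last planted letter -/
def lastG (e : ℕ) : ℕ → List Bool → ℕ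
  | c0, [] => c0
  | _, (α :: as) => lastG e (e - α.toNat) as

theorem sites_eq_chain (s f : ℝ) (e c0 : ℕ) (as : List Bool) (θ : ℝ[X]) :
    ι (Kp s ^ c0) * sites s f e as * ι θ =
      chainK s f (gaps e c0 as) (Kp s ^ (lastG e c0 as) * θ) := by
  induction as generalizing c0 with
  | nil =>
    simp only [sites, List.map_nil, List.prod_nil, mul_one, gaps, lastG, chainK, map_mul]
  | cons α as ih =>
    have h := ih (e - α.toNat)
    simp only [gaps, lastG, chainK]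
    rw [← h]
    simp only [sites, List.map_cons, List.prod_cons, site]
    rw [show c0 + e + α.toNat = c0 + (e + α.toNat) by ring, pow_add (Kp s) c0, map_mul]
    noncomm_ring

theorem gaps_length (e c0 : ℕ) (as : List Bool) : (gaps e c0 as).length = as.length := by
  induction as generalizing c0 with
  | nil => rfl
  | cons α as ih => simp only [gaps, List.length_cons, ih]

/-- total number of `K` -/
theorem gaps_sum (e c0 : ℕ) (he : 1 ≤ e) (as : List Bool) :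
    (gaps e c0 as).sum + lastG e c0 as = c0 + 2 * e * as.length := by
  induction as generalizing c0 with
  | nil => simp [gaps, lastG]
  | cons α as ih =>
    have h := ih (e - α.toNat)
    have hα : α.toNat ≤ 1 := by cases α <;> simp
    simp only [gaps, lastG, List.sum_cons, List.length_cons]
    have h2 : 2 * e * (as.length + 1) = 2 * e * as.length + 2 * e := by ring
    rw [h2]
    omega

theorem mem_gaps {e : ℕ} (he : 1 ≤ e) (c0 : ℕ) (hc0 : c0 ≤ 2 * e) (as : List Bool) :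
    ∀ c ∈ gaps e c0 as, e ≤ c ∧ c ≤ 4 * e := by
  induction as generalizing c0 with
  | nil => simp [gaps]
  | cons α as ih =>
    intro c hc
    have hα : α.toNat ≤ 1 := by cases α <;> simp
    simp only [gaps, List.mem_cons] at hc
    rcases hc with hc | hc
    · subst hc; omega
    · exact ih (e - α.toNat) (by omega) c hc

theorem adm_gaps {k L : ℕ} (hL : 1 ≤ L) {c0 : ℕ} (hc0 : c0 ≤ 2 * L ^ (2 * k + 2))
    {as : List Bool} (has : as.length ≤ 3 * L ^ (2 * k)) :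
    Adm k L (gaps (L ^ (2 * k + 2)) c0 as) := by
  refine ⟨by rw [gaps_length]; exact has, mem_gaps ?_ c0 hc0 as⟩
  exact Nat.one_le_pow _ _ hL

theorem l1_mul_le_of {P Q : ℝ[X]} {a b : ℝ} (hP : l1 P ≤ a) (hQ : l1 Q ≤ b) :
    l1 (P * Q) ≤ a * b :=
  (l1_mul_le P Q).trans (mul_le_mul hP hQ (l1_nonneg Q) ((l1_nonneg P).trans hP))

theorem SB_x0_mul {w : ℝ} (hw : 0 ≤ w) {Z : NC} {A : ℝ} (h : SB true w Z A) :
    SB true w (x0 * Z) A := by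
  intro Y
  cases Y with
  | zero => simpa using SB_nonneg hw h
  | succ Y =>
    rw [Finset.sum_range_succ']
    simp only [S_x0_mul_succ, S_x0_mul_zero, add_zero]
    exact h Y

/-- bringing out the factor `X - 1` -/
theorem pull_sub_one (P : ℝ[X]) (Y : NC) (θ : NC) :
    ι ((X - 1) * P) * Y * θ = ι (X - 1) * (ι P * Y * θ) := by
  rw [map_mul]
  noncomm_ring

/-- bringing out a polynomial factor on the left -/
theorem pull_left (P : ℝ[X]) (s : ℝ) (Y : NC) (θ : NC) :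
    ι P * Y * θ = ι P * (ι (Kp s ^ 0) * Y * θ) := by
  rw [pow_zero, map_one]
  noncomm_ring

variable {c : ℝ}

/-- constant bound -/
theorem sb0 (hc : 0 < c) (k : ℕ) {w : ℝ} (hw : 0 ≤ w) :
    ∃ C : ℝ, 0 < C ∧ ∃ L0 : ℕ, ∀ L ≥ L0, ∀ s f : ℝ, Good c s f →
      ∀ as : List Bool, as.length ≤ 3 * L ^ (2 * k) → ∀ c0 ≤ 2 * L ^ (2 * k + 2),
      ∀ θ : ℝ[X], l1 θ ≤ 2 →
      SB true w (ι (Kp s ^ c0) * sites s f (L ^ (2 * k + 2)) as * ι θ) C := by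
  obtain ⟨C, hC, L0, h⟩ := chain0 hc k hw
  refine ⟨C, hC, max L0 1, fun L hL s f hg as has c0 hc0 θ hθ => ?_⟩
  have hL1 : 1 ≤ L := (le_max_right _ _).trans hL
  rw [sites_eq_chain]
  refine h L ((le_max_left _ _).trans hL) s f hg _ (adm_gaps hL1 hc0 has) _ ?_
  have h0 : 0 ≤ s := hc.le.trans hg.1
  have h1 : s ≤ 1 := by linarith [hg.2.1]
  have := l1_mul_le_of (l1_Kp_pow_le h0 h1 (lastG (L ^ (2 * k + 2)) c0 as)) hθ
  linarith

theorem sb0' (hc : 0 < c) (k : ℕ) {w : ℝ} (hw : 0 ≤ w) :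
    ∃ C : ℝ, 0 < C ∧ ∃ L0 : ℕ, ∀ L ≥ L0, ∀ s f : ℝ, Good c s f →
      ∀ as : List Bool, as.length ≤ 3 * L ^ (2 * k) → ∀ c0 ≤ 2 * L ^ (2 * k + 2),
      ∀ θ : ℝ[X], l1 θ ≤ 2 →
      SB true w (ι ((X - 1) * Kp s ^ c0) * sites s f (L ^ (2 * k + 2)) as * ι θ) C := by
  obtain ⟨C, hC, L0, h⟩ := sb0 hc k hw
  refine ⟨2 * C + 2 * C, by linarith, L0, fun L hL s f hg as has c0 hc0 θ hθ => ?_⟩
  have h1 := h L hL s f hg as has c0 hc0 θ hθ
  rw [pull_sub_one, map_sub, ι_X, map_one, sub_mul, one_mul]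
  exact SB_sub hw (SB_x0_mul hw h1) h1

/-- right-outer, sup bound -/
theorem sb1 (hc : 0 < c) (k C0 : ℕ) {w : ℝ} (hw : 0 ≤ w) :
    ∃ C : ℝ, 0 < C ∧ ∃ L0 : ℕ, ∀ L ≥ L0, ∀ s f : ℝ, Good c s f →
      ∀ as : List Bool, as.length ≤ 3 * L ^ (2 * k) → ∀ c0 ≤ 2 * L ^ (2 * k + 2),
      ∀ b : ℕ, L ^ (4 * k + 6) ≤ C0 * b →
      SB false w (ι (Kp s ^ c0) * sites s f (L ^ (2 * k + 2)) as * ι (Kp s ^ b))
        (C / (L : ℝ) ^ (4 * k + 6)) := by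
  obtain ⟨C, hC, L0, h⟩ := chain1 hc k C0 hw
  refine ⟨C, hC, max L0 1, fun L hL s f hg as has c0 hc0 b hb => ?_⟩
  have hL1 : 1 ≤ L := (le_max_right _ _).trans hL
  have hL0 : L0 ≤ L := (le_max_left _ _).trans hL
  have hadm := adm_gaps hL1 hc0 has
  have h1 := h L hL0 s f hg _ hadm (lastG (L ^ (2 * k + 2)) c0 as + b)
    (hb.trans (Nat.mul_le_mul_left _ (Nat.le_add_left _ _))) 1 l1_one.le
  rw [sites_eq_chain]
  rwa [mul_one, pow_add (Kp s)] at h1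

theorem sb1' (hc : 0 < c) (k C0 : ℕ) {w : ℝ} (hw : 0 ≤ w) :
    ∃ C : ℝ, 0 < C ∧ ∃ L0 : ℕ, ∀ L ≥ L0, ∀ s f : ℝ, Good c s f →
      ∀ as : List Bool, as.length ≤ 3 * L ^ (2 * k) → ∀ c0 ≤ 2 * L ^ (2 * k + 2),
      ∀ b : ℕ, L ^ (4 * k + 6) ≤ C0 * b →
      SB false w (ι ((X - 1) * Kp s ^ c0) * sites s f (L ^ (2 * k + 2)) as * ι (Kp s ^ b))
        (C / (L : ℝ) ^ (7 * k + 9)) := by
  obtain ⟨C, hC, L0, h⟩ := chain1' hc k C0 hw
  refine ⟨C, hC, max L0 1, fun L hL s f hg as has c0 hc0 b hb => ?_⟩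
  have hL1 : 1 ≤ L := (le_max_right _ _).trans hL
  have hL0 : L0 ≤ L := (le_max_left _ _).trans hL
  have hadm := adm_gaps hL1 hc0 has
  have h1 := h L hL0 s f hg _ hadm (lastG (L ^ (2 * k + 2)) c0 as + b)
    (hb.trans (Nat.mul_le_mul_left _ (Nat.le_add_left _ _))) 1 l1_one.le
  rw [pull_sub_one, sites_eq_chain]
  rwa [mul_one, pow_add (Kp s)] at h1

/-- middle, sum bound -/
theorem sb2 (hc : 0 < c) (k : ℕ) {w : ℝ} (hw : 0 ≤ w) :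
    ∃ C : ℝ, 0 < C ∧ ∃ L0 : ℕ, ∀ L ≥ L0, ∀ s f : ℝ, Good c s f →
      ∀ as : List Bool, as.length ≤ 3 * L ^ (2 * k) → ∀ c0 ≤ 2 * L ^ (2 * k + 2),
      ∀ N i : ℕ, L ^ (2 * k + 2) ≤ N →
      SB true w (ι (Kp s ^ c0) * sites s f (L ^ (2 * k + 2)) as * ι (Kp s ^ N * Kp f ^ i))
        (C / ((L : ℝ) ^ (k + 1) * √((as.length : ℝ) + 1))) := by
  obtain ⟨C, hC, L0, h⟩ := chain2 hc k hw
  refine ⟨C, hC, max L0 1, fun L hL s f hg as has c0 hc0 N i hN => ?_⟩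
  have hL1 : 1 ≤ L := (le_max_right _ _).trans hL
  have hL0 : L0 ≤ L := (le_max_left _ _).trans hL
  have hadm := adm_gaps hL1 hc0 has
  have hf0 : 0 ≤ f := hc.le.trans hg.2.2.1
  have hf1 : f ≤ 1 := by linarith [hg.2.2.2]
  have h1 := h L hL0 s f hg _ hadm (lastG (L ^ (2 * k + 2)) c0 as + N)
    (hN.trans (Nat.le_add_left _ _)) (Kp f ^ i) (l1_Kp_pow_le hf0 hf1 i)
  rw [sites_eq_chain]
  rwa [gaps_length, pow_add (Kp s), mul_assoc (Kp s ^ lastG (L ^ (2 * k + 2)) c0 as)] at h1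

theorem sb2' (hc : 0 < c) (k : ℕ) {w : ℝ} (hw : 0 ≤ w) :
    ∃ C : ℝ, 0 < C ∧ ∃ L0 : ℕ, ∀ L ≥ L0, ∀ s f : ℝ, Good c s f →
      ∀ as : List Bool, as.length ≤ 3 * L ^ (2 * k) → ∀ c0 ≤ 2 * L ^ (2 * k + 2),
      ∀ N i : ℕ, L ^ (2 * k + 2) ≤ N →
      SB true w
        (ι ((X - 1) * Kp s ^ c0) * sites s f (L ^ (2 * k + 2)) as * ι (Kp s ^ N * Kp f ^ i))
        (C / ((L : ℝ) ^ (3 * k + 3) * (((as.length : ℝ) + 1) * √((as.length : ℝ) + 1))) +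
          C / ((L : ℝ) ^ (4 * k + 4) * √((as.length : ℝ) + 1))) := by
  obtain ⟨C, hC, L0, h⟩ := chain2' hc k hw
  refine ⟨C, hC, max L0 1, fun L hL s f hg as has c0 hc0 N i hN => ?_⟩
  have hL1 : 1 ≤ L := (le_max_right _ _).trans hL
  have hL0 : L0 ≤ L := (le_max_left _ _).trans hL
  have hadm := adm_gaps hL1 hc0 has
  have hf0 : 0 ≤ f := hc.le.trans hg.2.2.1
  have hf1 : f ≤ 1 := by linarith [hg.2.2.2]
  have h1 := h L hL0 s f hg _ hadm (lastG (L ^ (2 * k + 2)) c0 as + N)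
    (hN.trans (Nat.le_add_left _ _)) (Kp f ^ i) (l1_Kp_pow_le hf0 hf1 i)
  rw [pull_sub_one, sites_eq_chain]
  rwa [gaps_length, pow_add (Kp s), mul_assoc (Kp s ^ lastG (L ^ (2 * k + 2)) c0 as)] at h1

theorem sb3 (hc : 0 < c) (k : ℕ) {w : ℝ} (hw : 0 ≤ w) :
    ∃ C : ℝ, 0 < C ∧ ∃ L0 : ℕ, ∀ L ≥ L0, ∀ s f : ℝ, Good c s f →
      ∀ as : List Bool, as.length ≤ 3 * L ^ (2 * k) → ∀ c0 ≤ 2 * L ^ (2 * k + 2),
      ∀ N : ℕ, L ^ (2 * k + 2) ≤ N →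
      SB true w
        (ι (Kp s ^ c0) * sites s f (L ^ (2 * k + 2)) as * ι (Kp s ^ N * (X - 1)))
        (C / ((L : ℝ) ^ (3 * k + 3) * (((as.length : ℝ) + 1) * √((as.length : ℝ) + 1))) +
          C / ((L : ℝ) ^ (4 * k + 4) * √((as.length : ℝ) + 1))) := by
  obtain ⟨C, hC, L0, h⟩ := chain3 hc k hw
  refine ⟨C, hC, max L0 1, fun L hL s f hg as has c0 hc0 N hN => ?_⟩
  have hL1 : 1 ≤ L := (le_max_right _ _).trans hL
  have hL0 : L0 ≤ L := (le_max_left _ _).trans hL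
  have hadm := adm_gaps hL1 hc0 has
  have h1 := h L hL0 s f hg _ hadm (lastG (L ^ (2 * k + 2)) c0 as + N)
    (hN.trans (Nat.le_add_left _ _)) 1 l1_one.le
  rw [sites_eq_chain]
  rwa [gaps_length, mul_one, pow_add (Kp s), mul_assoc (Kp s ^ lastG (L ^ (2 * k + 2)) c0 as)] at h1

theorem sb3' (hc : 0 < c) (k : ℕ) {w : ℝ} (hw : 0 ≤ w) :
    ∃ C : ℝ, 0 < C ∧ ∃ L0 : ℕ, ∀ L ≥ L0, ∀ s f : ℝ, Good c s f →
      ∀ as : List Bool, as.length ≤ 3 * L ^ (2 * k) → ∀ c0 ≤ 2 * L ^ (2 * k + 2),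
      ∀ N : ℕ, L ^ (2 * k + 2) ≤ N →
      SB true w
        (ι ((X - 1) * Kp s ^ c0) * sites s f (L ^ (2 * k + 2)) as * ι (Kp s ^ N * (X - 1)))
        (C / (L : ℝ) ^ (5 * k + 5)) := by
  obtain ⟨C, hC, L0, h⟩ := chain3' hc k hw
  refine ⟨C, hC, max L0 1, fun L hL s f hg as has c0 hc0 N hN => ?_⟩
  have hL1 : 1 ≤ L := (le_max_right _ _).trans hL
  have hL0 : L0 ≤ L := (le_max_left _ _).trans hL
  have hadm := adm_gaps hL1 hc0 has
  have h1 := h L hL0 s f hg _ hadm (lastG (L ^ (2 * k + 2)) c0 as + N)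
    (hN.trans (Nat.le_add_left _ _)) 1 l1_one.le
  rw [pull_sub_one, sites_eq_chain]
  rwa [mul_one, pow_add (Kp s), mul_assoc (Kp s ^ lastG (L ^ (2 * k + 2)) c0 as)] at h1

/-- left-outer, sum bound -/
theorem ob2 (hc : 0 < c) (k C0 : ℕ) {w : ℝ} (hw : 0 ≤ w) :
    ∃ C : ℝ, 0 < C ∧ ∃ L0 : ℕ, ∀ L ≥ L0, ∀ s f : ℝ, Good c s f →
      ∀ as : List Bool, as.length ≤ 3 * L ^ (2 * k) →
      ∀ a i : ℕ, L ^ (4 * k + 6) ≤ C0 * a → a ≤ C0 * L ^ (4 * k + 6) → i ≤ L ^ (4 * k + 6) →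
      ∀ N : ℕ, L ^ (2 * k + 2) ≤ N →
      SB true w
        (ι (Kp s ^ a * Kp f ^ i) * sites s f (L ^ (2 * k + 2)) as * ι (Kp s ^ N))
        (C / (L : ℝ) ^ (2 * k + 2)) := by
  obtain ⟨C, hC, L0, h⟩ := outer2 hc k C0 hw
  refine ⟨C, hC, max L0 1, fun L hL s f hg as has a i ha1 ha2 hi N hN => ?_⟩
  have hL1 : 1 ≤ L := (le_max_right _ _).trans hL
  have hL0 : L0 ≤ L := (le_max_left _ _).trans hL
  have hadm := adm_gaps hL1 (Nat.zero_le _ : 0 ≤ 2 * L ^ (2 * k + 2)) has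
  have h1 := h L hL0 s f hg _ hadm a i ha1 ha2 hi (lastG (L ^ (2 * k + 2)) 0 as + N)
    (hN.trans (Nat.le_add_left _ _)) 1 l1_one.le
  rw [pull_left _ s, sites_eq_chain]
  rwa [mul_one, pow_add (Kp s)] at h1

theorem ob3 (hc : 0 < c) (k C0 : ℕ) {w : ℝ} (hw : 0 ≤ w) :
    ∃ C : ℝ, 0 < C ∧ ∃ L0 : ℕ, ∀ L ≥ L0, ∀ s f : ℝ, Good c s f →
      ∀ as : List Bool, as.length ≤ 3 * L ^ (2 * k) →
      ∀ a i : ℕ, L ^ (4 * k + 6) ≤ C0 * a → a ≤ C0 * L ^ (4 * k + 6) → i ≤ L ^ (4 * k + 6) →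
      ∀ N : ℕ, L ^ (2 * k + 2) ≤ N →
      SB true w
        (ι (Kp s ^ a * Kp f ^ i) * sites s f (L ^ (2 * k + 2)) as * ι (Kp s ^ N * (X - 1)))
        (C / (L : ℝ) ^ (5 * k + 4)) := by
  obtain ⟨C, hC, L0, h⟩ := outer3 hc k C0 hw
  refine ⟨C, hC, max L0 1, fun L hL s f hg as has a i ha1 ha2 hi N hN => ?_⟩
  have hL1 : 1 ≤ L := (le_max_right _ _).trans hL
  have hL0 : L0 ≤ L := (le_max_left _ _).trans hL
  have hadm := adm_gaps hL1 (Nat.zero_le _ : 0 ≤ 2 * L ^ (2 * k + 2)) has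
  have h1 := h L hL0 s f hg _ hadm a i ha1 ha2 hi (lastG (L ^ (2 * k + 2)) 0 as + N)
    (hN.trans (Nat.le_add_left _ _)) 1 l1_one.le
  rw [pull_left _ s, sites_eq_chain]
  rwa [mul_one, pow_add (Kp s), mul_assoc (Kp s ^ lastG (L ^ (2 * k + 2)) 0 as)] at h1

/-- pure left-outer -/
theorem ob0 (hc : 0 < c) (k C0 : ℕ) (w : ℝ) :
    ∃ C : ℝ, 0 < C ∧ ∃ L0 : ℕ, ∀ L ≥ L0, ∀ s f : ℝ, Good c s f →
      ∀ a i : ℕ, L ^ (4 * k + 6) ≤ C0 * a →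
      SB true w (ι (Kp s ^ a * Kp f ^ i)) (C / (L : ℝ) ^ (2 * k + 3)) := by
  obtain ⟨C, hC, h⟩ := l2_bound 0 hc
  have hC1 : 0 < C * √(C0 : ℝ) + 1 := by positivity
  refine ⟨C * √(C0 : ℝ) + 1, hC1, 1, fun L hL s f hg a i ha => ?_⟩
  have hLpos : 0 < L ^ (4 * k + 6) := Nat.pow_pos (by omega)
  have ha1 : 1 ≤ a := by
    rcases Nat.eq_zero_or_pos a with h0 | h0
    · subst h0; omega
    · exact h0
  have hf0 : 0 ≤ f := hc.le.trans hg.2.2.1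
  have hf1 : f ≤ 1 := by linarith [hg.2.2.2]
  have h1 := h s hg.1 hg.2.1 a ha1 (Kp f ^ i) (l1_Kp_pow_le hf0 hf1 i)
  rw [pow_zero, pow_zero, one_mul, one_mul] at h1
  intro Y
  simp only [S_ι]
  refine (sum_sq_coeff_le_l2 _ Y).trans (h1.trans ?_)
  have haR : (0 : ℝ) < a := by exact_mod_cast ha1
  have hsa : 0 < √(a : ℝ) := Real.sqrt_pos.mpr haR
  have hLR : (0 : ℝ) < (L : ℝ) := by exact_mod_cast (by omega : 0 < L)
  have h2 : (L : ℝ) ^ (2 * k + 3) ≤ √(C0 : ℝ) * √(a : ℝ) := by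
    rw [← Real.sqrt_mul (Nat.cast_nonneg _)]
    apply Real.le_sqrt_of_sq_le
    rw [← pow_mul]
    have : ((L ^ (4 * k + 6) : ℕ) : ℝ) ≤ ((C0 * a : ℕ) : ℝ) := by exact_mod_cast ha
    push_cast at this
    calc (L : ℝ) ^ ((2 * k + 3) * 2) = (L : ℝ) ^ (4 * k + 6) := by congr 1; ring
      _ ≤ _ := this
  rw [div_le_div_iff₀ hsa (by positivity)]
  calc C * (L : ℝ) ^ (2 * k + 3) ≤ C * (√(C0 : ℝ) * √(a : ℝ)) :=
        mul_le_mul_of_nonneg_left h2 hC.le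
    _ = C * √(C0 : ℝ) * √(a : ℝ) := by ring
    _ ≤ _ := mul_le_mul_of_nonneg_right (by linarith) hsa.le

/-- the non-pure part of the whole string -/
theorem S_low (hc : 0 < c) (k C0 : ℕ) {w : ℝ} (hw : 0 ≤ w) :
    ∃ C : ℝ, 0 < C ∧ ∃ L0 : ℕ, ∀ L ≥ L0, ∀ s f : ℝ, Good c s f →
      ∀ as : List Bool, as.length ≤ 3 * L ^ (2 * k) →
      ∀ a b : ℕ, L ^ (4 * k + 6) ≤ C0 * a → a ≤ C0 * L ^ (4 * k + 6) →
      L ^ (4 * k + 6) ≤ C0 * b →
      SB false w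
        (Xn s f (L ^ (2 * k + 2)) a b as -
          ι (Kp s ^ (a + b + 2 * L ^ (2 * k + 2) * as.length) * Kp f ^ as.length))
        (C / (L : ℝ) ^ (4 * k + 7)) := by
  obtain ⟨C, hC, L0, h⟩ := outer1 hc k C0 hw
  refine ⟨C, hC, max L0 1, fun L hL s f hg as has a b ha1 ha2 hb => ?_⟩
  have hL1 : 1 ≤ L := (le_max_right _ _).trans hL
  have hL0 : L0 ≤ L := (le_max_left _ _).trans hL
  have hadm := adm_gaps hL1 (Nat.zero_le _ : 0 ≤ 2 * L ^ (2 * k + 2)) has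
  have h1 := h L hL0 s f hg _ hadm a 0 ha1 ha2 (Nat.zero_le _)
    (lastG (L ^ (2 * k + 2)) 0 as + b)
    (hb.trans (Nat.mul_le_mul_left _ (Nat.le_add_left _ _))) 1 l1_one.le
  have hsum := gaps_sum (L ^ (2 * k + 2)) 0 (Nat.one_le_pow _ _ hL1) as
  have e1 : Xn s f (L ^ (2 * k + 2)) a b as = ι (Kp s ^ a * Kp f ^ 0) *
      chainK s f (gaps (L ^ (2 * k + 2)) 0 as)
        (Kp s ^ (lastG (L ^ (2 * k + 2)) 0 as + b) * 1) := by
    unfold Xn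
    rw [pow_zero (Kp f), mul_one, mul_one, pow_add (Kp s), ← sites_eq_chain, ← pull_left]
  have e2 : Kp s ^ (a + b + 2 * L ^ (2 * k + 2) * as.length) * Kp f ^ as.length =
      Kp s ^ a * Kp f ^ 0 * (Kp s ^ (gaps (L ^ (2 * k + 2)) 0 as).sum *
        Kp f ^ (gaps (L ^ (2 * k + 2)) 0 as).length) *
        (Kp s ^ (lastG (L ^ (2 * k + 2)) 0 as + b) * 1) := by
    rw [gaps_length, pow_zero, mul_one, mul_one]
    have e3 : a + b + 2 * L ^ (2 * k + 2) * as.length =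
        a + (gaps (L ^ (2 * k + 2)) 0 as).sum + (lastG (L ^ (2 * k + 2)) 0 as + b) := by omega
    rw [e3, pow_add (Kp s), pow_add (Kp s)]
    ring
  rw [e1, e2]
  exact h1

end P321
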