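import Vale.Agent.TR321.NCc
import Vale.Agent.TR321.Coeff
import Vale.Agent.TR321.Chern

/-! # P321 module Steps: one-step bounds for chains -/

namespace P321

open Polynomial NC Finset

/-- expansion of a chain by its first planted letter -/
theorem chain_decomp (s f : ℝ) (cs : List ℕ) (θ ξ : ℝ[X]) :
    ι ξ * chainK s f cs θ =
      ι (ξ * (Kp s ^ cs.sum * Kp f ^ cs.length) * θ) +
        f • ∑ j ∈ range cs.length,
          ι (ξ * pre s f cs j) * x1 * chainK s f (cs.drop (j + 1)) θ := by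
  induction cs generalizing ξ with
  | nil => simp [chainK]
  | cons c cs ih =>
    have h1 : ι ξ * chainK s f (c :: cs) θ =
        ι (ξ * Kp s ^ c * Kp f) * chainK s f cs θ +
          f • (ι (ξ * Kp s ^ c) * x1 * chainK s f cs θ) := by
      rw [chainK, Fn, map_mul ι (ξ * Kp s ^ c), map_mul ι ξ, mul_add, add_mul, mul_add,
        mul_smul_comm, smul_mul_assoc, mul_smul_comm]
      simp only [mul_assoc]
    have e1 : ξ * Kp s ^ c * Kp f * (Kp s ^ cs.sum * Kp f ^ cs.length) * θ =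
        ξ * (Kp s ^ (c :: cs).sum * Kp f ^ (cs.length + 1)) * θ := by
      rw [List.sum_cons, pow_add, pow_succ]
      ring
    have e2 : ∀ j, ξ * Kp s ^ c * Kp f * pre s f cs j = ξ * pre s f (c :: cs) (j + 1) := by
      intro j
      rw [pre, pre, List.take_succ_cons, List.sum_cons, pow_add, pow_succ (Kp f)]
      ring
    have e3 : ξ * Kp s ^ c = ξ * pre s f (c :: cs) 0 := by
      rw [pre]
      simp
    have e4 : ∀ j, (c :: cs).drop (j + 1 + 1) = cs.drop (j + 1) := fun j => rfl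
    have e5 : (c :: cs).drop (0 + 1) = cs := rfl
    rw [h1, ih, List.length_cons, Finset.sum_range_succ', smul_add, ← add_assoc, e1, e5, ← e3]
    simp only [e2, e4]

/-- the sum of the first gaps -/
theorem take_sum_ge {k L : ℕ} {cs : List ℕ} (h : Adm k L cs) {j : ℕ} (hj : j < cs.length) :
    (j + 1) * L ^ (2 * k + 2) ≤ (cs.take (j + 1)).sum := by
  have h1 := List.card_nsmul_le_sum (cs.take (j + 1)) (L ^ (2 * k + 2))
    (fun x hx => (h.2 x (List.mem_of_mem_take hx)).1)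
  rw [List.length_take, min_eq_left (by omega), smul_eq_mul] at h1
  exact h1

theorem l1_KK_le {s f : ℝ} (hs0 : 0 ≤ s) (hs1 : s ≤ 1) (hf0 : 0 ≤ f) (hf1 : f ≤ 1) (N v : ℕ) :
    l1 (Kp s ^ N * Kp f ^ v) ≤ 1 := by
  refine (l1_mul_le _ _).trans ?_
  have h1 := l1_Kp_pow_le hs0 hs1 N
  have h2 := l1_Kp_pow_le hf0 hf1 v
  have h3 := l1_nonneg (Kp s ^ N)
  have h4 := l1_nonneg (Kp f ^ v)
  nlinarith

/-- `√(j+1) ≤ 2 L^k` for the index of a gap -/
theorem sqrt_index_le {k L : ℕ} {cs : List ℕ} (h : Adm k L cs) {j : ℕ} (hj : j < cs.length) :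
    √((j : ℝ) + 1) ≤ 2 * (L : ℝ) ^ k := by
  rw [Real.sqrt_le_left (by positivity)]
  have h1 : j + 1 ≤ 3 * L ^ (2 * k) := (Nat.succ_le_of_lt hj).trans h.1
  have h2 : (j : ℝ) + 1 ≤ 3 * (L : ℝ) ^ (2 * k) := by exact_mod_cast h1
  have h3 : (2 * (L : ℝ) ^ k) ^ 2 = 4 * (L : ℝ) ^ (2 * k) := by
    rw [mul_pow, ← pow_mul, mul_comm k 2]; norm_num
  rw [h3]
  have h4 : 0 ≤ (L : ℝ) ^ (2 * k) := by positivity
  linarith

theorem step_inner {c : ℝ} (hc : 0 < c) (k : ℕ) :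
    ∃ C : ℝ, 0 < C ∧ ∃ L0 : ℕ, ∀ L ≥ L0, ∀ s f : ℝ, Good c s f → ∀ cs : List ℕ, Adm k L cs →
      ∀ (θ : ℝ[X]) (b : Bool) (w : ℝ), 0 ≤ w → ∀ P0 : ℝ,
      Bd b (fun y => ((Kp s ^ cs.sum * Kp f ^ cs.length * θ).coeff y) ^ 2) P0 →
      ∀ B : ℕ → ℝ, (∀ j < cs.length, SB b w (chainK s f (cs.drop (j + 1)) θ) (B j)) →
      SB b w (chainK s f cs θ)
        (P0 + w * C / (L : ℝ) ^ (k + 1) * ∑ j ∈ range cs.length, B j / √((j : ℝ) + 1)) := by
  obtain ⟨C, hC, hl2⟩ := l2_bound 0 hc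
  obtain ⟨L0, hnd⟩ := nd_inner hc k (5 * k + 5)
  refine ⟨2 * C + 12, by positivity, max L0 1, ?_⟩
  intro L hL s f hsf cs hcs θ b w hw P0 hP0 B hB
  have hL1 : 1 ≤ L := (le_max_right _ _).trans hL
  have hL1' : (1 : ℝ) ≤ L := by exact_mod_cast hL1
  have hLpos : (0 : ℝ) < L := by linarith
  obtain ⟨hs0, hs1, hf0, hf1⟩ := hsf
  have hsb := SB_decomp (b := b) hw (Kp s ^ cs.sum * Kp f ^ cs.length * θ) cs.length
    (fun j => pre s f cs j) (fun j => chainK s f (cs.drop (j + 1)) θ) 1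
    (τ := 1 / (L : ℝ) ^ (5 * k + 5)) (by positivity)
    (fun g => hnd L ((le_max_left _ _).trans hL) s f ⟨hs0, hs1, hf0, hf1⟩ cs hcs g)
    (fun j => (2 * C + 12) / ((L : ℝ) ^ (k + 1) * √((j : ℝ) + 1))) B P0 hP0 ?_ hB f
  · have hd := chain_decomp s f cs θ 1
    simp only [map_one, one_mul] at hd
    rw [← hd] at hsb
    refine SB_mono hsb ?_
    have hf2 : f ^ 2 ≤ 1 := by nlinarith
    have hterm : ∀ j ∈ range cs.length, 0 ≤ B j / √((j : ℝ) + 1) := by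
      intro j hj
      have := SB_nonneg hw (hB j (mem_range.1 hj))
      positivity
    have hsum : 0 ≤ ∑ j ∈ range cs.length, B j / √((j : ℝ) + 1) := Finset.sum_nonneg hterm
    have e : ∑ j ∈ range cs.length, (2 * C + 12) / ((L : ℝ) ^ (k + 1) * √((j : ℝ) + 1)) * B j =
        (2 * C + 12) / (L : ℝ) ^ (k + 1) * ∑ j ∈ range cs.length, B j / √((j : ℝ) + 1) := by
      rw [Finset.mul_sum]
      refine Finset.sum_congr rfl (fun j _ => ?_)
      have : 0 < √((j : ℝ) + 1) := by positivity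
      field_simp
    rw [e]
    have e2 : w * (2 * C + 12) / (L : ℝ) ^ (k + 1) * ∑ j ∈ range cs.length, B j / √((j : ℝ) + 1) =
        (w * ((2 * C + 12) / (L : ℝ) ^ (k + 1) *
          ∑ j ∈ range cs.length, B j / √((j : ℝ) + 1))) * 1 := by ring
    rw [e2]
    have e3 : w * f ^ 2 * ((2 * C + 12) / (L : ℝ) ^ (k + 1) *
          ∑ j ∈ range cs.length, B j / √((j : ℝ) + 1)) =
        (w * ((2 * C + 12) / (L : ℝ) ^ (k + 1) *
          ∑ j ∈ range cs.length, B j / √((j : ℝ) + 1))) * f ^ 2 := by ring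
    rw [e3]
    have hpos : 0 ≤ w * ((2 * C + 12) / (L : ℝ) ^ (k + 1) *
          ∑ j ∈ range cs.length, B j / √((j : ℝ) + 1)) := by positivity
    linarith [mul_le_mul_of_nonneg_left hf2 hpos]
  · intro j hj
    have hN := take_sum_ge hcs hj
    set N := (cs.take (j + 1)).sum with hNdef
    have hLk : 1 ≤ L ^ (2 * k + 2) := Nat.one_le_pow _ _ hL1
    have hN1 : 1 ≤ N := le_trans (by nlinarith) hN
    have h1 := hl2 s hs0 hs1 N hN1 (Kp f ^ j) (l1_Kp_pow_le (by linarith) (by linarith) j)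
    rw [pow_zero, one_mul, pow_zero, one_mul] at h1
    have hsq : (L : ℝ) ^ (k + 1) * √((j : ℝ) + 1) ≤ √(N : ℝ) := by
      apply Real.le_sqrt_of_sq_le
      rw [mul_pow, Real.sq_sqrt (by positivity), ← pow_mul]
      have : (((j + 1) * L ^ (2 * k + 2) : ℕ) : ℝ) ≤ (N : ℝ) := by exact_mod_cast hN
      push_cast at this
      have e : (k + 1) * 2 = 2 * k + 2 := by ring
      rw [e]
      linarith
    have hsqj : 0 < √((j : ℝ) + 1) := by positivity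
    have hD : 0 < (L : ℝ) ^ (k + 1) * √((j : ℝ) + 1) := by positivity
    have h2 : l2 (pre s f cs j) ≤ C / ((L : ℝ) ^ (k + 1) * √((j : ℝ) + 1)) :=
      h1.trans (div_le_div_of_nonneg_left hC.le hD hsq)
    have h3 : l1 (pre s f cs j) ≤ 1 :=
      l1_KK_le (by linarith) (by linarith) (by linarith) (by linarith) _ _
    have hlen : (cs.length : ℝ) ≤ 3 * (L : ℝ) ^ (2 * k) := by exact_mod_cast hcs.1
    have h4 : 2 * (cs.length : ℝ) * (1 / (L : ℝ) ^ (5 * k + 5)) * l1 (pre s f cs j) ≤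
        12 / ((L : ℝ) ^ (k + 1) * √((j : ℝ) + 1)) := by
      have h5 : 2 * (cs.length : ℝ) * (1 / (L : ℝ) ^ (5 * k + 5)) * l1 (pre s f cs j) ≤
          2 * (3 * (L : ℝ) ^ (2 * k)) * (1 / (L : ℝ) ^ (5 * k + 5)) * 1 := by
        have := l1_nonneg (pre s f cs j)
        gcongr
      refine h5.trans ?_
      rw [le_div_iff₀ hD]
      have h6 := sqrt_index_le hcs hj
      have h7 : 2 * (3 * (L : ℝ) ^ (2 * k)) * (1 / (L : ℝ) ^ (5 * k + 5)) * 1 *
          ((L : ℝ) ^ (k + 1) * √((j : ℝ) + 1)) ≤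
          2 * (3 * (L : ℝ) ^ (2 * k)) * (1 / (L : ℝ) ^ (5 * k + 5)) * 1 *
          ((L : ℝ) ^ (k + 1) * (2 * (L : ℝ) ^ k)) := by gcongr
      refine h7.trans ?_
      have h8 : 2 * (3 * (L : ℝ) ^ (2 * k)) * (1 / (L : ℝ) ^ (5 * k + 5)) * 1 *
          ((L : ℝ) ^ (k + 1) * (2 * (L : ℝ) ^ k)) =
          12 * ((L : ℝ) ^ (4 * k + 1) / (L : ℝ) ^ (5 * k + 5)) := by
        have : (L : ℝ) ^ (4 * k + 1) = (L : ℝ) ^ (2 * k) * ((L : ℝ) ^ (k + 1) * (L : ℝ) ^ k) := by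
          rw [← pow_add, ← pow_add]; congr 1; ring
        rw [this]; ring
      rw [h8]
      have h9 : (L : ℝ) ^ (4 * k + 1) / (L : ℝ) ^ (5 * k + 5) ≤ 1 := by
        rw [div_le_one (by positivity)]
        exact pow_le_pow_right₀ hL1' (by omega)
      linarith
    have e : (2 * C + 12) / ((L : ℝ) ^ (k + 1) * √((j : ℝ) + 1)) =
        2 * (C / ((L : ℝ) ^ (k + 1) * √((j : ℝ) + 1))) +
          12 / ((L : ℝ) ^ (k + 1) * √((j : ℝ) + 1)) := by ring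
    simp only [e]
    push_cast
    linarith

theorem step_deriv {c : ℝ} (hc : 0 < c) (k : ℕ) :
    ∃ C : ℝ, 0 < C ∧ ∃ L0 : ℕ, ∀ L ≥ L0, ∀ s f : ℝ, Good c s f → ∀ cs : List ℕ, Adm k L cs →
      ∀ (θ : ℝ[X]) (b : Bool) (w : ℝ), 0 ≤ w → ∀ P0 : ℝ,
      Bd b (fun y => (((X - 1) * (Kp s ^ cs.sum * Kp f ^ cs.length) * θ).coeff y) ^ 2) P0 →
      ∀ B : ℕ → ℝ, (∀ j < cs.length, SB b w (chainK s f (cs.drop (j + 1)) θ) (B j)) →
      SB b w (ι (X - 1) * chainK s f cs θ)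
        (P0 + w * C / (L : ℝ) ^ (3 * k + 3) *
          ∑ j ∈ range cs.length, B j / (((j : ℝ) + 1) * √((j : ℝ) + 1))) := by
  obtain ⟨C, hC, hl2⟩ := l2_bound 1 hc
  obtain ⟨L0, hnd⟩ := nd_deriv hc k (8 * k + 8)
  refine ⟨2 * C + 72, by positivity, max L0 1, ?_⟩
  intro L hL s f hsf cs hcs θ b w hw P0 hP0 B hB
  have hL1 : 1 ≤ L := (le_max_right _ _).trans hL
  have hL1' : (1 : ℝ) ≤ L := by exact_mod_cast hL1
  have hLpos : (0 : ℝ) < L := by linarith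
  obtain ⟨hs0, hs1, hf0, hf1⟩ := hsf
  have hsb := SB_decomp (b := b) hw ((X - 1) * (Kp s ^ cs.sum * Kp f ^ cs.length) * θ) cs.length
    (fun j => (X - 1) * pre s f cs j) (fun j => chainK s f (cs.drop (j + 1)) θ) 1
    (τ := 1 / (L : ℝ) ^ (8 * k + 8)) (by positivity)
    (fun g => hnd L ((le_max_left _ _).trans hL) s f ⟨hs0, hs1, hf0, hf1⟩ cs hcs g)
    (fun j => (2 * C + 72) / ((L : ℝ) ^ (3 * k + 3) * (((j : ℝ) + 1) * √((j : ℝ) + 1))))
    B P0 hP0 ?_ hB f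
  · have hd := chain_decomp s f cs θ (X - 1)
    rw [← hd] at hsb
    refine SB_mono hsb ?_
    have hf2 : f ^ 2 ≤ 1 := by nlinarith
    have hterm : ∀ j ∈ range cs.length, 0 ≤ B j / (((j : ℝ) + 1) * √((j : ℝ) + 1)) := by
      intro j hj
      have := SB_nonneg hw (hB j (mem_range.1 hj))
      positivity
    have hsum : 0 ≤ ∑ j ∈ range cs.length, B j / (((j : ℝ) + 1) * √((j : ℝ) + 1)) :=
      Finset.sum_nonneg hterm
    have e : ∑ j ∈ range cs.length,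
        (2 * C + 72) / ((L : ℝ) ^ (3 * k + 3) * (((j : ℝ) + 1) * √((j : ℝ) + 1))) * B j =
        (2 * C + 72) / (L : ℝ) ^ (3 * k + 3) *
          ∑ j ∈ range cs.length, B j / (((j : ℝ) + 1) * √((j : ℝ) + 1)) := by
      rw [Finset.mul_sum]
      refine Finset.sum_congr rfl (fun j _ => ?_)
      have : 0 < √((j : ℝ) + 1) := by positivity
      field_simp
    rw [e]
    generalize ∑ j ∈ range cs.length, B j / (((j : ℝ) + 1) * √((j : ℝ) + 1)) = T at hsum ⊢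
    have e2 : w * (2 * C + 72) / (L : ℝ) ^ (3 * k + 3) * T =
        (w * ((2 * C + 72) / (L : ℝ) ^ (3 * k + 3) * T)) * 1 := by ring
    rw [e2]
    have e3 : w * f ^ 2 * ((2 * C + 72) / (L : ℝ) ^ (3 * k + 3) * T) =
        (w * ((2 * C + 72) / (L : ℝ) ^ (3 * k + 3) * T)) * f ^ 2 := by ring
    rw [e3]
    have hpos : 0 ≤ w * ((2 * C + 72) / (L : ℝ) ^ (3 * k + 3) * T) := by positivity
    linarith [mul_le_mul_of_nonneg_left hf2 hpos]
  · intro j hj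
    have hN := take_sum_ge hcs hj
    set N := (cs.take (j + 1)).sum with hNdef
    have hLk : 1 ≤ L ^ (2 * k + 2) := Nat.one_le_pow _ _ hL1
    have hN1 : 1 ≤ N := le_trans (by nlinarith) hN
    have h1 := hl2 s hs0 hs1 N hN1 (Kp f ^ j) (l1_Kp_pow_le (by linarith) (by linarith) j)
    rw [pow_one, pow_one, mul_assoc] at h1
    have hNr : ((j : ℝ) + 1) * (L : ℝ) ^ (2 * k + 2) ≤ (N : ℝ) := by
      have : (((j + 1) * L ^ (2 * k + 2) : ℕ) : ℝ) ≤ (N : ℝ) := by exact_mod_cast hN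
      push_cast at this
      exact this
    have hsq : (L : ℝ) ^ (k + 1) * √((j : ℝ) + 1) ≤ √(N : ℝ) := by
      apply Real.le_sqrt_of_sq_le
      rw [mul_pow, Real.sq_sqrt (by positivity), ← pow_mul]
      have e : (k + 1) * 2 = 2 * k + 2 := by ring
      rw [e]
      linarith
    have hsqj : 0 < √((j : ℝ) + 1) := by positivity
    have hD : 0 < (L : ℝ) ^ (3 * k + 3) * (((j : ℝ) + 1) * √((j : ℝ) + 1)) := by positivity
    have hDN : (L : ℝ) ^ (3 * k + 3) * (((j : ℝ) + 1) * √((j : ℝ) + 1)) ≤ (N : ℝ) * √(N : ℝ) := by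
      have e : (L : ℝ) ^ (3 * k + 3) * (((j : ℝ) + 1) * √((j : ℝ) + 1)) =
          (((j : ℝ) + 1) * (L : ℝ) ^ (2 * k + 2)) * ((L : ℝ) ^ (k + 1) * √((j : ℝ) + 1)) := by
        have : (L : ℝ) ^ (3 * k + 3) = (L : ℝ) ^ (2 * k + 2) * (L : ℝ) ^ (k + 1) := by
          rw [← pow_add]; congr 1; ring
        rw [this]; ring
      rw [e]
      gcongr
    have h2 : l2 ((X - 1) * pre s f cs j) ≤
        C / ((L : ℝ) ^ (3 * k + 3) * (((j : ℝ) + 1) * √((j : ℝ) + 1))) :=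
      h1.trans (div_le_div_of_nonneg_left hC.le hD hDN)
    have h3 : l1 ((X - 1) * pre s f cs j) ≤ 2 := by
      refine (l1_mul_le _ _).trans ?_
      have h31 : l1 (pre s f cs j) ≤ 1 :=
        l1_KK_le (by linarith) (by linarith) (by linarith) (by linarith) _ _
      have h32 := l1_X_sub_one
      have h33 := l1_nonneg (pre s f cs j)
      have h34 := l1_nonneg (X - 1 : ℝ[X])
      nlinarith
    have hlen : (cs.length : ℝ) ≤ 3 * (L : ℝ) ^ (2 * k) := by exact_mod_cast hcs.1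
    have hj3 : (j : ℝ) + 1 ≤ 3 * (L : ℝ) ^ (2 * k) := by
      have : (j + 1 : ℕ) ≤ 3 * L ^ (2 * k) := (Nat.succ_le_of_lt hj).trans hcs.1
      exact_mod_cast this
    have h4 : 2 * (cs.length : ℝ) * (1 / (L : ℝ) ^ (8 * k + 8)) * l1 ((X - 1) * pre s f cs j) ≤
        72 / ((L : ℝ) ^ (3 * k + 3) * (((j : ℝ) + 1) * √((j : ℝ) + 1))) := by
      have h5 : 2 * (cs.length : ℝ) * (1 / (L : ℝ) ^ (8 * k + 8)) * l1 ((X - 1) * pre s f cs j) ≤
          2 * (3 * (L : ℝ) ^ (2 * k)) * (1 / (L : ℝ) ^ (8 * k + 8)) * 2 := by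
        have := l1_nonneg ((X - 1) * pre s f cs j)
        gcongr
      refine h5.trans ?_
      rw [le_div_iff₀ hD]
      have h6 := sqrt_index_le hcs hj
      have h7 : 2 * (3 * (L : ℝ) ^ (2 * k)) * (1 / (L : ℝ) ^ (8 * k + 8)) * 2 *
          ((L : ℝ) ^ (3 * k + 3) * (((j : ℝ) + 1) * √((j : ℝ) + 1))) ≤
          2 * (3 * (L : ℝ) ^ (2 * k)) * (1 / (L : ℝ) ^ (8 * k + 8)) * 2 *
          ((L : ℝ) ^ (3 * k + 3) * ((3 * (L : ℝ) ^ (2 * k)) * (2 * (L : ℝ) ^ k))) := by gcongr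
      refine h7.trans ?_
      have h8 : 2 * (3 * (L : ℝ) ^ (2 * k)) * (1 / (L : ℝ) ^ (8 * k + 8)) * 2 *
          ((L : ℝ) ^ (3 * k + 3) * ((3 * (L : ℝ) ^ (2 * k)) * (2 * (L : ℝ) ^ k))) =
          72 * ((L : ℝ) ^ (8 * k + 3) / (L : ℝ) ^ (8 * k + 8)) := by
        have : (L : ℝ) ^ (8 * k + 3) = (L : ℝ) ^ (2 * k) * ((L : ℝ) ^ (3 * k + 3) *
            ((L : ℝ) ^ (2 * k) * (L : ℝ) ^ k)) := by
          rw [← pow_add, ← pow_add, ← pow_add]; congr 1; ring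
        rw [this]; ring
      rw [h8]
      have h9 : (L : ℝ) ^ (8 * k + 3) / (L : ℝ) ^ (8 * k + 8) ≤ 1 := by
        rw [div_le_one (by positivity)]
        exact pow_le_pow_right₀ hL1' (by omega)
      linarith
    have e : (2 * C + 72) / ((L : ℝ) ^ (3 * k + 3) * (((j : ℝ) + 1) * √((j : ℝ) + 1))) =
        2 * (C / ((L : ℝ) ^ (3 * k + 3) * (((j : ℝ) + 1) * √((j : ℝ) + 1)))) +
          72 / ((L : ℝ) ^ (3 * k + 3) * (((j : ℝ) + 1) * √((j : ℝ) + 1))) := by ring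
    simp only [e]
    push_cast
    linarith

/-- long prefix; the pure part may be subtracted (`P0 = 0`) or kept -/
theorem step_outer {c : ℝ} (hc : 0 < c) (k C0 : ℕ) :
    ∃ C : ℝ, 0 < C ∧ ∃ L0 : ℕ, ∀ L ≥ L0, ∀ s f : ℝ, Good c s f → ∀ cs : List ℕ, Adm k L cs →
      ∀ N0 i0 : ℕ, L ^ (4 * k + 6) ≤ C0 * N0 → N0 ≤ C0 * L ^ (4 * k + 6) →
      i0 ≤ L ^ (4 * k + 6) →
      ∀ (θ : ℝ[X]) (b : Bool) (w : ℝ), 0 ≤ w →
      ∀ B : ℕ → ℝ, (∀ j < cs.length, SB b w (chainK s f (cs.drop (j + 1)) θ) (B j)) →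
      SB b w (ι (Kp s ^ N0 * Kp f ^ i0) * chainK s f cs θ -
          ι (Kp s ^ N0 * Kp f ^ i0 * (Kp s ^ cs.sum * Kp f ^ cs.length) * θ))
        (w * C / (L : ℝ) ^ (2 * k + 1) * ∑ j ∈ range cs.length, B j) := by
  obtain ⟨C, hC, hl2⟩ := l2_bound 0 hc
  obtain ⟨C1, L0, hnd⟩ := nd_outer hc k (8 * k + 8) C0
  refine ⟨2 * C1 * (C * √(C0 : ℝ)) + 6, by positivity, max L0 1, ?_⟩
  intro L hL s f hsf cs hcs N0 i0 hN0 hN0' hi0 θ b w hw B hB
  have hL1 : 1 ≤ L := (le_max_right _ _).trans hL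
  have hL1' : (1 : ℝ) ≤ L := by exact_mod_cast hL1
  have hLpos : (0 : ℝ) < L := by linarith
  obtain ⟨hs0, hs1, hf0, hf1⟩ := hsf
  have hBd0 : Bd b (fun y => ((0 : ℝ[X]).coeff y) ^ 2) 0 := by
    cases b
    · intro y
      simp
    · intro Y
      simp
  have hsb := SB_decomp (b := b) hw 0 cs.length
    (fun j => Kp s ^ N0 * Kp f ^ i0 * pre s f cs j) (fun j => chainK s f (cs.drop (j + 1)) θ)
    (C1 * L ^ 2) (τ := 1 / (L : ℝ) ^ (8 * k + 8)) (by positivity)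
    (fun g => hnd L ((le_max_left _ _).trans hL) s f ⟨hs0, hs1, hf0, hf1⟩ cs hcs N0 i0 hN0' hi0 g)
    (fun _ => (2 * C1 * (C * √(C0 : ℝ)) + 6) / (L : ℝ) ^ (2 * k + 1)) B 0 hBd0 ?_ hB f
  · have hd := chain_decomp s f cs θ (Kp s ^ N0 * Kp f ^ i0)
    rw [hd, add_sub_cancel_left]
    rw [map_zero, zero_add, zero_add] at hsb
    refine SB_mono hsb ?_
    have hf2 : f ^ 2 ≤ 1 := by nlinarith
    have hsum : 0 ≤ ∑ j ∈ range cs.length, B j :=
      Finset.sum_nonneg (fun j hj => SB_nonneg hw (hB j (mem_range.1 hj)))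
    rw [← Finset.mul_sum]
    generalize ∑ j ∈ range cs.length, B j = T at hsum ⊢
    have hpos : 0 ≤ w * (2 * C1 * (C * √(C0 : ℝ)) + 6) / (L : ℝ) ^ (2 * k + 1) * T := by
      positivity
    have e3 : w * f ^ 2 * ((2 * C1 * (C * √(C0 : ℝ)) + 6) / (L : ℝ) ^ (2 * k + 1) * T) =
        (w * (2 * C1 * (C * √(C0 : ℝ)) + 6) / (L : ℝ) ^ (2 * k + 1) * T) * f ^ 2 := by ring
    rw [e3]
    exact mul_le_of_le_one_right hpos hf2
  · intro j hj
    set N := (cs.take (j + 1)).sum with hNdef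
    have hLk : 1 ≤ L ^ (4 * k + 6) := Nat.one_le_pow _ _ hL1
    have hN01 : 1 ≤ N0 := by
      rcases Nat.eq_zero_or_pos N0 with h | h
      · rw [h, mul_zero] at hN0
        omega
      · exact h
    have h1 := hl2 s hs0 hs1 (N0 + N) (by omega) (Kp f ^ (i0 + j))
      (l1_Kp_pow_le (by linarith) (by linarith) (i0 + j))
    rw [pow_zero, one_mul, pow_zero, one_mul] at h1
    have e0 : Kp s ^ (N0 + N) * Kp f ^ (i0 + j) = Kp s ^ N0 * Kp f ^ i0 * pre s f cs j := by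
      rw [pre, pow_add, pow_add]
      ring
    rw [e0] at h1
    have hsq : (L : ℝ) ^ (2 * k + 3) ≤ √(C0 : ℝ) * √((N0 + N : ℕ) : ℝ) := by
      rw [← Real.sqrt_mul (by positivity)]
      apply Real.le_sqrt_of_sq_le
      rw [← pow_mul]
      have e : (2 * k + 3) * 2 = 4 * k + 6 := by ring
      rw [e]
      have h5 : L ^ (4 * k + 6) ≤ C0 * (N0 + N) := hN0.trans (Nat.mul_le_mul_left _ (by omega))
      exact_mod_cast h5
    have hNpos : 0 < √((N0 + N : ℕ) : ℝ) := by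
      apply Real.sqrt_pos.2
      have : 0 < N0 + N := by omega
      exact_mod_cast this
    have h2 : l2 (Kp s ^ N0 * Kp f ^ i0 * pre s f cs j) ≤
        C * √(C0 : ℝ) / (L : ℝ) ^ (2 * k + 3) := by
      refine h1.trans ?_
      rw [div_le_div_iff₀ hNpos (by positivity)]
      have := mul_le_mul_of_nonneg_left hsq hC.le
      linarith
    have h3 : l1 (Kp s ^ N0 * Kp f ^ i0 * pre s f cs j) ≤ 1 := by
      rw [← e0]
      exact l1_KK_le (by linarith) (by linarith) (by linarith) (by linarith) _ _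
    have hlen : (cs.length : ℝ) ≤ 3 * (L : ℝ) ^ (2 * k) := by exact_mod_cast hcs.1
    have h4 : 2 * (cs.length : ℝ) * (1 / (L : ℝ) ^ (8 * k + 8)) *
        l1 (Kp s ^ N0 * Kp f ^ i0 * pre s f cs j) ≤ 6 / (L : ℝ) ^ (2 * k + 1) := by
      have h5 : 2 * (cs.length : ℝ) * (1 / (L : ℝ) ^ (8 * k + 8)) *
          l1 (Kp s ^ N0 * Kp f ^ i0 * pre s f cs j) ≤
          2 * (3 * (L : ℝ) ^ (2 * k)) * (1 / (L : ℝ) ^ (8 * k + 8)) * 1 := by
        have := l1_nonneg (Kp s ^ N0 * Kp f ^ i0 * pre s f cs j)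
        gcongr
      refine h5.trans ?_
      rw [le_div_iff₀ (by positivity)]
      have h8 : 2 * (3 * (L : ℝ) ^ (2 * k)) * (1 / (L : ℝ) ^ (8 * k + 8)) * 1 *
          (L : ℝ) ^ (2 * k + 1) = 6 * ((L : ℝ) ^ (4 * k + 1) / (L : ℝ) ^ (8 * k + 8)) := by
        have : (L : ℝ) ^ (4 * k + 1) = (L : ℝ) ^ (2 * k) * (L : ℝ) ^ (2 * k + 1) := by
          rw [← pow_add]; congr 1; ring
        rw [this]; ring
      rw [h8]
      have h9 : (L : ℝ) ^ (4 * k + 1) / (L : ℝ) ^ (8 * k + 8) ≤ 1 := by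
        rw [div_le_one (by positivity)]
        exact pow_le_pow_right₀ hL1' (by omega)
      linarith
    have h6 : 2 * ((C1 * L ^ 2 : ℕ) : ℝ) * l2 (Kp s ^ N0 * Kp f ^ i0 * pre s f cs j) ≤
        2 * C1 * (C * √(C0 : ℝ)) / (L : ℝ) ^ (2 * k + 1) := by
      have h7 := mul_le_mul_of_nonneg_left h2
        (show (0 : ℝ) ≤ 2 * ((C1 * L ^ 2 : ℕ) : ℝ) by positivity)
      refine h7.trans (le_of_eq ?_)
      have : (L : ℝ) ^ (2 * k + 3) = (L : ℝ) ^ (2 * k + 1) * (L : ℝ) ^ 2 := by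
        rw [← pow_add]
      rw [this]
      push_cast
      field_simp
    have e : (2 * C1 * (C * √(C0 : ℝ)) + 6) / (L : ℝ) ^ (2 * k + 1) =
        2 * C1 * (C * √(C0 : ℝ)) / (L : ℝ) ^ (2 * k + 1) + 6 / (L : ℝ) ^ (2 * k + 1) := by ring
    simp only [e]
    linarith

end P321
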