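import Vale.Agent.TR321.TraceNC
import Vale.Agent.TR321.SiteBounds

/-! # P321 module Tilt: block words of the strings, exponential tilting -/

namespace P321

open Polynomial NC Finset

/-- the block word (`false = K`, `true = F`) of the string with sites `as` -/
def strW (e a b : ℕ) (as : List Bool) : List Bool :=
  List.replicate a false ++
    as.flatMap (fun α => List.replicate (e + α.toNat) false ++
      true :: List.replicate (e - α.toNat) false) ++
    List.replicate b false

theorem maskLaw_append (s f : ℝ) (V W : List Bool) :
    maskLaw s f (V ++ W) = maskLaw s f V * maskLaw s f W := by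
  unfold maskLaw
  rw [List.map_append, List.prod_append]

theorem Tilt_maskLaw_replicate (s f : ℝ) (n : ℕ) :
    maskLaw s f (List.replicate n false) = ι (Kp s ^ n) := by
  unfold maskLaw
  rw [List.map_replicate, List.prod_replicate, map_pow]
  simp

theorem Tilt_maskLaw_cons_true (s f : ℝ) (W : List Bool) :
    maskLaw s f (true :: W) = Fn f * maskLaw s f W := by
  simp [maskLaw]

theorem Tilt_maskLaw_cons_false (s f : ℝ) (W : List Bool) :
    maskLaw s f (false :: W) = ι (Kp s) * maskLaw s f W := by
  simp [maskLaw]

theorem maskLaw_strW (s f : ℝ) (e a b : ℕ) (as : List Bool) :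
    maskLaw s f (strW e a b as) = Xn s f e a b as := by
  have key : maskLaw s f (as.flatMap (fun α => List.replicate (e + α.toNat) false ++
      true :: List.replicate (e - α.toNat) false)) = sites s f e as := by
    induction as with
    | nil => simp [maskLaw, sites]
    | cons α as ih =>
      rw [List.flatMap_cons, maskLaw_append, ih, maskLaw_append, Tilt_maskLaw_replicate,
        Tilt_maskLaw_cons_true, Tilt_maskLaw_replicate]
      simp only [sites, List.map_cons, List.prod_cons, site, mul_assoc]
  unfold strW Xn
  rw [maskLaw_append, maskLaw_append, Tilt_maskLaw_replicate, Tilt_maskLaw_replicate, key]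

theorem Tilt_count_replicate (n : ℕ) : (List.replicate n false).count true = 0 := by
  rw [List.count_replicate]
  simp

theorem strW_count_true (e a b : ℕ) (as : List Bool) :
    (strW e a b as).count true = as.length := by
  unfold strW
  rw [List.count_append, List.count_append, Tilt_count_replicate, Tilt_count_replicate, zero_add,
    add_zero]
  induction as with
  | nil => simp
  | cons α as ih =>
    rw [List.flatMap_cons, List.count_append, ih, List.count_append, Tilt_count_replicate,
      List.count_cons_self, Tilt_count_replicate, List.length_cons]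
    omega

theorem strW_count_false {e : ℕ} (he : 1 ≤ e) (a b : ℕ) (as : List Bool) :
    (strW e a b as).count false = a + b + 2 * e * as.length := by
  have key : (as.flatMap (fun α => List.replicate (e + α.toNat) false ++
      true :: List.replicate (e - α.toNat) false)).count false = 2 * e * as.length := by
    induction as with
    | nil => simp
    | cons α as ih =>
      rw [List.flatMap_cons, List.count_append, ih, List.count_append, List.count_replicate_self,
        List.count_cons_of_ne (by decide), List.count_replicate_self, List.length_cons, mul_add]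
      have : α.toNat ≤ 1 := by cases α <;> simp
      omega
  unfold strW
  rw [List.count_append, List.count_append, List.count_replicate_self, List.count_replicate_self,
    key]
  omega

theorem strW_length {e : ℕ} (he : 1 ≤ e) (a b : ℕ) (as : List Bool) :
    (strW e a b as).length = a + b + 2 * e * as.length + as.length := by
  rw [← List.count_false_add_count_true, strW_count_false he, strW_count_true]

theorem bits_length (W : List Bool) :
    (bits W).length = 2 * W.count false + W.count true := by
  unfold bits
  induction W with
  | nil => simp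
  | cons b W ih =>
    rw [List.flatMap_cons, List.length_append, ih]
    cases b <;> simp <;> omega

theorem Tilt_bits_inj : ∀ V W : List Bool, bits V = bits W → V = W
  | [], [], _ => rfl
  | [], (b :: W), h => by cases b <;> simp [bits] at h
  | (b :: V), [], h => by cases b <;> simp [bits] at h
  | (b :: V), (c :: W), h => by
    have h' : (if b then [true] else [false, true]) ++ bits V =
        (if c then [true] else [false, true]) ++ bits W := h
    cases b <;> cases c <;> simp at h'
    · rw [Tilt_bits_inj V W h']
    · rw [Tilt_bits_inj V W h']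

theorem Tilt_block_inj {e : ℕ} {α β : Bool}
    (h : List.replicate (e + α.toNat) false ++ true :: List.replicate (e - α.toNat) false =
      List.replicate (e + β.toNat) false ++ true :: List.replicate (e - β.toNat) false) :
    α = β := by
  cases α <;> cases β
  · rfl
  · exfalso
    simp only [Bool.toNat_false, Bool.toNat_true, add_zero, Nat.sub_zero] at h
    rw [List.replicate_succ', List.append_assoc] at h
    have := List.append_cancel_left h
    simp at this
  · exfalso
    simp only [Bool.toNat_false, Bool.toNat_true, add_zero, Nat.sub_zero] at h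
    rw [List.replicate_succ', List.append_assoc] at h
    have := List.append_cancel_left h
    simp at this
  · rfl

/-- words with different site lists give different bit strings -/
theorem bits_strW_ne {e : ℕ} (he : 1 ≤ e) (a b : ℕ) {as bs : List Bool}
    (h : as.length = bs.length) (hne : as ≠ bs) :
    bits (strW e a b as) ≠ bits (strW e a b bs) := by
  intro hb
  apply hne
  have h1 := Tilt_bits_inj _ _ hb
  unfold strW at h1
  have h2 := List.append_cancel_left (List.append_cancel_right h1)
  clear hne hb h1
  induction as generalizing bs with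
  | nil =>
    cases bs with
    | nil => rfl
    | cons β bs => simp at h
  | cons α as ih =>
    cases bs with
    | nil => simp at h
    | cons β bs =>
      rw [List.flatMap_cons, List.flatMap_cons] at h2
      have hl : ∀ γ : Bool, (List.replicate (e + γ.toNat) false ++
          true :: List.replicate (e - γ.toNat) false).length = 2 * e + 1 := by
        intro γ
        rw [List.length_append, List.length_replicate, List.length_cons, List.length_replicate]
        have : γ.toNat ≤ 1 := by cases γ <;> simp
        omega
      obtain ⟨h3, h4⟩ := List.append_inj h2 ((hl α).trans (hl β).symm)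
      rw [Tilt_block_inj h3, ih (by simpa using h) h4]

/-- the grading automorphism `Z ↦ (u ↦ t^{|u|} Z u)` -/
noncomputable def scal (t : ℝ) (Z : NC) : NC := fun u => t ^ u.length * Z u

theorem Tilt_scal_apply (t : ℝ) (Z : NC) (u : List Bool) : scal t Z u = t ^ u.length * Z u := rfl

theorem Tilt_d_scal (t : ℝ) (b : Bool) (Z : NC) : d b (scal t Z) = t • scal t (d b Z) := by
  ext u
  simp only [d_apply, Tilt_scal_apply, smul_apply, List.length_cons, pow_succ]
  ring

theorem scal_mul (t : ℝ) (Y Z : NC) : scal t (Y * Z) = scal t Y * scal t Z := by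
  ext u
  induction u generalizing Y with
  | nil => simp [Tilt_scal_apply]
  | cons b u ih =>
    have h1 := ih (d b Y)
    rw [mul_cons, Tilt_d_scal, smul_mul', smul_apply, ← h1]
    simp only [Tilt_scal_apply, mul_cons, List.length_cons, List.length_nil]
    ring

theorem Tilt_scal_add (t : ℝ) (Y Z : NC) : scal t (Y + Z) = scal t Y + scal t Z := by
  ext u
  simp only [Tilt_scal_apply, add_apply]
  ring

theorem Tilt_scal_smul (t c : ℝ) (Z : NC) : scal t (c • Z) = c • scal t Z := by
  ext u
  simp only [Tilt_scal_apply, smul_apply]
  ring

theorem Tilt_scal_one (t : ℝ) : scal t 1 = 1 := by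
  ext u
  cases u <;> simp [Tilt_scal_apply]

theorem Tilt_scal_ltr (t : ℝ) (b : Bool) : scal t (ltr b) = t • ltr b := by
  ext u
  simp only [Tilt_scal_apply, smul_apply, ltr]
  by_cases h : u = [b]
  · simp [h]
  · simp [h]

theorem S_scal (t w : ℝ) (m : ℕ) (Z : NC) : S w m (scal t Z) = t ^ (2 * m) * S w m Z := by
  induction m generalizing Z with
  | zero => simp [Tilt_scal_apply]
  | succ m ih =>
    rw [S_succ, S_succ, Tilt_d_scal, Tilt_d_scal, S_smul, S_smul, ih, ih]
    ring

theorem Tilt_ι_Kp (s : ℝ) : ι (Kp s) = (1 - s) • (1 : NC) + s • x0 := by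
  unfold Kp
  rw [map_add, map_mul, ι_C, ι_C, ι_X, smul_mul_assoc, one_mul]

theorem Tilt_scal_Kp {s t : ℝ} (hs : 1 - s + s * t ≠ 0) :
    scal t (ι (Kp s)) = (1 - s + s * t) • ι (Kp (s * t / (1 - s + s * t))) := by
  rw [Tilt_ι_Kp, Tilt_ι_Kp, Tilt_scal_add, Tilt_scal_smul, Tilt_scal_smul, Tilt_scal_one,
    Tilt_scal_ltr, smul_add, smul_smul, smul_smul, smul_smul, mul_div_cancel₀ _ hs, mul_sub,
    mul_div_cancel₀ _ hs]
  congr 2
  ring

theorem Tilt_scal_Fn {f t : ℝ} (hf : 1 - f + f * t ≠ 0) :
    scal t (Fn f) = (1 - f + f * t) • Fn (f * t / (1 - f + f * t)) := by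
  unfold Fn
  rw [Tilt_scal_add, Tilt_scal_Kp hf, Tilt_scal_smul, Tilt_scal_ltr, smul_add, smul_smul,
    smul_smul, mul_div_cancel₀ _ hf]

/-- tilting changes the parameters and multiplies by a constant -/
theorem scal_maskLaw {s f t : ℝ} (hs : 1 - s + s * t ≠ 0) (hf : 1 - f + f * t ≠ 0)
    (W : List Bool) :
    scal t (maskLaw s f W) =
      ((1 - s + s * t) ^ W.count false * (1 - f + f * t) ^ W.count true) •
        maskLaw (s * t / (1 - s + s * t)) (f * t / (1 - f + f * t)) W := by
  induction W with
  | nil => simp [maskLaw, Tilt_scal_one]
  | cons b W ih =>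
    cases b with
    | false =>
      rw [Tilt_maskLaw_cons_false, Tilt_maskLaw_cons_false, scal_mul, ih, Tilt_scal_Kp hs,
        List.count_cons_self, List.count_cons_of_ne (by decide), smul_mul_assoc, mul_smul_comm,
        smul_smul]
      congr 1
      ring
    | true =>
      rw [Tilt_maskLaw_cons_true, Tilt_maskLaw_cons_true, scal_mul, ih, Tilt_scal_Fn hf,
        List.count_cons_self, List.count_cons_of_ne (by decide), smul_mul_assoc, mul_smul_comm,
        smul_smul]
      congr 1
      ring

theorem Tilt_Kp_comp {s t : ℝ} (hs : 1 - s + s * t ≠ 0) :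
    (Kp s).comp (C t * X) = C (1 - s + s * t) * Kp (s * t / (1 - s + s * t)) := by
  unfold Kp
  rw [add_comp, mul_comp, C_comp, C_comp, X_comp, mul_add, ← mul_assoc, ← mul_assoc, ← C_mul,
    ← C_mul, ← C_mul, mul_div_cancel₀ _ hs, mul_sub, mul_div_cancel₀ _ hs]
  congr 2
  ring

theorem scal_KK {s f t : ℝ} (hs : 1 - s + s * t ≠ 0) (hf : 1 - f + f * t ≠ 0) (N v m : ℕ) :
    t ^ m * (Kp s ^ N * Kp f ^ v).coeff m =
      ((1 - s + s * t) ^ N * (1 - f + f * t) ^ v) *
        (Kp (s * t / (1 - s + s * t)) ^ N * Kp (f * t / (1 - f + f * t)) ^ v).coeff m := by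
  have h := congrArg (fun P => Polynomial.coeff P m)
    (show (Kp s ^ N * Kp f ^ v).comp (C t * X) =
      C ((1 - s + s * t) ^ N * (1 - f + f * t) ^ v) *
        (Kp (s * t / (1 - s + s * t)) ^ N * Kp (f * t / (1 - f + f * t)) ^ v) by
      rw [mul_comp, pow_comp, pow_comp, Tilt_Kp_comp hs, Tilt_Kp_comp hf, C_mul, C_pow, C_pow]
      ring)
  simp only [comp_C_mul_X_coeff, coeff_C_mul] at h
  rw [mul_comm, h]

end P321
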